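import Vale.Agent.P146.H479.Val
import Vale.Agent.P146.R2.H144.Scale

/-!
# P146: from a Gaussian field to a rank one spike, tools (helper379)

`nm`, `un`: euclidean norm and unit vector; `mm u = (√2 u_i u_j, u_i ^ 2)`.
-/

open MeasureTheory ProbabilityTheory

namespace Vale.Agent.P146.H379.FS

open Vale.Agent.P157 Vale.Agent.P157.Lv Vale.Agent.P157.Lv.Sy
open Vale.Agent.P146.H425 Vale.Agent.P146.H325 Vale.Agent.P146.H332 Vale.Agent.P146.H93
  Vale.Agent.P146.H479 Vale.Agent.P146.U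

set_option linter.unusedSectionVars false

section gen

variable {ν α γ : Type} [Fintype ν] [Fintype α] [Fintype γ]

/-- the euclidean norm -/
noncomputable def nm (h : ν → ℝ) : ℝ := √(∑ i, h i ^ 2)

/-- the unit vector -/
noncomputable def un (h : ν → ℝ) : ν → ℝ := fun i => h i / nm h

lemma sum_nonneg (h : ν → ℝ) : 0 ≤ ∑ i, h i ^ 2 := Finset.sum_nonneg fun _ _ => sq_nonneg _

lemma nm_nonneg (h : ν → ℝ) : 0 ≤ nm h := Real.sqrt_nonneg _

lemma nm_sq (h : ν → ℝ) : nm h ^ 2 = ∑ i, h i ^ 2 := Real.sq_sqrt (sum_nonneg h)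

lemma nm_smul {s : ℝ} (hs : 0 ≤ s) (h : ν → ℝ) : nm (s • h) = s * nm h := by
  unfold nm
  have h1 : ∑ i, (s • h) i ^ 2 = s ^ 2 * ∑ i, h i ^ 2 := by
    rw [Finset.mul_sum]
    exact Finset.sum_congr rfl fun i _ => by
      rw [Pi.smul_apply, smul_eq_mul]
      ring
  rw [h1, Real.sqrt_mul (sq_nonneg s), Real.sqrt_sq hs]

lemma un_smul {s : ℝ} (hs : 0 < s) (h : ν → ℝ) : un (s • h) = un h := by
  funext i
  unfold un
  rw [nm_smul hs.le, Pi.smul_apply, smul_eq_mul, mul_div_mul_left _ _ hs.ne']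

lemma eq_zero_of_nm {h : ν → ℝ} (h0 : nm h = 0) : h = 0 := by
  have h1 : ∑ i, h i ^ 2 = 0 := by
    rw [← nm_sq, h0]
    ring
  funext i
  have h2 := (Finset.sum_eq_zero_iff_of_nonneg (fun i _ => sq_nonneg (h i))).1 h1 i
    (Finset.mem_univ i)
  simpa using h2

lemma sum_un {h : ν → ℝ} (h0 : nm h ≠ 0) : ∑ i, un h i ^ 2 = 1 := by
  unfold un
  simp only [div_pow]
  rw [← Finset.sum_div, ← nm_sq, div_self (pow_ne_zero 2 h0)]

lemma sum_un_le (h : ν → ℝ) : ∑ i, un h i ^ 2 ≤ 1 := by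
  by_cases h0 : nm h = 0
  · have h1 : un h = 0 := by
      funext i
      unfold un
      rw [h0, div_zero]
      rfl
    rw [h1]
    simp
  · exact (sum_un h0).le

lemma abs_un_le (h : ν → ℝ) (i : ν) : |un h i| ≤ 1 := by
  have h1 := sum_un_le h
  have h2 : un h i ^ 2 ≤ ∑ i, un h i ^ 2 :=
    Finset.single_le_sum (f := fun i => un h i ^ 2) (fun i _ => sq_nonneg _) (Finset.mem_univ i)
  rw [← sq_le_one_iff_abs_le_one]
  exact h2.trans h1

lemma measurable_nm : Measurable (nm : (ν → ℝ) → ℝ) := by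
  unfold nm
  fun_prop

lemma measurable_un : Measurable (un : (ν → ℝ) → ν → ℝ) := by
  rw [measurable_pi_iff]
  intro i
  exact (measurable_pi_apply i).div measurable_nm

lemma ae_nm [Nonempty ν] : ∀ᵐ h ∂(gI ν), nm h ≠ 0 := by
  have h1 : NullSingletonClass (gaussianReal 0 1) :=
    nullSingletonClass_gaussianReal one_ne_zero
  have h2 : gI ν {(0 : ν → ℝ)} = 0 := by
    have h3 : NullSingletonClass (gI ν) :=
      Measure.pi_nullSingletonClass (Classical.arbitrary ν)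
    exact measure_singleton _
  rw [ae_iff]
  refine measure_mono_null ?_ h2
  intro h hh
  have hh' : ¬ (nm h ≠ 0) := hh
  rw [not_not] at hh'
  exact eq_zero_of_nm hh'

/-- **the norm and the direction of a Gaussian vector** -/
lemma int_scale {s : ℝ} (hs : 0 < s) {Φ : (ν → ℝ) → ℝ} (hΦ : Measurable Φ) :
    ∫ h, Real.exp ((1 - s ^ 2) / 2 * ∑ i, h i ^ 2) * Φ (un h) ∂(gI ν) =
      (s ^ Fintype.card ν)⁻¹ * ∫ h, Φ (un h) ∂(gI ν) := by
  have h1 : ((gI ν).withDensity (fun g => ∏ i, H144.w s (g i))).map (fun g i => s * g i) =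
      gI ν := H144.multi hs
  have hm : Measurable fun g : ν → ℝ => fun i => s * g i := by fun_prop
  have hw : Measurable fun g : ν → ℝ => ∏ i, H144.w s (g i) :=
    Finset.measurable_prod _ fun i _ => (H144.measurable_w s).comp (measurable_pi_apply i)
  have e1 : ∀ g : ν → ℝ, ∏ i, H144.w s (g i) =
      ENNReal.ofReal (s ^ Fintype.card ν * Real.exp ((1 - s ^ 2) / 2 * ∑ i, g i ^ 2)) := by
    intro g
    unfold H144.w
    rw [← ENNReal.ofReal_prod_of_nonneg fun i _ => by positivity]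
    congr 1
    rw [Finset.prod_mul_distrib, Finset.prod_const, ← Real.exp_sum, Finset.card_univ,
      Finset.mul_sum]
  have h2 : ∫ h, Φ (un h) ∂(gI ν) = ∫ g, s ^ Fintype.card ν *
      Real.exp ((1 - s ^ 2) / 2 * ∑ i, g i ^ 2) * Φ (un g) ∂(gI ν) := by
    have hF : Measurable fun h : ν → ℝ => Φ (un h) := hΦ.comp measurable_un
    conv_lhs => rw [← h1]
    rw [integral_map hm.aemeasurable hF.aestronglyMeasurable,
      integral_withDensity_eq_integral_toReal_smul hw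
        (Filter.Eventually.of_forall fun g => by rw [e1]; exact ENNReal.ofReal_lt_top)]
    refine integral_congr_ae (Filter.Eventually.of_forall fun g => ?_)
    simp only [smul_eq_mul]
    rw [e1, ENNReal.toReal_ofReal (by positivity)]
    congr 2
    exact un_smul hs g
  rw [h2, ← integral_const_mul]
  refine integral_congr_ae (Filter.Eventually.of_forall fun g => ?_)
  simp only
  rw [← mul_assoc, ← mul_assoc, inv_mul_cancel₀ (pow_ne_zero _ hs.ne'), one_mul]

/-- splitting of a Gaussian vector -/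
lemma mp_sum : MeasurePreserving (fun q : (α → ℝ) × (γ → ℝ) => (Sum.elim q.1 q.2 : α ⊕ γ → ℝ))
    ((gI α).prod (gI γ)) (gI (α ⊕ γ)) := by
  have h1 := MeasureTheory.measurePreserving_sumPiEquivProdPi_symm (ι := α) (ι' := γ)
    (X := fun _ => ℝ) (fun _ => gaussianReal 0 1)
  have : (fun q : (α → ℝ) × (γ → ℝ) => (Sum.elim q.1 q.2 : α ⊕ γ → ℝ)) =
      (MeasurableEquiv.sumPiEquivProdPi (fun _ : α ⊕ γ => ℝ)).symm := by
    funext q j
    cases j <;> rfl
  rw [this]
  exact h1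

lemma int_sumE {G : (α ⊕ γ → ℝ) → ℝ} (hG : EG G) :
    ∫ w, G w ∂(gI (α ⊕ γ)) = ∫ h, (∫ g, G (Sum.elim g h) ∂(gI α)) ∂(gI γ) := by
  have h2 := mp_sum (α := α) (γ := γ)
  have h3 : Integrable (fun q : (α → ℝ) × (γ → ℝ) => G (Sum.elim q.1 q.2))
      ((gI α).prod (gI γ)) := h2.integrable_comp_of_integrable (g := G) hG.integrable
  have h4 : ∫ w, G w ∂(gI (α ⊕ γ)) = ∫ q : (α → ℝ) × (γ → ℝ), G (Sum.elim q.1 q.2)
        ∂((gI α).prod (gI γ)) := by
    conv_lhs => rw [← h2.map_eq]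
    rw [integral_map h2.measurable.aemeasurable]
    rw [h2.map_eq]
    exact hG.meas.aestronglyMeasurable
  rw [h4, integral_prod_symm _ h3]

end gen

section mat

variable {n : ℕ}

/-- the rank one matrix `u uᵀ` in orthonormal coordinates -/
noncomputable def mm (u : Fin n → ℝ) : Es n → ℝ
  | Sum.inl p => √2 * (u p.1.1 * u p.1.2)
  | Sum.inr i => u i ^ 2

@[simp] lemma mm_inl (u : Fin n → ℝ) (p : Pair n) :
    mm u (Sum.inl p) = √2 * (u p.1.1 * u p.1.2) := rfl
@[simp] lemma mm_inr (u : Fin n → ℝ) (i : Fin n) : mm u (Sum.inr i) = u i ^ 2 := rfl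

lemma sum_pairs2 (f : Fin n → ℝ) :
    2 * ∑ p : Pair n, f p.1.1 * f p.1.2 = (∑ i, f i) ^ 2 - ∑ i, f i ^ 2 := by
  have h := H332.sum_pairs (fun p q : Fin n => if p = q then 0 else f p * f q)
    (fun p q => by simp only [eq_comm (a := p) (b := q), mul_comm]) (fun p => by simp)
  have h2 : ∑ e : Pair n, (if e.1.1 = e.1.2 then 0 else f e.1.1 * f e.1.2) =
      ∑ e : Pair n, f e.1.1 * f e.1.2 := by
    refine Finset.sum_congr rfl fun e _ => ?_
    rw [if_neg e.2.ne]
  have h3 : ∑ p, ∑ q, (if p = q then 0 else f p * f q) = (∑ i, f i) ^ 2 - ∑ i, f i ^ 2 := by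
    rw [sq, Finset.sum_mul_sum, ← Finset.sum_sub_distrib]
    refine Finset.sum_congr rfl fun p _ => ?_
    have h4 : ∀ q, (if p = q then 0 else f p * f q) =
        f p * f q - (if p = q then f p * f q else 0) := by
      intro q
      split_ifs <;> ring
    simp only [h4]
    rw [Finset.sum_sub_distrib, Finset.sum_ite_eq, if_pos (Finset.mem_univ p), sq]
  rw [h2, h3] at h
  linarith

/-- `⟨u uᵀ, v vᵀ⟩ = ⟨u, v⟩ ^ 2` -/
lemma sum_mm (u v : Fin n → ℝ) : ∑ e, mm u e * mm v e = (∑ i, u i * v i) ^ 2 := by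
  rw [Fintype.sum_sum_type]
  simp only [mm_inl, mm_inr]
  have h1 := sum_pairs2 (fun i : Fin n => u i * v i)
  have h2 : ∑ p : Pair n, √2 * (u p.1.1 * u p.1.2) * (√2 * (v p.1.1 * v p.1.2)) =
      2 * ∑ p : Pair n, u p.1.1 * v p.1.1 * (u p.1.2 * v p.1.2) := by
    rw [Finset.mul_sum]
    refine Finset.sum_congr rfl fun p _ => ?_
    have h3 : √2 * √2 = (2 : ℝ) := Real.mul_self_sqrt (by norm_num)
    linear_combination (u p.1.1 * u p.1.2 * (v p.1.1 * v p.1.2)) * h3
  have h4 : ∑ i : Fin n, u i ^ 2 * v i ^ 2 = ∑ i, (u i * v i) ^ 2 :=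
    Finset.sum_congr rfl fun i _ => by ring
  rw [h2, h1, h4]
  ring

lemma sum_mm_sq (u : Fin n → ℝ) : ∑ e, mm u e ^ 2 = (∑ i, u i ^ 2) ^ 2 := by
  have h := sum_mm u u
  have h1 : ∑ e, mm u e * mm u e = ∑ e, mm u e ^ 2 := Finset.sum_congr rfl fun e _ => by ring
  have h2 : ∑ i, u i * u i = ∑ i, u i ^ 2 := Finset.sum_congr rfl fun e _ => by ring
  rw [h1, h2] at h
  exact h

lemma sum_mm_un {h : Fin n → ℝ} (h0 : nm h ≠ 0) : ∑ e, mm (un h) e ^ 2 = 1 := by
  rw [sum_mm_sq, sum_un h0, one_pow]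

lemma abs_mm_le (h : Fin n → ℝ) (e : Es n) : |mm (un h) e| ≤ 1 := by
  have h1 : ∑ e, mm (un h) e ^ 2 ≤ 1 := by
    rw [sum_mm_sq]
    exact pow_le_one₀ (sum_nonneg _) (sum_un_le h)
  have h2 : mm (un h) e ^ 2 ≤ ∑ e, mm (un h) e ^ 2 :=
    Finset.single_le_sum (f := fun e => mm (un h) e ^ 2) (fun i _ => sq_nonneg _)
      (Finset.mem_univ e)
  rw [← sq_le_one_iff_abs_le_one]
  exact h2.trans h1

lemma measurable_mm (e : Es n) : Measurable fun h : Fin n → ℝ => mm (un h) e := by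
  have hu : ∀ i : Fin n, Measurable fun h : Fin n → ℝ => un h i :=
    fun i => (measurable_pi_apply i).comp measurable_un
  rcases e with p | i
  · exact ((hu _).mul (hu _)).const_mul _
  · exact (hu i).pow_const 2

/-- **AM-GM**: the field is dominated by a spike. -/
lemma amgm {c ω : ℝ} (hc : 0 < c) (h : Fin n → ℝ) (x : Fin n → ℤˣ) :
    ω * ∑ i, h i * sp x i ≤ c / 2 + c * ∑ p : Pair n, un h p.1.1 * un h p.1.2 * SkS p x +
      ω ^ 2 / (2 * c) * ∑ i, h i ^ 2 := by
  have hsp : ∀ i, sp x i ^ 2 = 1 := fun i => by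
    have := abs_sp x i
    rw [← sq_abs, this, one_pow]
  by_cases h0 : nm h = 0
  · have hh := eq_zero_of_nm h0
    subst hh
    have h1 : ∀ i, un (0 : Fin n → ℝ) i = 0 := fun i => by
      unfold un
      simp
    simp only [h1, Pi.zero_apply, zero_mul, Finset.sum_const_zero, mul_zero]
    simp
    positivity
  · obtain ⟨q, hq⟩ : ∃ q, q = ∑ i, un h i * sp x i := ⟨_, rfl⟩
    have h1 : ∑ i, h i * sp x i = nm h * q := by
      rw [hq, Finset.mul_sum]
      refine Finset.sum_congr rfl fun i _ => ?_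
      unfold un
      field_simp
    have h2 := sum_pairs2 (fun i : Fin n => un h i * sp x i)
    have h3 : ∑ i, (un h i * sp x i) ^ 2 = 1 := by
      have : ∀ i, (un h i * sp x i) ^ 2 = un h i ^ 2 := fun i => by
        rw [mul_pow, hsp, mul_one]
      simp only [this]
      exact sum_un h0
    have h4 : ∑ p : Pair n, un h p.1.1 * sp x p.1.1 * (un h p.1.2 * sp x p.1.2) =
        ∑ p : Pair n, un h p.1.1 * un h p.1.2 * SkS p x := by
      refine Finset.sum_congr rfl fun p _ => ?_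
      unfold SkS
      ring
    rw [h3, h4, ← hq] at h2
    rw [h1, ← nm_sq]
    have h5 : ∑ p : Pair n, un h p.1.1 * un h p.1.2 * SkS p x = (q ^ 2 - 1) / 2 := by linarith
    rw [h5]
    have h6 : 0 ≤ (c * q - ω * nm h) ^ 2 / (2 * c) := by positivity
    have h7 : (c * q - ω * nm h) ^ 2 / (2 * c) =
        c / 2 + c * ((q ^ 2 - 1) / 2) + ω ^ 2 / (2 * c) * nm h ^ 2 - ω * (nm h * q) := by
      field_simp
      ring
    linarith

end mat

end Vale.Agent.P146.H379.FS
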