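import Vale.Agent.P146.H379.FS1

/-!
# P146: from a Gaussian field to a rank one spike (helper379)

The exponential moment of the SK free energy with a Gaussian white field is bounded by the
exponential moment without field with the weight `Lk` (the likelihood ratio of a rank one spike
with a uniform direction).
-/

open MeasureTheory ProbabilityTheory

namespace Vale.Agent.P146.H379.FS

open Vale.Agent.P157 Vale.Agent.P157.Lv Vale.Agent.P157.Lv.Sy
open Vale.Agent.P146.H425 Vale.Agent.P146.H325 Vale.Agent.P146.H332 Vale.Agent.P146.H93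
  Vale.Agent.P146.H479 Vale.Agent.P146.U

set_option linter.unusedSectionVars false

variable {n : ℕ} {β J x ω r s lam a t : ℝ}

/-- the likelihood ratio of a rank one spike with a uniform direction -/
noncomputable def Lk (n : ℕ) (lam ρ : ℝ) (y : Es n → ℝ) : ℝ :=
  ∫ h, Real.exp (lam * ∑ e, y e * mm (un h) e - lam ^ 2 * ρ ^ 2 / 2) ∂(gI (Fin n))

/-- the SK free energy as a function on `Es n` (the diagonal does not enter) -/
noncomputable def Fh (n : ℕ) (β : ℝ) (z : Es n → ℝ) : ℝ := Fsk n β fun p => z (Sum.inl p)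

/-- the shift of the couplings -/
noncomputable def Sh (t : ℝ) (u : Fin n → ℝ) (p : Pair n) : ℝ := t * mm u (Sum.inl p)

/-- the exponential moment with a shift -/
noncomputable def Ph (β x t : ℝ) (u : Fin n → ℝ) : ℝ :=
  ∫ g, Real.exp (x * Fsk n β (g + Sh t u)) ∂(gI (Pair n))

lemma lipb_Fsk (n : ℕ) (β : ℝ) : ∃ B : ℝ, 0 ≤ B ∧ LipB (Fsk n β) B :=
  ⟨_, (c11_lz (β / √n) SkS).B0, (c11_lz (β / √n) SkS).lip⟩

lemma lip_Fh (n : ℕ) (β : ℝ) : Lip (Fh n β) := by
  obtain ⟨L, hL, h⟩ := AP.lip_Fsk n β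
  refine ⟨L, hL, fun y y' => (h _ _).trans (mul_le_mul_of_nonneg_left ?_ hL)⟩
  rw [pi_norm_le_iff_of_nonneg (norm_nonneg _)]
  intro p
  exact norm_le_pi_norm (y - y') (Sum.inl p)

lemma norm_Sh_le (t : ℝ) (h : Fin n → ℝ) : ‖Sh t (un h)‖ ≤ |t| := by
  rw [pi_norm_le_iff_of_nonneg (abs_nonneg t)]
  intro p
  unfold Sh
  rw [Real.norm_eq_abs, abs_mul]
  have := mul_le_mul_of_nonneg_left (abs_mm_le h (Sum.inl p)) (abs_nonneg t)
  linarith

/-- **The free energy with a field is at most the one with a spike.** -/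
lemma F0_le (hn : 0 < n) (hβ : 0 < β) (hJ : 0 < J) (g : Pair n → ℝ) (h : Fin n → ℝ)
    {v : Es n → ℝ} (hv : ∀ p, v (Sum.inl p) = β / √n) (hv' : ∀ i, v (Sum.inr i) = ω) :
    F0 n (v * (Sum.elim g h : Es n → ℝ)) ≤ β * J / 2 + ω ^ 2 / (2 * (β * J)) * ∑ i, h i ^ 2 +
      Fsk n β (g + Sh (J * √(n / 2)) (un h)) := by
  have hn' : (0 : ℝ) < n := Nat.cast_pos.2 hn
  have hc : 0 < β * J := by positivity
  unfold F0 Fsk lz Zp ez ew
  rw [← Real.log_exp (β * J / 2 + ω ^ 2 / (2 * (β * J)) * ∑ i, h i ^ 2)]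
  have hpos : 0 < ∑ x : Fin n → ℤˣ, Real.exp (β / √n * ∑ e, SkS e x *
      (g + Sh (J * √(n / 2)) (un h)) e) :=
    Finset.sum_pos (fun _ _ => Real.exp_pos _) Finset.univ_nonempty
  rw [← Real.log_mul (Real.exp_pos _).ne' hpos.ne', Finset.mul_sum]
  refine Real.log_le_log (Finset.sum_pos (fun _ _ => Real.exp_pos _) Finset.univ_nonempty) ?_
  refine Finset.sum_le_sum fun x _ => ?_
  rw [← Real.exp_add]
  refine Real.exp_le_exp.2 ?_
  rw [Fintype.sum_sum_type]
  simp only [Pi.mul_apply, Sum.elim_inl, Sum.elim_inr, hv, hv']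
  have h1 := amgm (ω := ω) hc h x
  have h2 : ∑ p : Pair n, st (Sum.inl p) x * (β / √n * g p) =
      β / √n * ∑ p, SkS p x * g p := by
    rw [Finset.mul_sum]
    refine Finset.sum_congr rfl fun p _ => ?_
    show SkS p x * _ = _
    ring
  have h3 : ∑ i : Fin n, st (Sum.inr i) x * (ω * h i) = ω * ∑ i, h i * sp x i := by
    rw [Finset.mul_sum]
    refine Finset.sum_congr rfl fun i _ => ?_
    show sp x i * _ = _
    ring
  have h4 : β / √n * ∑ p, SkS p x * (g + Sh (J * √(n / 2)) (un h)) p =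
      β / √n * ∑ p, SkS p x * g p +
        β * J * ∑ p : Pair n, un h p.1.1 * un h p.1.2 * SkS p x := by
    have e1 : ∀ p : Pair n, SkS p x * (g + Sh (J * √(n / 2)) (un h)) p = SkS p x * g p +
        J * (√(n / 2) * √2) * (un h p.1.1 * un h p.1.2 * SkS p x) := by
      intro p
      rw [Pi.add_apply]
      unfold Sh
      rw [mm_inl]
      ring
    simp only [e1]
    rw [Finset.sum_add_distrib, mul_add, ← Finset.mul_sum, ← mul_assoc]
    congr 2
    have e2 : √(n / 2 : ℝ) * √2 = √n := by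
      rw [← Real.sqrt_mul (by positivity)]
      congr 1
      ring
    rw [e2]
    have e3 : √(n : ℝ) ≠ 0 := (Real.sqrt_pos.2 hn').ne'
    field_simp
  rw [h2, h3, h4]
  linarith

lemma measurable_Sh (t : ℝ) : Measurable fun u : Fin n → ℝ => Sh t u := by
  rw [measurable_pi_iff]
  intro p
  have h1 : Measurable fun u : Fin n → ℝ => u p.1.1 := measurable_pi_apply _
  have h2 : Measurable fun u : Fin n → ℝ => u p.1.2 := measurable_pi_apply _
  exact ((h1.mul h2).const_mul _).const_mul _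

lemma measurable_Ph (β x t : ℝ) : Measurable fun u : Fin n → ℝ => Ph (n := n) β x t u := by
  have h1 : Measurable fun q : (Fin n → ℝ) × (Pair n → ℝ) =>
      Real.exp (x * Fsk n β (q.2 + Sh t q.1)) := by
    refine Real.measurable_exp.comp (Measurable.const_mul ?_ x)
    exact (AP.lip_Fsk n β).measurable.comp
      (measurable_snd.add ((measurable_Sh t).comp measurable_fst))
  exact (h1.stronglyMeasurable.integral_prod_right' (ν := gI (Pair n))).measurable

lemma Ph_nonneg (u : Fin n → ℝ) : 0 ≤ Ph β x t u :=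
  integral_nonneg fun _ => (Real.exp_pos _).le

lemma Ph_le (hx : 0 ≤ x) (β t : ℝ) : ∃ C : ℝ, ∀ h : Fin n → ℝ, Ph β x t (un h) ≤ C := by
  obtain ⟨B, hB, hL⟩ := lipb_Fsk n β
  have hi : Integrable (fun g : Pair n → ℝ => Real.exp (x * Fsk n β g)) (gI (Pair n)) :=
    ((AP.lip_Fsk n β).exp_eg x).integrable
  refine ⟨∫ g, Real.exp (x * (B * |t|)) * Real.exp (x * Fsk n β g) ∂(gI (Pair n)), fun h => ?_⟩
  unfold Ph
  refine integral_mono_of_nonneg (Filter.Eventually.of_forall fun _ => (Real.exp_pos _).le)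
    (hi.const_mul _) (Filter.Eventually.of_forall fun g => ?_)
  simp only
  rw [← Real.exp_add, ← mul_add]
  refine Real.exp_le_exp.2 (mul_le_mul_of_nonneg_left ?_ hx)
  have h1 := (abs_le.1 (hL g (Sh t (un h)))).2
  have h2 := mul_le_mul_of_nonneg_left (norm_Sh_le t h) hB
  linarith

/-- the exponential of a small multiple of the square of the norm is integrable -/
lemma int_sq {ν : Type} [Fintype ν] {s : ℝ} (hs : 0 < s) :
    Integrable (fun h : ν → ℝ => Real.exp ((1 - s ^ 2) / 2 * ∑ i, h i ^ 2)) (gI ν) := by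
  have h1 : ((gI ν).withDensity (fun g => ∏ i, H144.w s (g i))).map (fun g i => s * g i) =
      gI ν := H144.multi hs
  have hm : Measurable fun g : ν → ℝ => fun i => s * g i := by fun_prop
  have e1 : ∀ g : ν → ℝ, ∏ i, H144.w s (g i) =
      ENNReal.ofReal (s ^ Fintype.card ν * Real.exp ((1 - s ^ 2) / 2 * ∑ i, g i ^ 2)) := by
    intro g
    unfold H144.w
    rw [← ENNReal.ofReal_prod_of_nonneg fun i _ => by positivity]
    congr 1
    rw [Finset.prod_mul_distrib, Finset.prod_const, ← Real.exp_sum, Finset.card_univ,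
      Finset.mul_sum]
  have h2 : ∫⁻ g, ENNReal.ofReal (s ^ Fintype.card ν *
      Real.exp ((1 - s ^ 2) / 2 * ∑ i, g i ^ 2)) ∂(gI ν) = 1 := by
    have h3 := congrArg (fun μ => μ Set.univ) h1
    rw [Measure.map_apply hm MeasurableSet.univ, Set.preimage_univ,
      withDensity_apply _ MeasurableSet.univ, Measure.restrict_univ, measure_univ] at h3
    simp only [e1] at h3
    exact h3
  have h4 : Integrable (fun h : ν → ℝ => s ^ Fintype.card ν *
      Real.exp ((1 - s ^ 2) / 2 * ∑ i, h i ^ 2)) (gI ν) := by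
    refine ⟨(by fun_prop : Measurable fun h : ν → ℝ => s ^ Fintype.card ν *
      Real.exp ((1 - s ^ 2) / 2 * ∑ i, h i ^ 2)).aestronglyMeasurable, ?_⟩
    rw [hasFiniteIntegral_iff_ofReal (Filter.Eventually.of_forall fun _ => by positivity), h2]
    exact ENNReal.one_lt_top
  have h5 := h4.const_mul (s ^ Fintype.card ν)⁻¹
  refine h5.congr (Filter.Eventually.of_forall fun g => ?_)
  simp only
  rw [← mul_assoc, inv_mul_cancel₀ (pow_ne_zero _ hs.ne'), one_mul]

/-- the exponential moment with a shift in terms of a two-step functional -/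
lemma Ph_eq (hx : 0 < x) (hr : 0 < r) (hrs : r ^ 2 + s ^ 2 = 1) (t : ℝ) {h : Fin n → ℝ}
    (h0 : nm h ≠ 0) : Ph β x t (un h) =
      ∫ z, Real.exp (t / r ^ 2 * ∑ e, (r • z) e * mm (un h) e - (t / r ^ 2) ^ 2 * r ^ 2 / 2) *
        Real.exp (x * W x s (Fh n β) (r • z)) ∂(gI (Es n)) := by
  have hL := lip_Fh n β
  have e0 : Ph β x t (un h) = ∫ z, Real.exp (x * Fh n β (t • mm (un h) + (1 : ℝ) • z))
      ∂(gI (Es n)) := by
    unfold Ph
    have hm : Measurable fun g : Pair n → ℝ => Real.exp (x * Fsk n β (g + Sh t (un h))) :=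
      Real.measurable_exp.comp (((AP.lip_Fsk n β).measurable.comp (by fun_prop)).const_mul _)
    have h1 := R1C.int_inj (β := Es n) (φ := (Sum.inl : Pair n → Es n)) Sum.inl_injective hm
    rw [← h1]
    refine integral_congr_ae (Filter.Eventually.of_forall fun z => ?_)
    simp only
    congr 2
    unfold Fh
    congr 1
    funext p
    simp only [Pi.add_apply, Pi.smul_apply, smul_eq_mul, one_mul]
    unfold Sh
    ring
  have e1 : ∫ z, Real.exp (x * Fh n β (t • mm (un h) + (1 : ℝ) • z)) ∂(gI (Es n)) =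
      ∫ z, (∫ z', Real.exp (x * Fh n β (t • mm (un h) + r • z + s • z')) ∂(gI (Es n)))
        ∂(gI (Es n)) := by
    have h2 := gI_rot (κ := Es n) (f := fun y => Real.exp (x * Fh n β y)) (hL.exp_eg x)
      (a := r) (b := s) (c := 1) (by rw [hrs, one_pow]) (t • mm (un h))
    exact h2.symm
  obtain ⟨B, hB, hLB⟩ : ∃ B : ℝ, 0 ≤ B ∧ LipB (Fh n β) B := by
    obtain ⟨L, hL0, hL1⟩ := hL
    refine ⟨L, hL0, fun y w => ?_⟩
    have := hL1 (y + w) y
    rwa [add_sub_cancel_left] at this
  have e2 : ∀ y, ∫ z', Real.exp (x * Fh n β (y + s • z')) ∂(gI (Es n)) =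
      Real.exp (x * W x s (Fh n β) y) := fun y => (hLB.exp_W hB hx y).symm
  simp only [e2] at e1
  have e3 := integral_shift (ι := Es n) (-(t / r) • mm (un h))
    (fun z => Real.exp (x * W x s (Fh n β) (r • z)))
  have e4 : ∀ z : Es n → ℝ, r • (z - -(t / r) • mm (un h)) = t • mm (un h) + r • z := by
    intro z
    funext e
    simp only [Pi.smul_apply, Pi.sub_apply, Pi.add_apply, smul_eq_mul]
    field_simp
    try ring
  simp only [e4] at e3
  rw [e0, e1, e3]
  refine integral_congr_ae (Filter.Eventually.of_forall fun z => ?_)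
  simp only
  congr 2
  simp only [Pi.smul_apply, smul_eq_mul]
  have h5 : ∑ e, (-(t / r) * mm (un h) e) ^ 2 = (t / r) ^ 2 := by
    have : ∀ e, (-(t / r) * mm (un h) e) ^ 2 = (t / r) ^ 2 * mm (un h) e ^ 2 := fun e => by ring
    simp only [this]
    rw [← Finset.mul_sum, sum_mm_un h0, mul_one]
  have h6 : ∑ e, -(t / r) * mm (un h) e * z e = -(t / r) * ∑ e, mm (un h) e * z e := by
    rw [Finset.mul_sum]
    exact Finset.sum_congr rfl fun e _ => by ring
  have h7 : ∑ e, r * z e * mm (un h) e = r * ∑ e, mm (un h) e * z e := by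
    rw [Finset.mul_sum]
    exact Finset.sum_congr rfl fun e _ => by ring
  rw [h5, h6, h7]
  field_simp

end Vale.Agent.P146.H379.FS
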