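import Vale.Agent.P146.H379.FS2

/-!
# P146: from a Gaussian field to a rank one spike: the theorem (helper379)
-/

open MeasureTheory ProbabilityTheory

namespace Vale.Agent.P146.H379.FS

open Vale.Agent.P157 Vale.Agent.P157.Lv Vale.Agent.P157.Lv.Sy
open Vale.Agent.P146.H425 Vale.Agent.P146.H325 Vale.Agent.P146.H332 Vale.Agent.P146.H93
  Vale.Agent.P146.H479 Vale.Agent.P146.U

set_option linter.unusedSectionVars false

variable {n : ℕ} {β J x ω r s lam a t : ℝ}

/-- the integrand on the product space -/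
lemma int_prod (hx : 0 < x) (r s lam ρ : ℝ) :
    Integrable (fun q : (Fin n → ℝ) × (Es n → ℝ) =>
      Real.exp (lam * ∑ e, (r • q.2) e * mm (un q.1) e - lam ^ 2 * ρ ^ 2 / 2) *
        Real.exp (x * W x s (Fh n β) (r • q.2))) ((gI (Fin n)).prod (gI (Es n))) := by
  have hL : Lip (W x s (Fh n β)) := Lip.W (lip_Fh n β) hx s
  obtain ⟨N, hN⟩ : ∃ N : ℝ, N = Fintype.card (Es n) := ⟨_, rfl⟩
  have hN0 : 0 ≤ N := by rw [hN]; positivity
  -- the bound
  have h1 : EG fun z : Es n → ℝ => Real.exp (|lam| * |r| * (N * ‖z‖)) *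
      Real.exp (x * W x s (Fh n β) (r • z)) := by
    obtain ⟨C, hC, hb⟩ := hL
    have hm : Measurable fun z : Es n → ℝ => W x s (Fh n β) (r • z) :=
      (Lip.W (lip_Fh n β) hx s).measurable.comp (by fun_prop)
    refine ⟨(by fun_prop : Measurable fun z : Es n → ℝ => Real.exp (|lam| * |r| * (N * ‖z‖))).mul
      (Real.measurable_exp.comp (hm.const_mul _)),
      Real.exp (x * |W x s (Fh n β) 0|), |lam| * |r| * N + x * C * |r|, by positivity,
      by positivity, fun z => ?_⟩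
    rw [abs_of_pos (by positivity), ← Real.exp_add, ← Real.exp_add]
    refine Real.exp_le_exp.2 ?_
    have h2 := hb (r • z) 0
    rw [sub_zero, norm_smul, Real.norm_eq_abs] at h2
    have h3 := (abs_le.1 h2).2
    have h4 := le_abs_self (W x s (Fh n β) 0)
    have h5 : W x s (Fh n β) (r • z) ≤ |W x s (Fh n β) 0| + C * (|r| * ‖z‖) := by linarith
    have h6 := mul_le_mul_of_nonneg_left h5 hx.le
    linarith
  have h2 : Integrable (fun q : (Fin n → ℝ) × (Es n → ℝ) =>
      Real.exp (|lam| * |r| * (N * ‖q.2‖)) * Real.exp (x * W x s (Fh n β) (r • q.2)))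
      ((gI (Fin n)).prod (gI (Es n))) := h1.integrable.comp_snd (gI (Fin n))
  have hW : Measurable (W x s (Fh n β)) := (Lip.W (lip_Fh n β) hx s).measurable
  have hmm : ∀ e : Es n, Measurable fun q : (Fin n → ℝ) × (Es n → ℝ) => mm (un q.1) e :=
    fun e => (measurable_mm e).comp measurable_fst
  refine h2.mono' (Measurable.aestronglyMeasurable ?_) (Filter.Eventually.of_forall fun q => ?_)
  · refine (Real.measurable_exp.comp (((Finset.measurable_sum _ fun e _ =>
      Measurable.mul ?_ (hmm e)).const_mul _).sub_const _)).mul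
      (Real.measurable_exp.comp (Measurable.const_mul (hW.comp ?_) _))
    · have : Measurable fun q : (Fin n → ℝ) × (Es n → ℝ) => r • q.2 := by fun_prop
      exact (measurable_pi_apply e).comp this
    · fun_prop
  · rw [Real.norm_eq_abs, abs_of_pos (by positivity)]
    refine mul_le_mul_of_nonneg_right (Real.exp_le_exp.2 ?_) (Real.exp_pos _).le
    have h3 : |∑ e, (r • q.2) e * mm (un q.1) e| ≤ |r| * (N * ‖q.2‖) := by
      refine (Finset.abs_sum_le_sum_abs _ _).trans ?_
      have h4 : ∀ e, |(r • q.2) e * mm (un q.1) e| ≤ |r| * ‖q.2‖ := by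
        intro e
        rw [abs_mul, Pi.smul_apply, smul_eq_mul, abs_mul]
        have h5 := norm_le_pi_norm q.2 e
        rw [Real.norm_eq_abs] at h5
        have h6 := abs_mm_le q.1 e
        have h7 : |r| * |q.2 e| * |mm (un q.1) e| ≤ |r| * |q.2 e| * 1 :=
          mul_le_mul_of_nonneg_left h6 (by positivity)
        have h8 := mul_le_mul_of_nonneg_left h5 (abs_nonneg r)
        linarith
      refine (Finset.sum_le_sum fun e _ => h4 e).trans ?_
      rw [Finset.sum_const, Finset.card_univ, nsmul_eq_mul, ← hN]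
      exact le_of_eq (by ring)
    have h5 : lam * ∑ e, (r • q.2) e * mm (un q.1) e ≤ |lam| * (|r| * (N * ‖q.2‖)) := by
      refine (le_abs_self _).trans ?_
      rw [abs_mul]
      exact mul_le_mul_of_nonneg_left h3 (abs_nonneg _)
    have h6 : 0 ≤ lam ^ 2 * ρ ^ 2 / 2 := by positivity
    linarith

/-- the average over the direction of the spike is the weight `Lk` -/
lemma int_Ph (hn : 0 < n) (hx : 0 < x) (hr : 0 < r) (hrs : r ^ 2 + s ^ 2 = 1) (t : ℝ) :
    ∫ h, Ph β x t (un h) ∂(gI (Fin n)) =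
      ∫ z, Lk n (t / r ^ 2) r (r • z) * Real.exp (x * W x s (Fh n β) (r • z)) ∂(gI (Es n)) := by
  have : Nonempty (Fin n) := ⟨⟨0, hn⟩⟩
  have h1 : ∫ h, Ph β x t (un h) ∂(gI (Fin n)) = ∫ h, (∫ z,
      Real.exp (t / r ^ 2 * ∑ e, (r • z) e * mm (un h) e - (t / r ^ 2) ^ 2 * r ^ 2 / 2) *
        Real.exp (x * W x s (Fh n β) (r • z)) ∂(gI (Es n))) ∂(gI (Fin n)) :=
    integral_congr_ae ((ae_nm (ν := Fin n)).mono fun h h0 => Ph_eq hx hr hrs t h0)
  rw [h1, integral_integral_swap (int_prod (β := β) hx r s (t / r ^ 2) r)]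
  refine integral_congr_ae (Filter.Eventually.of_forall fun z => ?_)
  simp only
  rw [integral_mul_const]
  rfl

/-- **From a Gaussian field to a spike**, for the exponential moments. -/
theorem expo_le (hn : 0 < n) (hβ : 0 < β) (hJ : 0 < J) (hx : 0 < x)
    (hω : x * ω ^ 2 < β * J) (hr : 0 < r) (hrs : r ^ 2 + s ^ 2 = 1)
    {v : Es n → ℝ} (hv : ∀ p, v (Sum.inl p) = β / √n) (hv' : ∀ i, v (Sum.inr i) = ω) :
    ∫ z, Real.exp (x * F0 n (v * z)) ∂(gI (Es n)) ≤
      Real.exp (x * (β * J / 2)) * ((√(1 - x * ω ^ 2 / (β * J)) ^ n)⁻¹ *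
        ∫ z, Lk n (J * √(n / 2) / r ^ 2) r (r • z) *
          Real.exp (x * W x s (Fh n β) (r • z)) ∂(gI (Es n))) := by
  have hc : 0 < β * J := by positivity
  obtain ⟨σ, hσ⟩ : ∃ σ, σ = √(1 - x * ω ^ 2 / (β * J)) := ⟨_, rfl⟩
  have hq : x * ω ^ 2 / (β * J) < 1 := by rwa [div_lt_one hc]
  have hσ0 : 0 < σ := by
    rw [hσ]
    exact Real.sqrt_pos.2 (by linarith)
  have hσ2 : σ ^ 2 = 1 - x * ω ^ 2 / (β * J) := by
    rw [hσ]
    exact Real.sq_sqrt (by linarith)
  obtain ⟨t, ht⟩ : ∃ t, t = J * √(n / 2 : ℝ) := ⟨_, rfl⟩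
  have hEG : EG fun z : Es n → ℝ => Real.exp (x * F0 n (v * z)) := by
    have := H479.EG.vec ((F0_lip n).exp_eg x) 0 v
    simpa using this
  rw [int_sumE hEG, ← hσ, ← ht, ← int_Ph hn hx hr hrs t]
  have h1 := int_scale hσ0 (measurable_Ph (n := n) β x t)
  rw [Fintype.card_fin] at h1
  rw [← h1, ← integral_const_mul]
  obtain ⟨C, hC⟩ := Ph_le (n := n) hx.le β t
  have hi : Integrable (fun h : Fin n → ℝ => Real.exp (x * (β * J / 2)) *
      (Real.exp ((1 - σ ^ 2) / 2 * ∑ i, h i ^ 2) * Ph β x t (un h))) (gI (Fin n)) := by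
    refine Integrable.const_mul ?_ _
    refine ((int_sq (ν := Fin n) hσ0).mul_const C).mono'
      (((by fun_prop : Measurable fun h : Fin n → ℝ => Real.exp ((1 - σ ^ 2) / 2 *
        ∑ i, h i ^ 2)).mul ((measurable_Ph β x t).comp measurable_un)).aestronglyMeasurable)
      (Filter.Eventually.of_forall fun h => ?_)
    rw [Real.norm_eq_abs, abs_of_nonneg (mul_nonneg (Real.exp_pos _).le (Ph_nonneg _))]
    exact mul_le_mul_of_nonneg_left (hC h) (Real.exp_pos _).le
  refine integral_mono_of_nonneg (Filter.Eventually.of_forall fun h =>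
    integral_nonneg fun _ => (Real.exp_pos _).le) hi (Filter.Eventually.of_forall fun h => ?_)
  simp only
  unfold Ph
  rw [← integral_const_mul, ← integral_const_mul]
  have hgi : Integrable (fun g : Pair n → ℝ => Real.exp (x * Fsk n β (g + Sh t (un h))))
      (gI (Pair n)) := by
    have h2 := H479.EG.vec ((AP.lip_Fsk n β).exp_eg x) (Sh t (un h)) 1
    refine h2.integrable.congr (Filter.Eventually.of_forall fun g => ?_)
    simp only [one_mul]
    rw [add_comm]
  refine integral_mono_of_nonneg (Filter.Eventually.of_forall fun _ => (Real.exp_pos _).le)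
    ((hgi.const_mul _).const_mul _) (Filter.Eventually.of_forall fun g => ?_)
  simp only
  rw [← Real.exp_add, ← Real.exp_add]
  refine Real.exp_le_exp.2 ?_
  have h3 := mul_le_mul_of_nonneg_left (F0_le (ω := ω) hn hβ hJ g h hv hv') hx.le
  rw [← ht] at h3
  have h4 : (1 - σ ^ 2) / 2 * ∑ i, h i ^ 2 = x * (ω ^ 2 / (2 * (β * J)) * ∑ i, h i ^ 2) := by
    rw [hσ2]
    field_simp
    ring
  rw [h4]
  linarith

/-- **From a Gaussian field to a spike**: the pure law with a white field of amplitude `ω`. -/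
theorem field_spike {m b w : ℕ → ℝ} (hn : 0 < n) (hβ : 0 < β) (hJ : 0 < J) (hm : Em 1 m)
    (hb : b 1 = β / √n) (hω : m 1 * w 1 ^ 2 < β * J) (hr : 0 < r)
    (hrs : r ^ 2 + s ^ 2 = 1) :
    m 1 * (skS n 1 m b w).fe ≤ m 1 * (β * J / 2) -
      n / 2 * Real.log (1 - m 1 * w 1 ^ 2 / (β * J)) +
      Real.log (∫ z, Lk n (J * √(n / 2) / r ^ 2) r (r • z) *
          Real.exp (m 1 * W (m 1) s (Fh n β) (r • z)) ∂(gI (Es n))) := by
  have hc : 0 < β * J := by positivity
  have hx : 0 < m 1 := hm.pos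
  have hq : m 1 * w 1 ^ 2 / (β * J) < 1 := by rwa [div_lt_one hc]
  have h1 := expo_le (x := m 1) (ω := w 1) hn hβ hJ hx hω hr hrs (v := va b w 1)
    (fun p => by rw [va_inl, hb]) (fun i => by rw [va_inr])
  have hEG : EG fun z : Es n → ℝ => Real.exp (m 1 * F0 n (va b w 1 * z)) := by
    have := H479.EG.vec ((F0_lip n).exp_eg (m 1)) 0 (va b w 1)
    simpa using this
  have hpos : 0 < ∫ z, Real.exp (m 1 * F0 n (va b w 1 * z)) ∂(gI (Es n)) :=
    integral_exp_pos hEG.integrable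
  have hfe : m 1 * (skS n 1 m b w).fe =
      Real.log (∫ z, Real.exp (m 1 * F0 n (va b w 1 * z)) ∂(gI (Es n))) := by
    rw [fe_eq hm, VG_succ, VG_zero]
    unfold VW
    simp only [zero_add]
    rw [← mul_assoc, mul_one_div_cancel hx.ne', one_mul]
  obtain ⟨I, hI⟩ : ∃ I, I = ∫ z, Lk n (J * √(n / 2) / r ^ 2) r (r • z) *
          Real.exp (m 1 * W (m 1) s (Fh n β) (r • z)) ∂(gI (Es n)) := ⟨_, rfl⟩
  rw [← hI] at h1 ⊢
  have hs0 : 0 < √(1 - m 1 * w 1 ^ 2 / (β * J)) := Real.sqrt_pos.2 (by linarith)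
  have hI0 : 0 < I := by
    by_contra hcon
    rw [not_lt] at hcon
    have h2 : Real.exp (m 1 * (β * J / 2)) * ((√(1 - m 1 * w 1 ^ 2 / (β * J)) ^ n)⁻¹ * I) ≤ 0 :=
      mul_nonpos_of_nonneg_of_nonpos (Real.exp_pos _).le
        (mul_nonpos_of_nonneg_of_nonpos (by positivity) hcon)
    linarith
  rw [hfe]
  refine (Real.log_le_log hpos h1).trans (le_of_eq ?_)
  rw [Real.log_mul (Real.exp_pos _).ne' (by positivity), Real.log_exp,
    Real.log_mul (by positivity) hI0.ne', Real.log_inv, Real.log_pow,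
    Real.log_sqrt (by linarith)]
  ring

end Vale.Agent.P146.H379.FS
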