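import Vale.Agent.P146.H379.FS5
import Vale.Agent.P146.H112.Rec
import Vale.Agent.P146.U.AP3
import Vale.Agent.P146.H97.TA2

/-!
# P146: removal of a small field, assembly (helper379)

`TT n`: the two-time moments of the likelihood ratio; `TP β R C n`: the cost of the exponents which
grow outwards, for an arbitrary inner part. Both are proved elsewhere.
-/

open MeasureTheory ProbabilityTheory

namespace Vale.Agent.P146.H379.FS

open Vale.Agent.P157 Vale.Agent.P157.Lv Vale.Agent.P157.Lv.Sy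
open Vale.Agent.P146.H425 Vale.Agent.P146.H325 Vale.Agent.P146.H332 Vale.Agent.P146.H93
  Vale.Agent.P146.H479 Vale.Agent.P146.U Vale.Agent.P146.H112

set_option linter.unusedSectionVars false

variable {n : ℕ} {β J x ω r s lam a t A R : ℝ}

/-! ### functions of the bonds -/

/-- a layer does not see the diagonal -/
lemma W_inl {G : (Pair n → ℝ) → ℝ} (hG : Measurable G) (x s : ℝ) :
    W x s (fun z : Es n → ℝ => G fun p => z (Sum.inl p)) =
      fun z : Es n → ℝ => W x s G fun p => z (Sum.inl p) := by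
  funext y
  unfold W
  congr 2
  have hm : Measurable fun g : Pair n → ℝ =>
      Real.exp (x * G ((fun p => y (Sum.inl p)) + s • g)) :=
    Real.measurable_exp.comp ((hG.comp (by fun_prop)).const_mul _)
  have h1 := R1C.int_inj (β := Es n) (φ := (Sum.inl : Pair n → Es n)) Sum.inl_injective hm
  rw [← h1]
  rfl

lemma VV_inl {G : (Pair n → ℝ) → ℝ} (hG : Lip G) (hx : 0 < x) (s : ℕ → ℝ) (j : ℕ) :
    VV x s (fun z : Es n → ℝ => G fun p => z (Sum.inl p)) j =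
      fun z : Es n → ℝ => VV x s G j fun p => z (Sum.inl p) := by
  induction j with
  | zero => rfl
  | succ j ih =>
    show W (2 ^ (j + 1) * x) (s j) (VV x s (fun z : Es n → ℝ => G fun p => z (Sum.inl p)) j) = _
    rw [ih]
    exact W_inl (lip_VV hG hx s j).measurable _ _

/-! ### the two inputs -/

/-- the two-time moments of the likelihood ratio -/
structure TT (n : ℕ) : Prop where
  two : ∀ lam ρ r s : ℝ, ρ ^ 2 = r ^ 2 + s ^ 2 → 2 * lam ^ 2 * ρ ^ 2 < n →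
    ∫ z, (∫ z', Lk n lam ρ (r • z + s • z') ^ 2 ∂(gI (Es n))) / Lk n lam r (r • z) ∂(gI (Es n)) ≤
      √((n - 2 * lam ^ 2 * r ^ 2) / (n - 2 * lam ^ 2 * ρ ^ 2))
  one : ∀ lam ρ : ℝ, 2 * lam ^ 2 * ρ ^ 2 < n →
    ∫ z, Lk n lam ρ (ρ • z) ^ 2 ∂(gI (Es n)) ≤ √(n / (n - 2 * lam ^ 2 * ρ ^ 2))
  pos : ∀ lam ρ z, 0 < Lk n lam ρ z
  eg : ∀ lam ρ, EG (Lk n lam ρ)
  egi : ∀ lam ρ, EG fun z => (Lk n lam ρ z)⁻¹

/-- the cost of the exponents which grow outwards -/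
def TP (β R C : ℝ) (n : ℕ) : Prop := ∀ (x A : ℝ) (N : ℕ) (V0 : (Pair n → ℝ) → ℝ),
  (n : ℝ) ^ (-(1 / 6) : ℝ) ≤ x → x ≤ (n : ℝ) ^ (-(21 / 200) : ℝ) → 4 ≤ A →
  H97.Rep (Fsk n β) x (2 * x) (A * x ^ 2) V0 →
  R ^ N * (A * x ^ 2) ≤ 1 / 2 → 1 / 2 ≤ R * (R ^ N * (A * x ^ 2)) →
  W (2 ^ (N + 1) * x) √(1 - R ^ N * (A * x ^ 2))
    (VV x (fun j => √(R ^ (j + 1) * (A * x ^ 2) - R ^ j * (A * x ^ 2))) V0 N) 0 ≤
    W x √(1 - A * x ^ 2) V0 0 + C * (n * x ^ 5) * A ^ (-(1 / 1000) : ℝ)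

lemma lip_rep {x0 x K : ℝ} {V : (Pair n → ℝ) → ℝ} (hx0 : 0 < x0)
    (h : H97.Rep (Fsk n β) x0 x K V) : Lip V := by
  obtain ⟨V', D', B', L', τ, s, e, p, _, _, _, he, _, rfl⟩ := h
  exact Lip.W (p.c11.lip.lip p.c11.B0) (hx0.trans_le he) s

/-- the number of windows -/
lemma exists_N (hR : 1 < R) (ha : 0 < a) (ha2 : a ≤ 1 / 2) :
    ∃ N : ℕ, R ^ N * a ≤ 1 / 2 ∧ 1 / 2 ≤ R * (R ^ N * a) := by
  have h1 : 1 ≤ 1 / 2 / a := by rwa [le_div_iff₀ ha, one_mul]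
  obtain ⟨N, hN1, hN2⟩ := exists_nat_pow_near h1 hR
  refine ⟨N, by rwa [le_div_iff₀ ha] at hN1, ?_⟩
  rw [div_lt_iff₀ ha, pow_succ] at hN2
  linarith

lemma geo_le (N : ℕ) : ∑ j ∈ Finset.range (N + 1), (1 : ℝ) / 2 ^ (j + 1) ≤ 1 := by
  have h : ∀ M : ℕ, ∑ j ∈ Finset.range M, (1 : ℝ) / 2 ^ (j + 1) = 1 - 1 / 2 ^ M := by
    intro M
    induction M with
    | zero => simp
    | succ M ih =>
      rw [Finset.sum_range_succ, ih, pow_succ]
      field_simp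
      ring
  rw [h]
  have : (0 : ℝ) < 1 / 2 ^ (N + 1) := by positivity
  linarith

/-- **The exponential moment with the spike.** -/
theorem spike_le {C : ℝ} {V0 : (Pair n → ℝ) → ℝ}
    (hT : TT n) (hP : TP β R C n) (hn : 0 < n) (hR : 1 < R)
    (hx0 : (n : ℝ) ^ (-(1 / 6) : ℝ) ≤ x) (hx1 : x ≤ (n : ℝ) ^ (-(21 / 200) : ℝ)) (hA : 4 ≤ A)
    (hAx : A * x ^ 2 ≤ 1 / 2) (hV : H97.Rep (Fsk n β) x (2 * x) (A * x ^ 2) V0) :
    Real.log (∫ z, Lk n √(n / 2) √(1 - A * x ^ 2) (√(1 - A * x ^ 2) • z) *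
      Real.exp (x * V0 (fun p => (√(1 - A * x ^ 2) • z) (Sum.inl p))) ∂(gI (Es n))) ≤
      Real.log (2 * R) / 2 + x * (W x √(1 - A * x ^ 2) V0 0 +
        C * (n * x ^ 5) * A ^ (-(1 / 1000) : ℝ)) := by
  have hn' : (0 : ℝ) < n := Nat.cast_pos.2 hn
  have hx : 0 < x := lt_of_lt_of_le (by positivity) hx0
  have ha : 0 < A * x ^ 2 := by positivity
  obtain ⟨N, hN1, hN2⟩ := exists_N hR ha hAx
  have hR0 : 0 < R := by linarith
  have hLV : Lip V0 := lip_rep hx hV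
  have hLV' : Lip fun z : Es n → ℝ => V0 fun p => z (Sum.inl p) := by
    obtain ⟨L, hL, h⟩ := hLV
    refine ⟨L, hL, fun y y' => (h _ _).trans (mul_le_mul_of_nonneg_left ?_ hL)⟩
    rw [pi_norm_le_iff_of_nonneg (norm_nonneg _)]
    intro p
    exact norm_le_pi_norm (y - y') (Sum.inl p)
  -- the grid
  obtain ⟨K, hK⟩ : ∃ K : ℕ → ℝ, K = fun j => R ^ j * (A * x ^ 2) := ⟨_, rfl⟩
  have hKj : ∀ j, K j = R ^ j * (A * x ^ 2) := fun j => by rw [hK]
  have hK0 : ∀ j, 0 < K j := fun j => by rw [hKj]; positivity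
  have hKs : ∀ j, K (j + 1) = R * K j := fun j => by rw [hKj, hKj, pow_succ]; ring
  have hKN : ∀ j ≤ N, K j ≤ 1 / 2 := by
    intro j hj
    refine le_trans ?_ hN1
    rw [hKj]
    exact mul_le_mul_of_nonneg_right (pow_le_pow_right₀ hR.le hj) ha.le
  have hKm : ∀ j, K j ≤ K (j + 1) := fun j => by
    rw [hKs]
    nlinarith [hK0 j]
  have hr2 : ∀ j ≤ N, √(1 - K j) ^ 2 = 1 - K j := fun j hj =>
    Real.sq_sqrt (by have := hKN j hj; linarith)
  have hs2 : ∀ j, √(K (j + 1) - K j) ^ 2 = K (j + 1) - K j := fun j =>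
    Real.sq_sqrt (by have := hKm j; linarith)
  have hl2 : √(n / 2 : ℝ) ^ 2 = n / 2 := Real.sq_sqrt (by positivity)
  have hlr : ∀ j ≤ N, (n : ℝ) - 2 * √(n / 2 : ℝ) ^ 2 * √(1 - K j) ^ 2 = n * K j := by
    intro j hj
    rw [hl2, hr2 j hj]
    ring
  have hlt : ∀ j ≤ N, 2 * √(n / 2 : ℝ) ^ 2 * √(1 - K j) ^ 2 < n := by
    intro j hj
    have h1 := hlr j hj
    have h2 : 0 < n * K j := mul_pos hn' (hK0 j)
    linarith
  have hlog : Real.exp (Real.log (2 * R) / 2) = √(2 * R) := by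
    rw [Real.exp_half, Real.exp_log (by positivity)]
  have hrec := rec_main (κ := Es n) (L := fun j => Lk n √(n / 2) √(1 - K j))
    (r := fun j => √(1 - K j)) (s := fun j => √(K (j + 1) - K j))
    (ξ := fun _ => Real.log (2 * R) / 2) (F := fun z => V0 fun p => z (Sum.inl p)) (x := x) N
    (fun j _ => hT.eg _ _) (fun j _ => hT.pos _ _) (fun j _ => hT.egi _ _)
    hLV' hx (fun j hj => ?_) (fun j hj => ?_) ?_
  · have hK00 : K 0 = A * x ^ 2 := by rw [hKj, pow_zero, one_mul]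
    simp only [hK00] at hrec
    refine hrec.trans (add_le_add ?_ (mul_le_mul_of_nonneg_left ?_ hx.le))
    · have h1 : ∑ j ∈ Finset.range (N + 1), Real.log (2 * R) / 2 / 2 ^ (j + 1) =
          Real.log (2 * R) / 2 * ∑ j ∈ Finset.range (N + 1), (1 : ℝ) / 2 ^ (j + 1) := by
        rw [Finset.mul_sum]
        exact Finset.sum_congr rfl fun j _ => by rw [mul_one_div]
      rw [h1]
      have h2 : 0 ≤ Real.log (2 * R) / 2 :=
        div_nonneg (Real.log_nonneg (by linarith)) (by norm_num)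
      have h3 := mul_le_mul_of_nonneg_left (geo_le N) h2
      linarith
    · have h1 := hP x A N V0 hx0 hx1 hA hV hN1 hN2
      have e1 := VV_inl (n := n) hLV hx (fun j => √(K (j + 1) - K j)) N
      rw [e1, W_inl (lip_VV hLV hx _ N).measurable]
      have e2 : (fun j => √(K (j + 1) - K j)) =
          fun j => √(R ^ (j + 1) * (A * x ^ 2) - R ^ j * (A * x ^ 2)) := by
        funext j
        rw [hKj, hKj]
      rw [e2]
      simp only [Pi.zero_apply]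
      rw [hKj]
      exact h1
  · rw [hr2 (j + 1) hj, hr2 j hj.le, hs2]
    ring
  · have h1 := hT.two √(n / 2) √(1 - K j) √(1 - K (j + 1)) √(K (j + 1) - K j)
      (by rw [hr2 (j + 1) hj, hr2 j hj.le, hs2]; ring) (hlt j hj.le)
    refine h1.trans ?_
    rw [hlr j hj.le, hlr (j + 1) hj, hKs, hlog]
    refine Real.sqrt_le_sqrt ?_
    rw [div_le_iff₀ (mul_pos hn' (hK0 j))]
    have h2 : 0 < R * (n * K j) := mul_pos hR0 (mul_pos hn' (hK0 j))
    linarith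
  · have h1 := hT.one √(n / 2) √(1 - K N) (hlt N le_rfl)
    refine h1.trans ?_
    rw [hlr N le_rfl, hlog]
    refine Real.sqrt_le_sqrt ?_
    rw [div_le_iff₀ (mul_pos hn' (hK0 N))]
    have h2 : 1 / 2 ≤ R * K N := by rw [hKj]; exact hN2
    nlinarith

/-- `-log (1 - q) ≤ q + q ^ 2` -/
lemma neg_log_le {q : ℝ} (hq0 : 0 ≤ q) (hq1 : q ≤ 1 / 2) : -Real.log (1 - q) ≤ q + q ^ 2 := by
  have h1 : 0 < 1 - q := by linarith
  have h2 : -Real.log (1 - q) = Real.log (1 / (1 - q)) := by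
    rw [one_div, Real.log_inv]
  rw [h2]
  have h3 : 1 / (1 - q) ≤ Real.exp (q + q ^ 2) := by
    rw [div_le_iff₀ h1]
    have h4 := Real.quadratic_le_exp_of_nonneg (x := q + q ^ 2) (by positivity)
    have h5 : (1 + (q + q ^ 2) + (q + q ^ 2) ^ 2 / 2) * (1 - q) ≤
        Real.exp (q + q ^ 2) * (1 - q) := mul_le_mul_of_nonneg_right h4 h1.le
    have h6 : 1 ≤ (1 + (q + q ^ 2) + (q + q ^ 2) ^ 2 / 2) * (1 - q) := by
      have e : (1 + (q + q ^ 2) + (q + q ^ 2) ^ 2 / 2) * (1 - q) =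
          1 + q ^ 2 * (1 - q - q ^ 2 - q ^ 3) / 2 := by ring
      rw [e]
      have h7 : 0 ≤ 1 - q - q ^ 2 - q ^ 3 := by
        have h8 : q ^ 2 ≤ 1 / 4 := by nlinarith
        have h9 : q ^ 3 ≤ 1 / 8 := by
          have : q ^ 3 = q ^ 2 * q := by ring
          rw [this]
          nlinarith
        linarith
      have h8 : 0 ≤ q ^ 2 * (1 - q - q ^ 2 - q ^ 3) := by positivity
      linarith
    linarith
  have h4 := Real.log_le_log (by positivity) h3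
  rwa [Real.log_exp] at h4

/-! ### chains of layers of bonds -/

section chains

variable {κ : Type} [Fintype κ]

/-- `d` layers of bonds over the levels `l + 1, …, l + d` -/
noncomputable def VP (m c : ℕ → ℝ) (F : (κ → ℝ) → ℝ) : ℕ → ℕ → (κ → ℝ) → ℝ
  | _, 0 => F
  | l, d + 1 => W (m (l + 1)) (c (l + 1)) (VP m c F (l + 1) d)

lemma Lip.VP {F : (κ → ℝ) → ℝ} (hF : Lip F) {m c : ℕ → ℝ} : ∀ d l, Pm m l d →
    Lip (VP m c F l d)
  | 0, _, _ => hF
  | d + 1, l, h => Lip.W (Lip.VP hF d (l + 1) h.tail) h.head _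

end chains

lemma VG_jb {m b w c : ℕ → ℝ} : ∀ d l, Pm m l d →
    (∀ j, l < j → j ≤ l + d → b j = β / √n * c j ∧ w j = 0) → ∀ u : Pair n → ℝ,
    VG m (va b w) (F0 n) l d (jb ((β / √n) • u)) = VP m c (Fsk n β) l d u
  | 0, _, _, _ => fun u => F0_jb u
  | d + 1, l, hm, h => fun u => by
    have ih := VG_jb (m := m) (b := b) (w := w) (c := c) d (l + 1) hm.tail
      (fun j h1 h2 => h j (by omega) (by omega))
    have h1 := h (l + 1) (by omega) (by omega)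
    rw [VG_succ]
    exact VW_jb ih (Lip.VP (AP.lip_Fsk n β) d (l + 1) hm.tail).measurable
      (fun p => by rw [va_inl, h1.1]) (fun i => by rw [va_inr, h1.2]) u

/-- a chain of layers of bonds is a nested functional -/
lemma pf_VP (hx : 0 < x) {m c : ℕ → ℝ} : ∀ d l, (∀ j, l < j → j ≤ l + d → x ≤ m j ∧ m j ≤ 2 * x) →
    ∃ (DV : Pair n → (Pair n → ℝ) → ℝ) (BV LV : ℝ), H97.Pf (Fsk n β) x (2 * x)
      (∑ j ∈ Finset.Ico l (l + d), c (j + 1) ^ 2) (VP m c (Fsk n β) l d) DV BV LV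
  | 0, l, _ => by
    have h0 := H97.Pf.zero (c11_lz (β / √n) (SkS (n := n))) (cv_lz (β / √n) SkS) hx
      (by positivity : 0 < 2 * x)
    simp only [add_zero, Finset.Ico_self, Finset.sum_empty]
    exact ⟨_, _, _, h0⟩
  | d + 1, l, h => by
    obtain ⟨DV, BV, LV, ih⟩ := pf_VP hx (m := m) (c := c) d (l + 1)
      (fun j h1 h2 => h j (by omega) (by omega))
    have h1 := h (l + 1) (by omega) (by omega)
    have h2 : 0 ≤ ∑ j ∈ Finset.Ico (l + 1) (l + 1 + d), c (j + 1) ^ 2 :=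
      Finset.sum_nonneg fun _ _ => sq_nonneg _
    have h3 := ih.step (c11_lz (β / √n) SkS) hx h1.1 h1.2 h2 (s := c (l + 1)) rfl
    have e : ∑ j ∈ Finset.Ico l (l + (d + 1)), c (j + 1) ^ 2 =
        ∑ j ∈ Finset.Ico (l + 1) (l + 1 + d), c (j + 1) ^ 2 + c (l + 1) ^ 2 := by
      rw [show l + (d + 1) = l + 1 + d by ring, Finset.sum_eq_sum_Ico_succ_bot (by omega)]
      ring
    rw [← e] at h3
    exact ⟨_, _, _, h3⟩

/-- a chain of layers of bonds whose first layer covers a half of the share -/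
lemma rep_VP (hx : 0 < x) {m c : ℕ → ℝ} {d l : ℕ} {K0 : ℝ}
    (h : ∀ j, l < j → j ≤ l + (d + 1) → x ≤ m j ∧ m j ≤ 2 * x)
    (hK : ∑ j ∈ Finset.Ico l (l + (d + 1)), c (j + 1) ^ 2 = K0) (hK2 : K0 ≤ 2 * c (l + 1) ^ 2) :
    H97.Rep (Fsk n β) x (2 * x) K0 (VP m c (Fsk n β) l (d + 1)) := by
  obtain ⟨DV, BV, LV, ih⟩ := pf_VP (n := n) (β := β) hx (m := m) (c := c) d (l + 1)
      (fun j h1 h2 => h j (by omega) (by omega))
  have h1 := h (l + 1) (by omega) (by omega)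
  have h2 : 0 ≤ ∑ j ∈ Finset.Ico (l + 1) (l + 1 + d), c (j + 1) ^ 2 :=
    Finset.sum_nonneg fun _ _ => sq_nonneg _
  have e : ∑ j ∈ Finset.Ico l (l + (d + 1)), c (j + 1) ^ 2 =
      ∑ j ∈ Finset.Ico (l + 1) (l + 1 + d), c (j + 1) ^ 2 + c (l + 1) ^ 2 := by
    rw [show l + (d + 1) = l + 1 + d by ring, Finset.sum_eq_sum_Ico_succ_bot (by omega)]
    ring
  exact ⟨_, _, _, _, _, c (l + 1), m (l + 1), ih, h2, by rw [← hK, e], hK2, h1.1, h1.2, rfl⟩

end Vale.Agent.P146.H379.FS
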