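import Vale.Agent.P146.H379.FS3

/-!
# P146: from a Gaussian field on the outermost level to a spike, any inner part (helper379)

`Dom c G`: a field is dominated by a spike, for a functional of the bonds and the fields; it holds
for `F0` and is stable under the layers.
-/

open MeasureTheory ProbabilityTheory

namespace Vale.Agent.P146.H379.FS

open Vale.Agent.P157 Vale.Agent.P157.Lv Vale.Agent.P157.Lv.Sy
open Vale.Agent.P146.H425 Vale.Agent.P146.H325 Vale.Agent.P146.H332 Vale.Agent.P146.H93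
  Vale.Agent.P146.H479 Vale.Agent.P146.U

set_option linter.unusedSectionVars false

variable {n K l d : ℕ} {β J x ω r s c lam a t : ℝ} {G : (Es n → ℝ) → ℝ} {m b w : ℕ → ℝ}

/-- a field -/
def fv (h : Fin n → ℝ) : Es n → ℝ := Sum.elim (fun _ => 0) h

/-- a spike on the bonds -/
def sv (c : ℝ) (u : Fin n → ℝ) : Es n → ℝ :=
  Sum.elim (fun p : Pair n => c * (u p.1.1 * u p.1.2)) fun _ => 0

@[simp] lemma fv_inl (h : Fin n → ℝ) (p : Pair n) : fv h (Sum.inl p) = 0 := rfl
@[simp] lemma fv_inr (h : Fin n → ℝ) (i : Fin n) : fv h (Sum.inr i) = h i := rfl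
@[simp] lemma sv_inl (c : ℝ) (u : Fin n → ℝ) (p : Pair n) :
    sv c u (Sum.inl p) = c * (u p.1.1 * u p.1.2) := rfl
@[simp] lemma sv_inr (c : ℝ) (u : Fin n → ℝ) (i : Fin n) : sv c u (Sum.inr i) = 0 := rfl

/-- **A field is dominated by a spike.** -/
def Dom (c : ℝ) (G : (Es n → ℝ) → ℝ) : Prop :=
  ∀ (y : Es n → ℝ) (h : Fin n → ℝ) (ω : ℝ), G (y + fv (ω • h)) ≤
    G (y + sv c (un h)) + (c / 2 + ω ^ 2 / (2 * c) * ∑ i, h i ^ 2)

lemma Dom.F0 (hc : 0 < c) : Dom c (F0 n) := by
  intro y h ω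
  unfold H479.F0 ew
  rw [← Real.log_exp (c / 2 + ω ^ 2 / (2 * c) * ∑ i, h i ^ 2)]
  have hpos : 0 < ∑ x : Fin n → ℤˣ, Real.exp (∑ e, st e x * (y + sv c (un h)) e) :=
    Finset.sum_pos (fun _ _ => Real.exp_pos _) Finset.univ_nonempty
  rw [← Real.log_mul hpos.ne' (Real.exp_pos _).ne', Finset.sum_mul]
  refine Real.log_le_log (Finset.sum_pos (fun _ _ => Real.exp_pos _) Finset.univ_nonempty) ?_
  refine Finset.sum_le_sum fun x _ => ?_
  rw [← Real.exp_add]
  refine Real.exp_le_exp.2 ?_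
  have h1 := amgm (ω := ω) hc h x
  have h2 : ∑ e, st e x * (y + fv (ω • h)) e = ∑ e, st e x * y e + ω * ∑ i, h i * sp x i := by
    have e1 : ∀ e : Es n, st e x * (y + fv (ω • h)) e =
        st e x * y e + st e x * fv (ω • h) e := fun e => by
      rw [Pi.add_apply, mul_add]
    simp only [e1]
    rw [Finset.sum_add_distrib]
    congr 1
    rw [Fintype.sum_sum_type]
    simp only [fv_inl, fv_inr, mul_zero, Finset.sum_const_zero, zero_add, Pi.smul_apply,
      smul_eq_mul]
    rw [Finset.mul_sum]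
    refine Finset.sum_congr rfl fun i _ => ?_
    show sp x i * _ = _
    ring
  have h3 : ∑ e, st e x * (y + sv c (un h)) e = ∑ e, st e x * y e +
      c * ∑ p : Pair n, un h p.1.1 * un h p.1.2 * SkS p x := by
    have e1 : ∀ e : Es n, st e x * (y + sv c (un h)) e =
        st e x * y e + st e x * sv c (un h) e := fun e => by
      rw [Pi.add_apply, mul_add]
    simp only [e1]
    rw [Finset.sum_add_distrib]
    congr 1
    rw [Fintype.sum_sum_type]
    simp only [sv_inl, sv_inr, mul_zero, Finset.sum_const_zero, add_zero]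
    rw [Finset.mul_sum]
    refine Finset.sum_congr rfl fun p _ => ?_
    show SkS p x * _ = _
    ring
  rw [h2, h3]
  linarith

lemma Dom.VW (hG : Dom c G) (hL : Lip G) (hx : 0 < x) (v : Es n → ℝ) :
    Dom c (VW x v G) := by
  intro y h ω
  refine VW_le hL hL hx (fun z => ?_) v
  have h1 := hG (y + z) h ω
  have e1 : y + z + fv (ω • h) = y + fv (ω • h) + z := by abel
  have e2 : y + z + sv c (un h) = y + sv c (un h) + z := by abel
  rwa [e1, e2] at h1

lemma Dom.VG {v : ℕ → Es n → ℝ} (hG : Dom c G) (hL : Lip G) : ∀ d l, Pm m l d →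
    Dom c (VG m v G l d)
  | 0, _, _ => hG
  | d + 1, l, h => Dom.VW (Dom.VG hG hL d (l + 1) h.tail) (Lip.VG hL d (l + 1) h.tail) h.head _

/-- the inner functional as a function of the bonds only -/
noncomputable def GJ (n : ℕ) (β : ℝ) (G : (Es n → ℝ) → ℝ) (z : Es n → ℝ) : ℝ :=
  G (jb ((β / √n) • fun p => z (Sum.inl p)))

lemma Lip.GJ (hG : Lip G) (β : ℝ) : Lip (GJ n β G) := by
  obtain ⟨L, hL, h⟩ := hG
  refine ⟨L * |β / √n|, by positivity, fun y y' => (h _ _).trans ?_⟩
  rw [mul_assoc]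
  refine mul_le_mul_of_nonneg_left ?_ hL
  rw [pi_norm_le_iff_of_nonneg (by positivity)]
  rintro (p | i)
  · simp only [Pi.sub_apply, jb_inl, Pi.smul_apply, smul_eq_mul]
    rw [← mul_sub, Real.norm_eq_abs, abs_mul]
    exact mul_le_mul_of_nonneg_left (norm_le_pi_norm (y - y') (Sum.inl p)) (abs_nonneg _)
  · simp only [Pi.sub_apply, jb_inr, sub_self, norm_zero]
    positivity

/-- the exponential moment with a spike -/
noncomputable def PG (n : ℕ) (β : ℝ) (G : (Es n → ℝ) → ℝ) (x r c : ℝ) (u : Fin n → ℝ) : ℝ :=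
  ∫ g, Real.exp (x * G (jb ((β / √n) • (r • g)) + sv c u)) ∂(gI (Pair n))

lemma measurable_jb (k : ℝ) : Measurable fun g : Pair n → ℝ => jb (k • g) := by
  rw [measurable_pi_iff]
  rintro (p | i)
  · exact (by fun_prop : Measurable fun g : Pair n → ℝ => (k • g) p)
  · exact measurable_const

lemma measurable_sv (c : ℝ) : Measurable fun u : Fin n → ℝ => sv c u := by
  rw [measurable_pi_iff]
  rintro (p | i)
  · have h1 : Measurable fun u : Fin n → ℝ => u p.1.1 := measurable_pi_apply _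
    have h2 : Measurable fun u : Fin n → ℝ => u p.1.2 := measurable_pi_apply _
    exact (h1.mul h2).const_mul _
  · exact measurable_const

lemma measurable_PG (hG : Lip G) (β x r c : ℝ) : Measurable (PG n β G x r c) := by
  have h1 : Measurable fun q : (Fin n → ℝ) × (Pair n → ℝ) =>
      Real.exp (x * G (jb ((β / √n) • (r • q.2)) + sv c q.1)) := by
    refine Real.measurable_exp.comp (Measurable.const_mul ?_ x)
    refine hG.measurable.comp (Measurable.add ?_ ((measurable_sv c).comp measurable_fst))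
    exact (measurable_jb (β / √n)).comp (measurable_snd.const_smul r)
  exact (h1.stronglyMeasurable.integral_prod_right' (ν := gI (Pair n))).measurable

lemma PG_nonneg (u : Fin n → ℝ) : 0 ≤ PG n β G x r c u :=
  integral_nonneg fun _ => (Real.exp_pos _).le

lemma norm_sv_le (c : ℝ) (h : Fin n → ℝ) : ‖sv c (un h)‖ ≤ |c| := by
  rw [pi_norm_le_iff_of_nonneg (abs_nonneg c)]
  rintro (p | i)
  · rw [sv_inl, Real.norm_eq_abs, abs_mul, abs_mul]
    have h1 := abs_un_le h p.1.1
    have h2 := abs_un_le h p.1.2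
    have h3 : |un h p.1.1| * |un h p.1.2| ≤ 1 := mul_le_one₀ h1 (abs_nonneg _) h2
    have h4 := mul_le_mul_of_nonneg_left h3 (abs_nonneg c)
    linarith
  · rw [sv_inr, norm_zero]
    exact abs_nonneg c

lemma lip_slice (hG : Lip G) (β r : ℝ) (y : Es n → ℝ) :
    Lip fun g : Pair n → ℝ => G (jb ((β / √n) • (r • g)) + y) := by
  obtain ⟨L, hL, h⟩ := hG
  refine ⟨L * (|β / √n| * |r|), by positivity, fun g g' => (h _ _).trans ?_⟩
  rw [add_sub_add_right_eq_sub, mul_assoc]
  refine mul_le_mul_of_nonneg_left ?_ hL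
  rw [pi_norm_le_iff_of_nonneg (by positivity)]
  rintro (p | i)
  · simp only [Pi.sub_apply, jb_inl, Pi.smul_apply, smul_eq_mul]
    rw [← mul_sub, ← mul_sub, Real.norm_eq_abs, abs_mul, abs_mul, mul_assoc]
    exact mul_le_mul_of_nonneg_left (mul_le_mul_of_nonneg_left (norm_le_pi_norm (g - g') p)
      (abs_nonneg _)) (abs_nonneg _)
  · simp only [Pi.sub_apply, jb_inr, sub_self, norm_zero]
    positivity

lemma PG_le (hG : Lip G) (hx : 0 ≤ x) (β r c : ℝ) :
    ∃ C : ℝ, ∀ h : Fin n → ℝ, PG n β G x r c (un h) ≤ C := by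
  obtain ⟨L, hL, hb⟩ := id hG
  have hi : Integrable (fun g : Pair n → ℝ => Real.exp (x * G (jb ((β / √n) • (r • g)) + 0)))
      (gI (Pair n)) := ((lip_slice hG β r 0).exp_eg x).integrable
  refine ⟨∫ g, Real.exp (x * (L * |c|)) * Real.exp (x * G (jb ((β / √n) • (r • g)) + 0))
    ∂(gI (Pair n)), fun h => ?_⟩
  unfold PG
  refine integral_mono_of_nonneg (Filter.Eventually.of_forall fun _ => (Real.exp_pos _).le)
    (hi.const_mul _) (Filter.Eventually.of_forall fun g => ?_)
  simp only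
  rw [← Real.exp_add, ← mul_add]
  refine Real.exp_le_exp.2 (mul_le_mul_of_nonneg_left ?_ hx)
  have h1 := (abs_le.1 (hb (jb ((β / √n) • (r • g)) + sv c (un h))
    (jb ((β / √n) • (r • g)) + 0))).2
  rw [add_sub_add_left_eq_sub, sub_zero] at h1
  have h2 := mul_le_mul_of_nonneg_left (norm_sv_le c h) hL
  linarith

/-- Cameron-Martin -/
lemma PG_eq (hn : 0 < n) (hG : Lip G) (hr : 0 < r) (J : ℝ) {h : Fin n → ℝ} (h0 : nm h ≠ 0) :
    PG n β G x r (β * J) (un h) =
      ∫ z, Real.exp (J * √(n / 2) / r ^ 2 * ∑ e, (r • z) e * mm (un h) e -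
        (J * √(n / 2) / r ^ 2) ^ 2 * r ^ 2 / 2) *
        Real.exp (x * GJ n β G (r • z)) ∂(gI (Es n)) := by
  have hn' : (0 : ℝ) < n := Nat.cast_pos.2 hn
  obtain ⟨t, ht⟩ : ∃ t, t = J * √(n / 2 : ℝ) := ⟨_, rfl⟩
  rw [← ht]
  have hsv : sv (β * J) (un h) = jb ((β / √n) • fun p => t * mm (un h) (Sum.inl p)) := by
    funext e
    rcases e with p | i
    · rw [sv_inl, jb_inl, Pi.smul_apply, smul_eq_mul, mm_inl, ht]
      have e2 : √(n / 2 : ℝ) * √2 = √n := by
        rw [← Real.sqrt_mul (by positivity)]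
        congr 1
        ring
      have e3 : √(n : ℝ) ≠ 0 := (Real.sqrt_pos.2 hn').ne'
      have e4 : J * √(n / 2 : ℝ) * (√2 * (un h p.1.1 * un h p.1.2)) =
          J * √n * (un h p.1.1 * un h p.1.2) := by
        rw [← e2]
        ring
      rw [e4]
      field_simp
    · rw [sv_inr, jb_inr]
  have e0 : PG n β G x r (β * J) (un h) =
      ∫ z, Real.exp (x * GJ n β G (r • z + t • mm (un h))) ∂(gI (Es n)) := by
    unfold PG
    have hm : Measurable fun g : Pair n → ℝ =>
        Real.exp (x * G (jb ((β / √n) • (r • g)) + sv (β * J) (un h))) :=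
      Real.measurable_exp.comp ((lip_slice hG β r _).measurable.const_mul _)
    have h1 := R1C.int_inj (β := Es n) (φ := (Sum.inl : Pair n → Es n)) Sum.inl_injective hm
    rw [← h1]
    refine integral_congr_ae (Filter.Eventually.of_forall fun z => ?_)
    simp only
    congr 2
    unfold GJ
    congr 1
    rw [hsv]
    funext e
    rcases e with p | i
    · simp only [Pi.add_apply, jb_inl, Pi.smul_apply, smul_eq_mul]
      ring
    · simp only [Pi.add_apply, jb_inr, add_zero]
  have e3 := integral_shift (ι := Es n) (-(t / r) • mm (un h))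
    (fun z => Real.exp (x * GJ n β G (r • z)))
  have e4 : ∀ z : Es n → ℝ, r • (z - -(t / r) • mm (un h)) = r • z + t • mm (un h) := by
    intro z
    funext e
    simp only [Pi.smul_apply, Pi.sub_apply, Pi.add_apply, smul_eq_mul]
    field_simp
    try ring
  simp only [e4] at e3
  rw [e0, e3]
  refine integral_congr_ae (Filter.Eventually.of_forall fun z => ?_)
  simp only
  congr 2
  simp only [Pi.smul_apply, smul_eq_mul]
  have h5 : ∑ e, (-(t / r) * mm (un h) e) ^ 2 = (t / r) ^ 2 := by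
    have : ∀ e, (-(t / r) * mm (un h) e) ^ 2 = (t / r) ^ 2 * mm (un h) e ^ 2 := fun e => by ring
    simp only [this]
    rw [← Finset.mul_sum, sum_mm_un h0, mul_one]
  have h6 : ∑ e, -(t / r) * mm (un h) e * z e = -(t / r) * ∑ e, mm (un h) e * z e := by
    rw [Finset.mul_sum]
    exact Finset.sum_congr rfl fun e _ => by ring
  have h7 : ∑ e, r * z e * mm (un h) e = r * ∑ e, mm (un h) e * z e := by
    rw [Finset.mul_sum]
    exact Finset.sum_congr rfl fun e _ => by ring
  rw [h5, h6, h7]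
  field_simp

/-- the integrand on the product space -/
lemma int_prodG (hG : Lip G) (hx : 0 < x) (r lam ρ : ℝ) :
    Integrable (fun q : (Fin n → ℝ) × (Es n → ℝ) =>
      Real.exp (lam * ∑ e, (r • q.2) e * mm (un q.1) e - lam ^ 2 * ρ ^ 2 / 2) *
        Real.exp (x * G (r • q.2))) ((gI (Fin n)).prod (gI (Es n))) := by
  obtain ⟨N, hN⟩ : ∃ N : ℝ, N = Fintype.card (Es n) := ⟨_, rfl⟩
  have hN0 : 0 ≤ N := by rw [hN]; positivity
  have h1 : EG fun z : Es n → ℝ => Real.exp (|lam| * |r| * (N * ‖z‖)) *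
      Real.exp (x * G (r • z)) := by
    obtain ⟨C, hC, hb⟩ := id hG
    have hm : Measurable fun z : Es n → ℝ => G (r • z) := hG.measurable.comp (by fun_prop)
    refine ⟨(by fun_prop : Measurable fun z : Es n → ℝ => Real.exp (|lam| * |r| * (N * ‖z‖))).mul
      (Real.measurable_exp.comp (hm.const_mul _)),
      Real.exp (x * |G 0|), |lam| * |r| * N + x * C * |r|, by positivity,
      by positivity, fun z => ?_⟩
    rw [abs_of_pos (by positivity), ← Real.exp_add, ← Real.exp_add]
    refine Real.exp_le_exp.2 ?_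
    have h2 := hb (r • z) 0
    rw [sub_zero, norm_smul, Real.norm_eq_abs] at h2
    have h3 := (abs_le.1 h2).2
    have h4 := le_abs_self (G 0)
    have h5 : G (r • z) ≤ |G 0| + C * (|r| * ‖z‖) := by linarith
    have h6 := mul_le_mul_of_nonneg_left h5 hx.le
    linarith
  have h2 : Integrable (fun q : (Fin n → ℝ) × (Es n → ℝ) =>
      Real.exp (|lam| * |r| * (N * ‖q.2‖)) * Real.exp (x * G (r • q.2)))
      ((gI (Fin n)).prod (gI (Es n))) := h1.integrable.comp_snd (gI (Fin n))
  have hW : Measurable G := hG.measurable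
  have hmm : ∀ e : Es n, Measurable fun q : (Fin n → ℝ) × (Es n → ℝ) => mm (un q.1) e :=
    fun e => (measurable_mm e).comp measurable_fst
  refine h2.mono' (Measurable.aestronglyMeasurable ?_) (Filter.Eventually.of_forall fun q => ?_)
  · refine (Real.measurable_exp.comp (((Finset.measurable_sum _ fun e _ =>
      Measurable.mul ?_ (hmm e)).const_mul _).sub_const _)).mul
      (Real.measurable_exp.comp (Measurable.const_mul (hW.comp ?_) _))
    · have : Measurable fun q : (Fin n → ℝ) × (Es n → ℝ) => r • q.2 := by fun_prop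
      exact (measurable_pi_apply e).comp this
    · fun_prop
  · rw [Real.norm_eq_abs, abs_of_pos (by positivity)]
    refine mul_le_mul_of_nonneg_right (Real.exp_le_exp.2 ?_) (Real.exp_pos _).le
    have h3 : |∑ e, (r • q.2) e * mm (un q.1) e| ≤ |r| * (N * ‖q.2‖) := by
      refine (Finset.abs_sum_le_sum_abs _ _).trans ?_
      have h4 : ∀ e, |(r • q.2) e * mm (un q.1) e| ≤ |r| * ‖q.2‖ := by
        intro e
        rw [abs_mul, Pi.smul_apply, smul_eq_mul, abs_mul]
        have h5 := norm_le_pi_norm q.2 e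
        rw [Real.norm_eq_abs] at h5
        have h6 := abs_mm_le q.1 e
        have h7 : |r| * |q.2 e| * |mm (un q.1) e| ≤ |r| * |q.2 e| * 1 :=
          mul_le_mul_of_nonneg_left h6 (by positivity)
        have h8 := mul_le_mul_of_nonneg_left h5 (abs_nonneg r)
        linarith
      refine (Finset.sum_le_sum fun e _ => h4 e).trans ?_
      rw [Finset.sum_const, Finset.card_univ, nsmul_eq_mul, ← hN]
      exact le_of_eq (by ring)
    have h5 : lam * ∑ e, (r • q.2) e * mm (un q.1) e ≤ |lam| * (|r| * (N * ‖q.2‖)) := by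
      refine (le_abs_self _).trans ?_
      rw [abs_mul]
      exact mul_le_mul_of_nonneg_left h3 (abs_nonneg _)
    have h6 : 0 ≤ lam ^ 2 * ρ ^ 2 / 2 := by positivity
    linarith

/-- the likelihood ratio of a rank one spike with a uniform direction -/
lemma int_PG (hn : 0 < n) (hG : Lip G) (hx : 0 < x) (hr : 0 < r) (J : ℝ) :
    ∫ h, PG n β G x r (β * J) (un h) ∂(gI (Fin n)) =
      ∫ z, Lk n (J * √(n / 2) / r ^ 2) r (r • z) * Real.exp (x * GJ n β G (r • z))
        ∂(gI (Es n)) := by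
  have : Nonempty (Fin n) := ⟨⟨0, hn⟩⟩
  have h1 : ∫ h, PG n β G x r (β * J) (un h) ∂(gI (Fin n)) = ∫ h, (∫ z,
      Real.exp (J * √(n / 2) / r ^ 2 * ∑ e, (r • z) e * mm (un h) e -
        (J * √(n / 2) / r ^ 2) ^ 2 * r ^ 2 / 2) *
        Real.exp (x * GJ n β G (r • z)) ∂(gI (Es n))) ∂(gI (Fin n)) :=
    integral_congr_ae ((ae_nm (ν := Fin n)).mono fun h h0 => PG_eq hn hG hr J h0)
  rw [h1, integral_integral_swap (int_prodG (Lip.GJ hG β) hx r _ r)]
  refine integral_congr_ae (Filter.Eventually.of_forall fun z => ?_)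
  simp only
  rw [integral_mul_const]
  rfl

/-- **From a Gaussian field to a spike**, for the exponential moments, any inner part. -/
theorem expo_leG (hn : 0 < n) (hβ : 0 < β) (hJ : 0 < J) (hx : 0 < x)
    (hω : x * ω ^ 2 < β * J) (hr : 0 < r) (hG : Lip G) (hD : Dom (β * J) G)
    {v : Es n → ℝ} (hv : ∀ p, v (Sum.inl p) = β / √n * r) (hv' : ∀ i, v (Sum.inr i) = ω) :
    ∫ z, Real.exp (x * G (v * z)) ∂(gI (Es n)) ≤
      Real.exp (x * (β * J / 2)) * ((√(1 - x * ω ^ 2 / (β * J)) ^ n)⁻¹ *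
        ∫ z, Lk n (J * √(n / 2) / r ^ 2) r (r • z) *
          Real.exp (x * GJ n β G (r • z)) ∂(gI (Es n))) := by
  have hc : 0 < β * J := by positivity
  obtain ⟨σ, hσ⟩ : ∃ σ, σ = √(1 - x * ω ^ 2 / (β * J)) := ⟨_, rfl⟩
  have hq : x * ω ^ 2 / (β * J) < 1 := by rwa [div_lt_one hc]
  have hσ0 : 0 < σ := by
    rw [hσ]
    exact Real.sqrt_pos.2 (by linarith)
  have hσ2 : σ ^ 2 = 1 - x * ω ^ 2 / (β * J) := by
    rw [hσ]
    exact Real.sq_sqrt (by linarith)
  have hEG : EG fun z : Es n → ℝ => Real.exp (x * G (v * z)) := by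
    have := H479.EG.vec (hG.exp_eg x) 0 v
    simpa using this
  rw [int_sumE hEG, ← hσ, ← int_PG hn hG hx hr J]
  have h1 := int_scale hσ0 (measurable_PG (n := n) hG β x r (β * J))
  rw [Fintype.card_fin] at h1
  rw [← h1, ← integral_const_mul]
  obtain ⟨C, hC⟩ := PG_le (n := n) hG hx.le β r (β * J)
  have hi : Integrable (fun h : Fin n → ℝ => Real.exp (x * (β * J / 2)) *
      (Real.exp ((1 - σ ^ 2) / 2 * ∑ i, h i ^ 2) * PG n β G x r (β * J) (un h)))
      (gI (Fin n)) := by
    refine Integrable.const_mul ?_ _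
    refine ((int_sq (ν := Fin n) hσ0).mul_const C).mono'
      (((by fun_prop : Measurable fun h : Fin n → ℝ => Real.exp ((1 - σ ^ 2) / 2 *
        ∑ i, h i ^ 2)).mul ((measurable_PG hG β x r _).comp measurable_un)).aestronglyMeasurable)
      (Filter.Eventually.of_forall fun h => ?_)
    rw [Real.norm_eq_abs, abs_of_nonneg (mul_nonneg (Real.exp_pos _).le (PG_nonneg _))]
    exact mul_le_mul_of_nonneg_left (hC h) (Real.exp_pos _).le
  refine integral_mono_of_nonneg (Filter.Eventually.of_forall fun h =>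
    integral_nonneg fun _ => (Real.exp_pos _).le) hi (Filter.Eventually.of_forall fun h => ?_)
  simp only
  unfold PG
  rw [← integral_const_mul, ← integral_const_mul]
  have hgi : Integrable (fun g : Pair n → ℝ =>
      Real.exp (x * G (jb ((β / √n) • (r • g)) + sv (β * J) (un h)))) (gI (Pair n)) :=
    ((lip_slice hG β r _).exp_eg x).integrable
  refine integral_mono_of_nonneg (Filter.Eventually.of_forall fun _ => (Real.exp_pos _).le)
    ((hgi.const_mul _).const_mul _) (Filter.Eventually.of_forall fun g => ?_)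
  simp only
  rw [← Real.exp_add, ← Real.exp_add]
  refine Real.exp_le_exp.2 ?_
  have e1 : v * (Sum.elim g h : Es n → ℝ) = jb ((β / √n) • (r • g)) + fv (ω • h) := by
    funext e
    rcases e with p | i
    · simp only [Pi.mul_apply, Sum.elim_inl, hv, Pi.add_apply, jb_inl, Pi.smul_apply,
        smul_eq_mul, fv_inl, add_zero]
      ring
    · simp only [Pi.mul_apply, Sum.elim_inr, hv', Pi.add_apply, jb_inr, fv_inr, Pi.smul_apply,
        smul_eq_mul, zero_add]
  have h3 := mul_le_mul_of_nonneg_left (hD (jb ((β / √n) • (r • g))) h ω) hx.le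
  rw [← e1] at h3
  have h4 : (1 - σ ^ 2) / 2 * ∑ i, h i ^ 2 = x * (ω ^ 2 / (2 * (β * J)) * ∑ i, h i ^ 2) := by
    rw [hσ2]
    field_simp
    ring
  rw [h4]
  linarith

/-- **From a Gaussian field on the outermost level to a spike**, any law. -/
theorem field_spikeG (hn : 0 < n) (hβ : 0 < β) (hJ : 0 < J) (hm : Em (K + 1) m)
    (hb : b 1 = β / √n * r) (hω : m 1 * w 1 ^ 2 < β * J) (hr : 0 < r) :
    m 1 * (skS n (K + 1) m b w).fe ≤ m 1 * (β * J / 2) -
      n / 2 * Real.log (1 - m 1 * w 1 ^ 2 / (β * J)) +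
      Real.log (∫ z, Lk n (J * √(n / 2) / r ^ 2) r (r • z) *
        Real.exp (m 1 * GJ n β (VG m (va b w) (F0 n) 1 K) (r • z)) ∂(gI (Es n))) := by
  have hc : 0 < β * J := by positivity
  have hx : 0 < m 1 := hm.pos
  have hq : m 1 * w 1 ^ 2 / (β * J) < 1 := by rwa [div_lt_one hc]
  have hPm : Pm m 1 K := (Em.pm hm).mono (by omega) (by omega)
  have hL : Lip (VG m (va b w) (F0 n) 1 K) := Lip.VG (F0_lip n) K 1 hPm
  have hD : Dom (β * J) (VG m (va b w) (F0 n) 1 K) := Dom.VG (Dom.F0 hc) (F0_lip n) K 1 hPm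
  have h1 := expo_leG (x := m 1) (ω := w 1) (r := r) hn hβ hJ hx hω hr hL hD (v := va b w 1)
    (fun p => by rw [va_inl, hb]) (fun i => by rw [va_inr])
  have hEG : EG fun z : Es n → ℝ =>
      Real.exp (m 1 * VG m (va b w) (F0 n) 1 K (va b w 1 * z)) := by
    have := H479.EG.vec (hL.exp_eg (m 1)) 0 (va b w 1)
    simpa using this
  have hpos : 0 < ∫ z, Real.exp (m 1 * VG m (va b w) (F0 n) 1 K (va b w 1 * z)) ∂(gI (Es n)) :=
    integral_exp_pos hEG.integrable
  have hfe : m 1 * (skS n (K + 1) m b w).fe =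
      Real.log (∫ z, Real.exp (m 1 * VG m (va b w) (F0 n) 1 K (va b w 1 * z)) ∂(gI (Es n))) := by
    rw [fe_eq hm, VG_succ]
    unfold VW
    simp only [zero_add]
    rw [← mul_assoc, mul_one_div_cancel hx.ne', one_mul]
  obtain ⟨I, hI⟩ : ∃ I, I = ∫ z, Lk n (J * √(n / 2) / r ^ 2) r (r • z) *
        Real.exp (m 1 * GJ n β (VG m (va b w) (F0 n) 1 K) (r • z)) ∂(gI (Es n)) := ⟨_, rfl⟩
  rw [← hI] at h1 ⊢
  have hs0 : 0 < √(1 - m 1 * w 1 ^ 2 / (β * J)) := Real.sqrt_pos.2 (by linarith)
  have hI0 : 0 < I := by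
    by_contra hcon
    rw [not_lt] at hcon
    have h2 : Real.exp (m 1 * (β * J / 2)) * ((√(1 - m 1 * w 1 ^ 2 / (β * J)) ^ n)⁻¹ * I) ≤ 0 :=
      mul_nonpos_of_nonneg_of_nonpos (Real.exp_pos _).le
        (mul_nonpos_of_nonneg_of_nonpos (by positivity) hcon)
    linarith
  rw [hfe]
  refine (Real.log_le_log hpos h1).trans (le_of_eq ?_)
  rw [Real.log_mul (Real.exp_pos _).ne' (by positivity), Real.log_exp,
    Real.log_mul (by positivity) hI0.ne', Real.log_inv, Real.log_pow,
    Real.log_sqrt (by linarith)]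
  ring

end Vale.Agent.P146.H379.FS
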