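import Vale.Agent.P146.H379.FS4

/-!
# P146: crude removal of a small field on the outermost level (helper379)
-/

open MeasureTheory ProbabilityTheory

namespace Vale.Agent.P146.H379.FS

open Vale.Agent.P157 Vale.Agent.P157.Lv Vale.Agent.P157.Lv.Sy
open Vale.Agent.P146.H425 Vale.Agent.P146.H325 Vale.Agent.P146.H332 Vale.Agent.P146.H93
  Vale.Agent.P146.H479 Vale.Agent.P146.U Vale.Agent.P146.H112

set_option linter.unusedSectionVars false

variable {n K : ℕ} {β x A R C : ℝ} {m b w c : ℕ → ℝ}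

/-- the free energy without fields is a chain of layers of bonds -/
lemma fe_VP (hm : Em (K + 1) m) (hb : ∀ j, 1 ≤ j → j ≤ K + 1 → b j = β / √n * c j)
    (hw : ∀ j, 1 ≤ j → j ≤ K + 1 → w j = 0) :
    (skS n (K + 1) m b w).fe = W (m 1) (c 1) (VP m c (Fsk n β) 1 K) 0 := by
  rw [fe_eq hm]
  have h := VG_jb (n := n) (β := β) (m := m) (b := b) (w := w) (c := c) (K + 1) 0
    (Em.pm hm) (fun j h1 h2 => ⟨hb j (by omega) (by omega), hw j (by omega) (by omega)⟩) 0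
  rw [smul_zero, jb_zero] at h
  exact h

/-- the numbers -/
lemma num_end {n x β A J q v F F0 E L : ℝ} (hn : 0 < n) (hβ : 0 < β) (hx : 0 < x)
    (hv : 0 ≤ v) (hJ : J = 1 - A * x ^ 2) (hJ2 : 1 / 2 ≤ J) (hq0 : 0 ≤ q)
    (hq : q = x * v / (β * J)) (hA : 0 ≤ A * x ^ 2)
    (h : x * F ≤ x * (β * J / 2) + n / 2 * (q + q ^ 2) + (L / 2 + x * (F0 + E))) :
    F ≤ F0 + n * v / (2 * β) + (β / 2 + L / (2 * x) + n * (A * v * x ^ 2) / β +
        2 * n * x * v ^ 2 / β ^ 2 + E) := by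
  have hJ0 : 0 < J := by linarith
  have hJ1 : J ≤ 1 := by linarith
  have hβJ : 0 < β * J := by positivity
  have hxv : 0 ≤ x * v := by positivity
  have h6 : n / 2 * q ≤ x * (n * v / (2 * β) + n * (A * v * x ^ 2) / β) := by
    rw [hq]
    have e1 : n / 2 * (x * v / (β * J)) = x * (n * v) / (2 * β) * (1 / J) := by
      field_simp
    have e2 : 1 / J ≤ 1 + 2 * (A * x ^ 2) := by
      rw [div_le_iff₀ hJ0]
      have h1 : (A * x ^ 2) * (1 / 2) ≤ (A * x ^ 2) * J := mul_le_mul_of_nonneg_left hJ2 hA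
      have h2 : (1 + 2 * (A * x ^ 2)) * J = J + 2 * (A * x ^ 2 * J) := by ring
      rw [h2]
      linarith
    rw [e1]
    have e3 : 0 ≤ x * (n * v) / (2 * β) := by positivity
    refine (mul_le_mul_of_nonneg_left e2 e3).trans (le_of_eq ?_)
    field_simp
  have h7 : n / 2 * q ^ 2 ≤ x * (2 * n * x * v ^ 2 / β ^ 2) := by
    have e1 : q ≤ 2 * (x * v) / β := by
      rw [hq, div_le_div_iff₀ hβJ hβ]
      have h1 : (x * v * β) * (1 / 2) ≤ (x * v * β) * J :=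
        mul_le_mul_of_nonneg_left hJ2 (by positivity)
      linarith
    have e2 : q ^ 2 ≤ (2 * (x * v) / β) ^ 2 := pow_le_pow_left₀ hq0 e1 2
    refine (mul_le_mul_of_nonneg_left e2 (by positivity : (0 : ℝ) ≤ n / 2)).trans (le_of_eq ?_)
    field_simp
  have h8 : x * (β * J / 2) ≤ x * (β / 2) := by
    refine mul_le_mul_of_nonneg_left ?_ hx.le
    have := mul_le_mul_of_nonneg_left hJ1 hβ.le
    linarith
  have h9 : L / 2 = x * (L / (2 * x)) := by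
    field_simp
  rw [h9] at h
  refine le_of_mul_le_mul_left (h.trans ?_) hx
  have e : x * (F0 + n * v / (2 * β) + (β / 2 + L / (2 * x) + n * (A * v * x ^ 2) / β +
        2 * n * x * v ^ 2 / β ^ 2 + E)) =
      x * F0 + x * (n * v / (2 * β) + n * (A * v * x ^ 2) / β) +
        x * (2 * n * x * v ^ 2 / β ^ 2) + x * (β / 2) + x * (L / (2 * x)) + x * E := by ring
  have e2 : n / 2 * (q + q ^ 2) = n / 2 * q + n / 2 * q ^ 2 := by ring
  have e3 : x * (F0 + E) = x * F0 + x * E := by ring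
  rw [e, e2, e3]
  linarith

/-- **Crude removal of a field**: the field sits on the outermost level, the inner levels have
exponents in `[x, 2 x]`, the bond share `A x ^ 2` and no field. -/
theorem field_rem_aux (hT : TT n) (hP : TP β R C n) (hn : 0 < n) (hβ : 0 < β) (hR : 1 < R)
    (hx0 : (n : ℝ) ^ (-(1 / 6) : ℝ) ≤ x) (hx1 : x ≤ (n : ℝ) ^ (-(21 / 200) : ℝ)) (hA : 4 ≤ A)
    (hAx : A * x ^ 2 ≤ 1 / 2) (hm : Em (K + 2) m) (hm1 : m 1 = x)
    (hm2 : ∀ j, 2 ≤ j → j ≤ K + 2 → x ≤ m j ∧ m j ≤ 2 * x)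
    (hb : ∀ j, 1 ≤ j → j ≤ K + 2 → b j = β / √n * c j) (hc1 : c 1 = √(1 - A * x ^ 2))
    (hc2 : ∑ j ∈ Finset.Ico 1 (K + 2), c (j + 1) ^ 2 = A * x ^ 2)
    (hc3 : A * x ^ 2 ≤ 2 * c 2 ^ 2) (hw : ∀ j, 2 ≤ j → j ≤ K + 2 → w j = 0) (hw1 : 4 * (x * w 1 ^ 2) ≤ β) :
    (skS n (K + 2) m b w).fe ≤ (skS n (K + 2) m b fun _ => 0).fe + n * w 1 ^ 2 / (2 * β) +
      (β / 2 + Real.log (2 * R) / (2 * x) + n * (A * w 1 ^ 2 * x ^ 2) / β +
        2 * n * x * (w 1 ^ 2) ^ 2 / β ^ 2 + C * (n * x ^ 5) * A ^ (-(1 / 1000) : ℝ)) := by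
  have hn' : (0 : ℝ) < n := Nat.cast_pos.2 hn
  have hx : 0 < x := lt_of_lt_of_le (by positivity) hx0
  have hxx1 : x ≤ 1 := by
    refine hx1.trans (Real.rpow_le_one_of_one_le_of_nonpos ?_ (by norm_num))
    exact_mod_cast hn
  obtain ⟨J, hJ⟩ : ∃ J, J = 1 - A * x ^ 2 := ⟨_, rfl⟩
  have hJ2 : 1 / 2 ≤ J := by rw [hJ]; linarith
  have hJ0 : 0 < J := by linarith
  have hJ1 : J ≤ 1 := by
    rw [hJ]
    have : 0 ≤ A * x ^ 2 := by positivity
    linarith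
  have hr0 : 0 < √(1 - A * x ^ 2) := Real.sqrt_pos.2 (by linarith)
  have hr2 : √(1 - A * x ^ 2) ^ 2 = J := by
    rw [Real.sq_sqrt (by linarith), hJ]
  have hlam : J * √(n / 2 : ℝ) / √(1 - A * x ^ 2) ^ 2 = √(n / 2) := by
    rw [hr2]
    field_simp
  have hβJ : 0 < β * J := by positivity
  have hβJ2 : β / 2 ≤ β * J := by nlinarith
  have hω : m 1 * w 1 ^ 2 < β * J := by
    rw [hm1]
    have : 0 ≤ x * w 1 ^ 2 := by positivity
    linarith
  have hb1 : b 1 = β / √n * √(1 - A * x ^ 2) := by rw [hb 1 le_rfl (by omega), hc1]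
  have h1 := field_spikeG (K := K + 1) (J := J) (b := b) (w := w) hn hβ hJ0 hm hb1 hω hr0
  have hPm : Pm m 1 (K + 1) := (Em.pm hm).mono (by omega) (by omega)
  have hGJ : ∀ z : Es n → ℝ, GJ n β (VG m (va b w) (F0 n) 1 (K + 1)) z =
      VP m c (Fsk n β) 1 (K + 1) fun p => z (Sum.inl p) := by
    intro z
    unfold GJ
    exact VG_jb (K + 1) 1 hPm (fun j h1 h2 => ⟨hb j (by omega) (by omega),
      hw j (by omega) (by omega)⟩) _
  simp only [hGJ] at h1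
  rw [hlam, hm1] at h1
  have hpf := rep_VP (n := n) (β := β) (d := K) (l := 1) hx (m := m) (c := c)
    (fun j h1 h2 => hm2 j (by omega) (by omega))
    (by rw [show 1 + (K + 1) = K + 2 by ring]; exact hc2) hc3
  have h2 := spike_le hT hP hn hR hx0 hx1 hA hAx hpf
  have h3 : (skS n (K + 2) m b fun _ => 0).fe =
      W x √(1 - A * x ^ 2) (VP m c (Fsk n β) 1 (K + 1)) 0 := by
    rw [fe_VP (β := β) (c := c) hm hb (fun _ _ _ => rfl), hc1, hm1]
  rw [← h3] at h2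
  obtain ⟨q, hq⟩ : ∃ q, q = x * w 1 ^ 2 / (β * J) := ⟨_, rfl⟩
  rw [← hq] at h1
  have hq0 : 0 ≤ q := by rw [hq]; positivity
  have hq1 : q ≤ 1 / 2 := by
    rw [hq, div_le_iff₀ hβJ]
    linarith
  have h4 := neg_log_le hq0 hq1
  obtain ⟨E, hE⟩ : ∃ E, E = C * (n * x ^ 5) * A ^ (-(1 / 1000) : ℝ) := ⟨_, rfl⟩
  rw [← hE] at h2 ⊢
  have h5 : x * (skS n (K + 2) m b w).fe ≤ x * (β * J / 2) + n / 2 * (q + q ^ 2) +
      (Real.log (2 * R) / 2 + x * ((skS n (K + 2) m b fun _ => 0).fe + E)) := by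
    have h6 := mul_le_mul_of_nonneg_left h4 (by positivity : (0 : ℝ) ≤ n / 2)
    linarith
  exact num_end hn' hβ hx (sq_nonneg _) hJ hJ2 hq0 hq (by positivity) h5

/-- the terms of the cost in the natural units -/
lemma cost_le (hn : 0 < n) (hβ : 0 < β) (hR : 1 < R) (hx : 0 < x) (hx1 : x ≤ 1) (hA : 1 ≤ A)
    (hC : 0 ≤ C) {v : ℝ} (hv : 0 ≤ v) (hvx : v ≤ x) :
    β / 2 + Real.log (2 * R) / (2 * x) + n * (A * v * x ^ 2) / β + 2 * n * x * v ^ 2 / β ^ 2 +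
      C * (n * x ^ 5) * A ^ (-(1 / 1000) : ℝ) ≤
      (β / 2 + Real.log (2 * R) / 2 + 1 / β + 2 / β ^ 2 + C) * (n * x ^ 5) *
        (A ^ (-(1 / 1000) : ℝ) + A * (v / x ^ 3) + 1 / (n * x ^ 6)) := by
  have hn' : (0 : ℝ) < n := Nat.cast_pos.2 hn
  have hlR : 0 ≤ Real.log (2 * R) := Real.log_nonneg (by linarith)
  have hA' : 0 < A ^ (-(1 / 1000) : ℝ) := by positivity
  obtain ⟨D, hD⟩ : ∃ D, D = β / 2 + Real.log (2 * R) / 2 + 1 / β + 2 / β ^ 2 + C := ⟨_, rfl⟩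
  rw [← hD]
  have hD1 : C ≤ D := by
    rw [hD]
    have : 0 ≤ β / 2 + Real.log (2 * R) / 2 + 1 / β + 2 / β ^ 2 := by positivity
    linarith
  have hD2 : 1 / β + 2 / β ^ 2 ≤ D := by
    rw [hD]
    have : 0 ≤ β / 2 + Real.log (2 * R) / 2 := by positivity
    linarith
  have hD3 : β / 2 + Real.log (2 * R) / 2 ≤ D := by
    rw [hD]
    have : 0 ≤ 1 / β + 2 / β ^ 2 := by positivity
    linarith
  have e1 : D * (n * x ^ 5) * (A ^ (-(1 / 1000) : ℝ) + A * (v / x ^ 3) + 1 / (n * x ^ 6)) =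
      D * (n * x ^ 5) * A ^ (-(1 / 1000) : ℝ) + D * (n * (A * v * x ^ 2)) + D * (1 / x) := by
    field_simp
  rw [e1]
  have t1 : C * (n * x ^ 5) * A ^ (-(1 / 1000) : ℝ) ≤
      D * (n * x ^ 5) * A ^ (-(1 / 1000) : ℝ) :=
    mul_le_mul_of_nonneg_right (mul_le_mul_of_nonneg_right hD1 (by positivity)) hA'.le
  have t2 : n * (A * v * x ^ 2) / β + 2 * n * x * v ^ 2 / β ^ 2 ≤ D * (n * (A * v * x ^ 2)) := by
    have s1 : x * v ^ 2 ≤ A * v * x ^ 2 := by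
      have s2 : v * (x * v) ≤ v * (x * x) :=
        mul_le_mul_of_nonneg_left (mul_le_mul_of_nonneg_left hvx hx.le) hv
      have s3 : v * x ^ 2 ≤ A * (v * x ^ 2) := le_mul_of_one_le_left (by positivity) hA
      linarith
    have s2 : 2 * n * x * v ^ 2 / β ^ 2 ≤ 2 / β ^ 2 * (n * (A * v * x ^ 2)) := by
      have : 2 * n * x * v ^ 2 / β ^ 2 = 2 / β ^ 2 * (n * (x * v ^ 2)) := by ring
      rw [this]
      exact mul_le_mul_of_nonneg_left (mul_le_mul_of_nonneg_left s1 hn'.le) (by positivity)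
    have s3 : n * (A * v * x ^ 2) / β = 1 / β * (n * (A * v * x ^ 2)) := by ring
    have s4 := mul_le_mul_of_nonneg_right hD2 (by positivity : 0 ≤ n * (A * v * x ^ 2))
    rw [s3]
    linarith
  have t3 : β / 2 + Real.log (2 * R) / (2 * x) ≤ D * (1 / x) := by
    have s1 : 1 ≤ 1 / x := by rwa [le_div_iff₀ hx, one_mul]
    have s2 : Real.log (2 * R) / (2 * x) = Real.log (2 * R) / 2 * (1 / x) := by field_simp
    have s3 : β / 2 ≤ β / 2 * (1 / x) := le_mul_of_one_le_right (by positivity) s1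
    have s4 := mul_le_mul_of_nonneg_right hD3 (by positivity : 0 ≤ 1 / x)
    rw [s2]
    linarith
  linarith

/-- **Crude removal of a field** (C-gen): the field sits on the outermost level (variance
`w 1 ^ 2`), the inner levels have exponents in `[x, 2 x]`, the bond share `A x ^ 2` and no
field. -/
theorem field_rem {D : ℝ} (hD : D = β / 2 + Real.log (2 * R) / 2 + 1 / β + 2 / β ^ 2 + C)
    (hT : TT n) (hP : TP β R C n) (hn : 0 < n) (hβ : 0 < β) (hR : 1 < R) (hC : 0 ≤ C)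
    (hx0 : (n : ℝ) ^ (-(1 / 6) : ℝ) ≤ x) (hx1 : x ≤ (n : ℝ) ^ (-(21 / 200) : ℝ)) (hA : 4 ≤ A)
    (hAx : A * x ^ 2 ≤ 1 / 2) (hm : Em (K + 2) m) (hm1 : m 1 = x)
    (hm2 : ∀ j, 2 ≤ j → j ≤ K + 2 → x ≤ m j ∧ m j ≤ 2 * x)
    (hb : ∀ j, 1 ≤ j → j ≤ K + 2 → b j = β / √n * c j) (hc1 : c 1 = √(1 - A * x ^ 2))
    (hc2 : ∑ j ∈ Finset.Ico 1 (K + 2), c (j + 1) ^ 2 = A * x ^ 2)
    (hc3 : A * x ^ 2 ≤ 2 * c 2 ^ 2) (hw : ∀ j, 2 ≤ j → j ≤ K + 2 → w j = 0) (hw1 : w 1 ^ 2 ≤ x)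
    (hxβ : 4 * x ^ 2 ≤ β) :
    (skS n (K + 2) m b w).fe ≤ (skS n (K + 2) m b fun _ => 0).fe + n * w 1 ^ 2 / (2 * β) +
      D * (n * x ^ 5) * (A ^ (-(1 / 1000) : ℝ) + A * (w 1 ^ 2 / x ^ 3) + 1 / (n * x ^ 6)) := by
  have hn' : (0 : ℝ) < n := Nat.cast_pos.2 hn
  have hx : 0 < x := lt_of_lt_of_le (by positivity) hx0
  have hxx1 : x ≤ 1 := by
    refine hx1.trans (Real.rpow_le_one_of_one_le_of_nonpos ?_ (by norm_num))
    exact_mod_cast hn
  have h1 := field_rem_aux hT hP hn hβ hR hx0 hx1 hA hAx hm hm1 hm2 hb hc1 hc2 hc3 hw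
    (by nlinarith [mul_le_mul_of_nonneg_left hw1 hx.le])
  have h2 := cost_le hn hβ hR hx hxx1 (by linarith : 1 ≤ A) hC (sq_nonneg (w 1)) hw1
  rw [← hD] at h2
  linarith

end Vale.Agent.P146.H379.FS
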