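import Vale.Agent.P146.H379.FS6
import Vale.Agent.P146.H310.TT
import Vale.Agent.P146.H97.TA4

/-!
# P146: crude removal of a small field, the theorem (helper379)
-/

open MeasureTheory ProbabilityTheory

namespace Vale.Agent.P146.H379.FS

open Vale.Agent.P157 Vale.Agent.P157.Lv Vale.Agent.P157.Lv.Sy
open Vale.Agent.P146.H425 Vale.Agent.P146.H325 Vale.Agent.P146.H332 Vale.Agent.P146.H93
  Vale.Agent.P146.H479 Vale.Agent.P146.U Vale.Agent.P146.H112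

set_option linter.unusedSectionVars false

variable {β : ℝ}

/-- the cost of the exponents which grow outwards (helper97) -/
theorem tp (hβ : 0 ≤ β) (h2 : Ex2Out β) (hL : LStar β) :
    ∃ C : ℝ, ∃ n0 : ℕ, 0 < C ∧ ∀ n : ℕ, n0 ≤ n → TP β H97.RR C n := by
  obtain ⟨C, n0, hC, h⟩ := H97.tailprof0' hβ h2 hL
  refine ⟨C, max n0 1, hC, fun n hn x A N V0 hx0 hx1 hA hV hN1 hN2 => ?_⟩
  have hn1 : 1 ≤ n := (le_max_right _ _).trans hn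
  have hn' : (0 : ℝ) < n := by exact_mod_cast hn1
  have hx : 0 < x := lt_of_lt_of_le (by positivity) hx0
  have hx2 : 0 < x ^ 2 := by positivity
  have h1 := h n ((le_max_left _ _).trans hn) x (A * x ^ 2) N
    (fun j => VV x (fun j => √(H97.RR ^ (j + 1) * (A * x ^ 2) - H97.RR ^ j * (A * x ^ 2))) V0 j)
    hx0 hx1 (mul_le_mul_of_nonneg_right hA hx2.le) hN1
    (by rw [pow_succ]; linarith) hV (fun j _ => rfl)
  have e : A * x ^ 2 / x ^ 2 = A := by field_simp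
  rw [e] at h1
  exact h1

/-- **Crude removal of a small field**, (C-gen). `D` depends on `β` only. -/
theorem cgen (hβ : 0 < β) (h2 : Ex2Out β) (hL : LStar β) :
    ∃ D : ℝ, ∃ n0 : ℕ, 0 < D ∧ ∀ n : ℕ, n0 ≤ n → ∀ (x A : ℝ) (K : ℕ) (m b w c : ℕ → ℝ),
    (n : ℝ) ^ (-(1 / 6) : ℝ) ≤ x → x ≤ (n : ℝ) ^ (-(21 / 200) : ℝ) → 4 ≤ A →
    A * x ^ 2 ≤ 1 / 2 → 4 * x ^ 2 ≤ β → Em (K + 2) m → m 1 = x →
    (∀ j, 2 ≤ j → j ≤ K + 2 → x ≤ m j ∧ m j ≤ 2 * x) →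
    (∀ j, 1 ≤ j → j ≤ K + 2 → b j = β / √n * c j) → c 1 = √(1 - A * x ^ 2) →
    ∑ j ∈ Finset.Ico 1 (K + 2), c (j + 1) ^ 2 = A * x ^ 2 → A * x ^ 2 ≤ 2 * c 2 ^ 2 →
    (∀ j, 2 ≤ j → j ≤ K + 2 → w j = 0) → w 1 ^ 2 ≤ x →
    (skS n (K + 2) m b w).fe ≤ (skS n (K + 2) m b fun _ => 0).fe + n * w 1 ^ 2 / (2 * β) +
      D * (n * x ^ 5) * (A ^ (-(1 / 1000) : ℝ) + A * (w 1 ^ 2 / x ^ 3) + 1 / (n * x ^ 6)) := by
  obtain ⟨C, n0, hC, hP⟩ := tp hβ.le h2 hL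
  have hR : 1 < H97.RR := by linarith [H97.RR_two]
  have hlR : 0 ≤ Real.log (2 * H97.RR) := Real.log_nonneg (by linarith)
  refine ⟨β / 2 + Real.log (2 * H97.RR) / 2 + 1 / β + 2 / β ^ 2 + C, max n0 1, by positivity,
    fun n hn x A K m b w c hx0 hx1 hA hAx hxβ hm hm1 hm2 hb hc1 hc2 hc3 hw hw1 => ?_⟩
  have hn1 : 1 ≤ n := (le_max_right _ _).trans hn
  exact field_rem rfl (H310.tt hn1) (hP n ((le_max_left _ _).trans hn)) hn1 hβ hR hC.le hx0 hx1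
    hA hAx hm hm1 hm2 hb hc1 hc2 hc3 hw hw1 hxβ

end Vale.Agent.P146.H379.FS
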