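import Vale.Agent.P146.H379.LamQ2
import Vale.Agent.P146.H640.LamO
import Vale.Agent.P146.H640.Lam

/-!
Plan R1, the row (LAM) for a position system: the upper bound of `T` (`lam_out_S`), from the sums
over the pairs of sites (`h1`, `h3`), the inequality on a fixed bulk (`hfix`), the size of the
variance of the row gradients (`hI`), and the lower bound of `E |A1 A2|²` (`hpo`).
-/

open MeasureTheory ProbabilityTheory

namespace Vale.Agent.P146.R1S

open Vale.Agent.P157.Lv Vale.Agent.P146.H425 Vale.Agent.P146.H325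
  Vale.Agent.P146.H712 Vale.Agent.P146.R1 Vale.Agent.P146.R1C Vale.Agent.P146.H379 Matrix
open Vale.Agent.P146.H332 hiding Nf Gf NN fr_nonneg

set_option linter.unusedSectionVars false

variable {n : ℕ} {β A δ T ρ : ℝ} {q : Par} {S : CS n (kk n β) q.x}

/-- **(LAM) for a position system.** -/
theorem lam_out_S2 (h : Fo n β A δ T ρ q S.F S.A S.DA) (hL : Law2 n ((n : ℝ) ^ 200)⁻¹ q S.F)
    {cI cQ B e1 e3 : ℝ} (hcI : 0 ≤ cI) (hcQ : 0 ≤ cQ)
    (m2 : En q S.F (fun w => fr (S.A q.s1 (P2 q w)) ^ 2) ≤ 2 * (A * NN n β ρ) ^ 2)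
    (m3 : En q S.F (fun w => fr (S.A q.s2 (P3 q w)) ^ 2) ≤ 2 * (A * NN n β ρ) ^ 2)
    (q2 : En q S.F (fun w => Q4 S q.s1 (P2 q w) ^ 2) ≤ cQ * (A * NN n β ρ) ^ 4)
    (q3 : En q S.F (fun w => Q4 S q.s2 (P3 q w) ^ 2) ≤ cQ * (A * NN n β ρ) ^ 4)
    (hI : ∀ s, 0 < s → s ≤ 1 → ∀ b b' : Fin n, b' ≠ b → ∀ z, vH S s b b' z ≤
      cI * s ^ 2 * kk n β ^ 4 * AvP s (row b ∪ row b') (fun z => Q4 S s z) z)
    (hfix : ∀ b b' : Fin n, b' ≠ b → ∀ w, (q.s2 - q.s1) / (2 * q.s1) * fr (Nd S q b b' w) ≤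
      Gb S q b b' w + 2 * (q.s2 / q.s1) * nlb S q b b' w)
    (h1 : ∑ b, ∑ b' ∈ Finset.univ.erase b, En q S.F (fun w => Gb S q b b' w) ≤
      En q S.F (Dg S q) + e1)
    (h3 : En q S.F (fun w => fr (A1 S q w * A2 S q w)) ≤ En q S.F (Dg S q) +
      (∑ b, ∑ b' ∈ Finset.univ.erase b, En q S.F (fun w => fr (Nd S q b b' w))) + e3)
    (hB : 1 ≤ B) (hBA : A ≤ B) (he3 : 0 ≤ e3)
    (he : e1 + e3 ≤ B * NN n β ρ ^ 2 * (√(1 / (n * T)) + q.x * (√(NN n β ρ) / n)))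
    (hdg : En q S.F (Dg S q) ≤ B * (NN n β ρ ^ 2 / n))
    (hpo : NN n β ρ ^ 2 / (2 * A ^ 2) ≤ En q S.F (fun w => fr (A1 S q w * A2 S q w)))
    (hNL : 8 * (3 + cQ) * cI * β ^ 8 * A ^ 3 ≤ B) :
    T ≤ 64 * B ^ 3 * (√(1 / (n * T)) + q.x * (√(NN n β ρ) / n) + (√(NN n β ρ) / n) ^ 2 +
      1 / n) := by
  have hc := S.c11
  have hx := h.ok.x0
  have hs1 := Fo_s1 h
  have hs10 : 0 < q.s1 := by linarith
  have hs2 : 0 < q.s2 := lt_of_lt_of_le hs10 h.ok.h12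
  have hs11 : q.s1 ≤ 1 := h.ok.h12.trans h.ok.h2
  have hn := h.n0
  have hA := h.A1
  have hN := h.N0
  have hT := h.Tp
  set τ := (q.s2 - q.s1) / (2 * q.s1) with hτd
  have hτ : T / 16 ≤ τ := by
    rw [hτd, le_div_iff₀ (by positivity)]
    nlinarith [h.hs12, h.T1]
  have hτ1 : τ ≤ 1 := by
    rw [hτd, div_le_one (by positivity)]
    linarith [h.ok.h2]
  have hτ0 : 0 ≤ τ := by linarith
  have hr : 2 * (q.s2 / q.s1) ≤ 4 := by
    have : q.s2 / q.s1 ≤ 2 := by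
      rw [div_le_iff₀ hs10]
      linarith [h.ok.h2]
    linarith
  have hAN : 1 ≤ A * NN n β ρ := by nlinarith [NN_one h, h.A1]
  have hnl := nl_sum2 h.n2 h.ok hL hs10 hAN m2 m3 q2 q3 hcQ hcI hI
  have hn0 : ∀ b b' w, 0 ≤ nlb S q b b' w := by
    intro b b' w
    unfold nlb
    have a1 := ee_nonneg (S := S) (s := q.s1) b b' (P2 q w)
    have a2 := ee_nonneg (S := S) (s := q.s2) b b' (P3 q w)
    have a3 := vH_nonneg (S := S) (s := q.s1) b b' (P2 q w)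
    have a4 := vH_nonneg (S := S) (s := q.s2) b b' (P3 q w)
    positivity
  -- the sum over the pairs of the fixed bulk inequality
  have key : τ * (∑ b, ∑ b' ∈ Finset.univ.erase b, En q S.F (fun w => fr (Nd S q b b' w))) ≤
      (∑ b, ∑ b' ∈ Finset.univ.erase b, En q S.F (fun w => Gb S q b b' w)) +
      4 * (∑ b, ∑ b' ∈ Finset.univ.erase b, En q S.F (nlb S q b b')) := by
    rw [Finset.mul_sum, Finset.mul_sum, ← Finset.sum_add_distrib]
    refine Finset.sum_le_sum fun b _ => ?_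
    rw [Finset.mul_sum, Finset.mul_sum, ← Finset.sum_add_distrib]
    refine Finset.sum_le_sum fun b' hb => ?_
    have hb' := Finset.ne_of_mem_erase hb
    have eN := eg_nlb (S := S) (q := q) hs10 hs2 b b'
    rw [← En_const_mul, ← En_const_mul, ← En_add hc hx (eg_Gb b b') (eN.const_mul 4)]
    refine En_mono hc hx ((eg_frNd b b').const_mul τ) ((eg_Gb b b').add (eN.const_mul 4))
      fun w => ?_
    refine (hfix b b' hb' w).trans ?_
    have := mul_le_mul_of_nonneg_right hr (hn0 b b' w)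
    linarith
  have hNL' : 4 * (∑ b, ∑ b' ∈ Finset.univ.erase b, En q S.F (nlb S q b b')) ≤
      B * NN n β ρ ^ 2 * (√(NN n β ρ) / n) ^ 2 := by
    have a1 : ∑ b, ∑ b' ∈ Finset.univ.erase b, En q S.F (nlb S q b b') ≤
        2 * (3 + cQ) * cI * β ^ 8 * A ^ 3 * (NN n β ρ ^ 3 / (n : ℝ) ^ 2) := by
      refine hnl.trans (le_of_eq ?_)
      ring
    have a2 : (√(NN n β ρ) / n) ^ 2 = NN n β ρ / (n : ℝ) ^ 2 := by
      rw [div_pow, Real.sq_sqrt hN.le]
    rw [a2]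
    have a3 : (0 : ℝ) ≤ NN n β ρ ^ 3 / (n : ℝ) ^ 2 := by positivity
    have a4 := mul_le_mul_of_nonneg_right hNL a3
    calc 4 * (∑ b, ∑ b' ∈ Finset.univ.erase b, En q S.F (nlb S q b b'))
        ≤ 4 * (2 * (3 + cQ) * cI * β ^ 8 * A ^ 3 * (NN n β ρ ^ 3 / (n : ℝ) ^ 2)) := by linarith
      _ = 8 * (3 + cQ) * cI * β ^ 8 * A ^ 3 * (NN n β ρ ^ 3 / (n : ℝ) ^ 2) := by ring
      _ ≤ B * (NN n β ρ ^ 3 / (n : ℝ) ^ 2) := a4
      _ = _ := by ring
  have hsum : τ * En q S.F (fun w => fr (A1 S q w * A2 S q w)) ≤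
      (1 + τ) * En q S.F (Dg S q) + (e1 + e3) +
      4 * (∑ b, ∑ b' ∈ Finset.univ.erase b, En q S.F (nlb S q b b')) := by
    have a1 := mul_le_mul_of_nonneg_left h3 hτ0
    have a2 : τ * e3 ≤ e3 := mul_le_of_le_one_left he3 hτ1
    linarith
  refine H640.Lam.lam_num (Z := 1) (P := En q S.F (fun w => fr (A1 S q w * A2 S q w)))
    (dg := En q S.F (Dg S q)) (E := e1 + e3)
    (NL := 4 * (∑ b, ∑ b' ∈ Finset.univ.erase b, En q S.F (nlb S q b b')))
    (N := NN n β ρ) (n := n) (T := T) (x := q.x) (r := √(NN n β ρ) / n) (B := B) (τ := τ)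
    one_pos hN (by linarith) hx.le (by positivity) hB hT hτ hτ1 hsum ?_ (by linarith)
    (by linarith) (by linarith)
  rw [mul_one]
  refine le_trans ?_ hpo
  exact div_le_div_of_nonneg_left (by positivity) (by positivity)
    (mul_le_mul_of_nonneg_left (pow_le_pow_left₀ (by linarith) hBA 2) (by norm_num))

end Vale.Agent.P146.R1S
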