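import Vale.Agent.P146.H985.OddP

/-!
# P146, two-sided first chaos: averages over sets of Gaussian coordinates (helper379)

`PA A F` = average of `F` over the coordinates of `A`. These are commuting projections. The swap
lemma: if `F0`, `F1` have the same average over `A ∪ B` then `∫ F0 F1` is `∫ (PA A F0) ^ 2` up to
the cross influences `∫ (F0 - PA B F0) ^ 2`, `∫ (F1 - PA A F1) ^ 2`.
-/

open MeasureTheory ProbabilityTheory

namespace Vale.Agent.P146.H379.Row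

open Vale.Agent.P157 Vale.Agent.P157.Lv Vale.Agent.P157.Lv.Sy
open Vale.Agent.P146.H425 Vale.Agent.P146.H946 Vale.Agent.P146.H985

set_option linter.unusedSectionVars false

variable {ι : Type} [Fintype ι] [DecidableEq ι]

/-- the average over the coordinates of `A` -/
noncomputable def PA (A : Finset ι) (F : (ι → ℝ) → ℝ) : (ι → ℝ) → ℝ := J (lvA A) 0 F

variable {A B : Finset ι} {F G F0 F1 : (ι → ℝ) → ℝ}

lemma PA.eg (hF : EG F) (A : Finset ι) : EG (PA A F) := hF.J _ _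

lemma PA.dep (A : Finset ι) (F : (ι → ℝ) → ℝ) : Dep (lvA A) 0 (PA A F) := dep_J _ _ _

/-- a function which does not depend on the coordinates of `A` -/
lemma PA.fix {φ : (ι → ℝ) → ℝ} (h : Dep (lvA A) 0 φ) (z : ι → ℝ) : PA A φ z = φ z := h.J_eq z

lemma PA.mul {φ : (ι → ℝ) → ℝ} (h : Dep (lvA A) 0 φ) (F : (ι → ℝ) → ℝ) (z : ι → ℝ) :
    PA A (fun z => φ z * F z) z = φ z * PA A F z := h.J_mul F z

lemma PA.sub (hF : EG F) (hG : EG G) (z : ι → ℝ) :
    PA A (fun z => F z - G z) z = PA A F z - PA A G z := J_sub hF hG z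

lemma PA.add (hF : EG F) (hG : EG G) (z : ι → ℝ) :
    PA A (fun z => F z + G z) z = PA A F z + PA A G z := J_add hF hG z

lemma PA.integral (hF : EG F) (A : Finset ι) : ∫ z, PA A F z ∂(gI ι) = ∫ z, F z ∂(gI ι) :=
  integral_J hF

lemma mix_mix_lvA (A B : Finset ι) (z w w' : ι → ℝ) :
    mix (lvA B) 0 (mix (lvA A) 0 z w) w' = mix (lvA (A ∪ B)) 0 z (mix (lvA B) 0 w w') := by
  funext e
  unfold mix lvA
  by_cases hB : e ∈ B
  · simp [hB]
  · by_cases hA : e ∈ A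
    · simp [hA, hB]
    · simp [hA, hB]

/-- **The averages commute.** -/
theorem PA.comp (hF : EG F) (A B : Finset ι) (z : ι → ℝ) : PA A (PA B F) z = PA (A ∪ B) F z := by
  have h1 := integral_mix (eg_mix_right (A := A ∪ B) hF z) (lvA B) 0
  unfold PA J
  simp only [mix_mix_lvA]
  exact h1

/-- `PA` is self-adjoint: a factor which does not depend on `A`. -/
lemma PA.ip {φ : (ι → ℝ) → ℝ} (h : Dep (lvA A) 0 φ) (hφ : EG φ) (hF : EG F) :
    ∫ z, φ z * PA A F z ∂(gI ι) = ∫ z, φ z * F z ∂(gI ι) := by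
  rw [← PA.integral (hφ.mul hF) A]
  congr 1
  funext z
  rw [PA.mul h]

lemma PA.sq_le (hF : EG F) (A : Finset ι) :
    ∫ z, PA A F z ^ 2 ∂(gI ι) ≤ ∫ z, F z ^ 2 ∂(gI ι) := by
  rw [← PA.integral (hF.pow 2) A]
  exact integral_mono ((PA.eg hF A).pow 2).integrable (PA.eg (hF.pow 2) A).integrable
    fun z => cc_sq_J_le hF z

/-- Pythagoras -/
lemma PA.pyth (hF : EG F) (A : Finset ι) :
    ∫ z, (F z - PA A F z) ^ 2 ∂(gI ι) = ∫ z, F z ^ 2 ∂(gI ι) - ∫ z, PA A F z ^ 2 ∂(gI ι) := by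
  have hP := PA.eg hF A
  have h1 := PA.ip (A := A) (PA.dep A F) hP hF
  have e : ∀ z, (F z - PA A F z) ^ 2 = F z ^ 2 - 2 * (PA A F z * F z) + PA A F z ^ 2 := by
    intro z; ring
  simp only [e]
  rw [integral_add, integral_sub, integral_const_mul, ← h1]
  · have e2 : ∀ z, PA A F z * PA A F z = PA A F z ^ 2 := fun z => by ring
    simp only [e2]
    ring
  · exact (hF.pow 2).integrable
  · exact ((hP.mul hF).const_mul 2).integrable
  · exact ((hF.pow 2).sub ((hP.mul hF).const_mul 2)).integrable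
  · exact (hP.pow 2).integrable

lemma dep_mono {A B : Finset ι} (h : A ⊆ B) {φ : (ι → ℝ) → ℝ} (hφ : Dep (lvA B) 0 φ) :
    Dep (lvA A) 0 φ := by
  intro z w
  refine (Dep.congr hφ fun e he => ?_)
  unfold lvA at he
  have hB : e ∉ B := by
    intro hB
    simp [hB] at he
  have hA : e ∉ A := fun hA => hB (h hA)
  simp [mix, lvA, hA]

/-- Young's inequality under the integral -/
lemma young {f g : (ι → ℝ) → ℝ} (hf : EG f) (hg : EG g) {t : ℝ} (ht : 0 < t) :
    |∫ z, f z * g z ∂(gI ι)| ≤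
      1 / (2 * t) * ∫ z, f z ^ 2 ∂(gI ι) + t / 2 * ∫ z, g z ^ 2 ∂(gI ι) := by
  have hi : Integrable (fun z => 1 / (2 * t) * f z ^ 2 + t / 2 * g z ^ 2) (gI ι) :=
    (((hf.pow 2).const_mul _).add ((hg.pow 2).const_mul _)).integrable
  have key : ∀ z, |f z * g z| ≤ 1 / (2 * t) * f z ^ 2 + t / 2 * g z ^ 2 := by
    intro z
    have h1 : 0 ≤ (|f z| - t * |g z|) ^ 2 := sq_nonneg _
    have h2 : (|f z| - t * |g z|) ^ 2 = f z ^ 2 - 2 * t * (|f z| * |g z|) + t ^ 2 * g z ^ 2 := by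
      rw [← sq_abs (f z), ← sq_abs (g z)]; ring
    rw [h2] at h1
    rw [abs_mul]
    have h3 : 1 / (2 * t) * f z ^ 2 + t / 2 * g z ^ 2 - |f z| * |g z| =
        1 / (2 * t) * (f z ^ 2 - 2 * t * (|f z| * |g z|) + t ^ 2 * g z ^ 2) := by
      field_simp
      ring
    have h4 : 0 ≤ 1 / (2 * t) * (f z ^ 2 - 2 * t * (|f z| * |g z|) + t ^ 2 * g z ^ 2) := by
      positivity
    linarith
  calc |∫ z, f z * g z ∂(gI ι)| ≤ ∫ z, |f z * g z| ∂(gI ι) := abs_integral_le_integral_abs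
    _ ≤ ∫ z, (1 / (2 * t) * f z ^ 2 + t / 2 * g z ^ 2) ∂(gI ι) :=
        integral_mono (hf.mul hg).integrable.abs hi key
    _ = _ := by
        rw [integral_add ((hf.pow 2).const_mul _).integrable ((hg.pow 2).const_mul _).integrable,
          integral_const_mul, integral_const_mul]

/-- **The swap lemma.** -/
theorem swap_main (h0 : EG F0) (h1 : EG F1) (hU : ∀ z, PA (A ∪ B) F0 z = PA (A ∪ B) F1 z)
    {t : ℝ} (ht : 0 < t) :
    |∫ z, F0 z * F1 z ∂(gI ι) - ∫ z, PA A F0 z ^ 2 ∂(gI ι)| ≤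
      (3 / 2 + 1 / (2 * t)) * ∫ z, (F0 z - PA B F0 z) ^ 2 ∂(gI ι) +
      (1 / 2 + 1 / (2 * t)) * ∫ z, (F1 z - PA A F1 z) ^ 2 ∂(gI ι) +
      t / 2 * ∫ z, (F0 z - PA A F0 z) ^ 2 ∂(gI ι) +
      t / 2 * ∫ z, (F1 z - PA B F1 z) ^ 2 ∂(gI ι) := by
  -- the pieces
  set m : (ι → ℝ) → ℝ := PA (A ∪ B) F0 with hm
  have em : EG m := PA.eg h0 _
  have hmA : Dep (lvA A) 0 m := dep_mono Finset.subset_union_left (PA.dep (A ∪ B) F0)
  have hmB : Dep (lvA B) 0 m := dep_mono Finset.subset_union_right (PA.dep (A ∪ B) F0)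
  have eP0 : EG (PA B F0) := PA.eg h0 B
  have eP1 : EG (PA A F1) := PA.eg h1 A
  have eQ0 : EG (PA A F0) := PA.eg h0 A
  have eQ1 : EG (PA B F1) := PA.eg h1 B
  set a0 : (ι → ℝ) → ℝ := fun z => F0 z - PA B F0 z with ha0
  set b0 : (ι → ℝ) → ℝ := fun z => PA B F0 z - m z with hb0
  set a1 : (ι → ℝ) → ℝ := fun z => F1 z - PA A F1 z with ha1
  set b1 : (ι → ℝ) → ℝ := fun z => PA A F1 z - m z with hb1
  have ea0 : EG a0 := h0.sub eP0
  have eb0 : EG b0 := eP0.sub em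
  have ea1 : EG a1 := h1.sub eP1
  have eb1 : EG b1 := eP1.sub em
  -- averages of the pieces
  have cBA : ∀ z, PA B (PA A F1) z = m z := fun z => by
    rw [PA.comp h1, Finset.union_comm, ← hU]
  have hb0B : Dep (lvA B) 0 b0 := fun z w => by
    have h2 := PA.dep B F0 z w
    have h3 := hmB z w
    simp only [hb0, h2, h3]
  -- `b0 ⊥ b1`
  have o1 : ∫ z, b0 z * b1 z ∂(gI ι) = 0 := by
    rw [← PA.ip hb0B eb0 eb1]
    have h2 : ∀ z, PA B b1 z = 0 := by
      intro z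
      have h3 := PA.sub (A := B) eP1 em z
      rw [PA.fix hmB, cBA] at h3
      rw [← sub_self (m z)]
      exact h3
    simp only [h2, mul_zero, integral_zero]
  -- `m ⊥ a0, b0, a1, b1`
  have o2 : ∫ z, m z * a0 z ∂(gI ι) = 0 := by
    have h2 := PA.ip hmB em h0
    have e : ∀ z, m z * a0 z = m z * F0 z - m z * PA B F0 z := fun z => by
      simp only [ha0]; ring
    simp only [e]
    rw [integral_sub (em.mul h0).integrable (em.mul eP0).integrable, h2, sub_self]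
  have o3 : ∫ z, m z * a1 z ∂(gI ι) = 0 := by
    have h2 := PA.ip hmA em h1
    have e : ∀ z, m z * a1 z = m z * F1 z - m z * PA A F1 z := fun z => by
      simp only [ha1]; ring
    simp only [e]
    rw [integral_sub (em.mul h1).integrable (em.mul eP1).integrable, h2, sub_self]
  have o4 : ∫ z, m z * b0 z ∂(gI ι) = 0 := by
    have hmU : Dep (lvA (A ∪ B)) 0 m := PA.dep (A ∪ B) F0
    rw [← PA.ip hmU em eb0]
    have h2 : ∀ z, PA (A ∪ B) b0 z = 0 := by
      intro z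
      have h3 := PA.sub (A := A ∪ B) eP0 em z
      rw [PA.fix hmU, PA.comp h0, Finset.union_assoc, Finset.union_self] at h3
      rw [← sub_self (m z)]
      exact h3
    simp only [h2, mul_zero, integral_zero]
  have o5 : ∫ z, m z * b1 z ∂(gI ι) = 0 := by
    have hmU : Dep (lvA (A ∪ B)) 0 m := PA.dep (A ∪ B) F0
    rw [← PA.ip hmU em eb1]
    have h2 : ∀ z, PA (A ∪ B) b1 z = 0 := by
      intro z
      have h3 := PA.sub (A := A ∪ B) eP1 em z
      rw [PA.fix hmU, PA.comp h1, Finset.union_comm A B, Finset.union_assoc, Finset.union_self,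
        Finset.union_comm B A, ← hU] at h3
      rw [← sub_self (m z)]
      exact h3
    simp only [h2, mul_zero, integral_zero]
  -- the product
  have hprod : ∫ z, F0 z * F1 z ∂(gI ι) = ∫ z, m z ^ 2 ∂(gI ι) + ∫ z, a0 z * a1 z ∂(gI ι) +
      ∫ z, a0 z * b1 z ∂(gI ι) + ∫ z, b0 z * a1 z ∂(gI ι) := by
    have e : ∀ z, F0 z * F1 z = (m z ^ 2 + a0 z * a1 z + a0 z * b1 z + b0 z * a1 z) +
        (m z * a0 z + m z * a1 z + m z * b0 z + m z * b1 z + b0 z * b1 z) := by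
      intro z
      simp only [ha0, ha1, hb0, hb1]
      ring
    simp only [e]
    have i1 : EG fun z => m z ^ 2 := em.pow 2
    have i2 : EG fun z => a0 z * a1 z := ea0.mul ea1
    have i3 : EG fun z => a0 z * b1 z := ea0.mul eb1
    have i4 : EG fun z => b0 z * a1 z := eb0.mul ea1
    have j1 : EG fun z => m z * a0 z := em.mul ea0
    have j2 : EG fun z => m z * a1 z := em.mul ea1
    have j3 : EG fun z => m z * b0 z := em.mul eb0
    have j4 : EG fun z => m z * b1 z := em.mul eb1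
    have j5 : EG fun z => b0 z * b1 z := eb0.mul eb1
    rw [integral_add (((i1.add i2).add i3).add i4).integrable
      ((((j1.add j2).add j3).add j4).add j5).integrable,
      integral_add ((i1.add i2).add i3).integrable i4.integrable,
      integral_add (i1.add i2).integrable i3.integrable,
      integral_add i1.integrable i2.integrable,
      integral_add (((j1.add j2).add j3).add j4).integrable j5.integrable,
      integral_add ((j1.add j2).add j3).integrable j4.integrable,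
      integral_add (j1.add j2).integrable j3.integrable,
      integral_add j1.integrable j2.integrable, o1, o2, o3, o4, o5]
    ring
  -- the norm of `PA A F0`
  have hnorm : ∫ z, PA A F0 z ^ 2 ∂(gI ι) = ∫ z, m z ^ 2 ∂(gI ι) +
      ∫ z, (PA A F0 z - m z) ^ 2 ∂(gI ι) := by
    have h2 := PA.pyth eQ0 B
    have h3 : ∀ z, PA B (PA A F0) z = m z := fun z => by
      rw [PA.comp h0, Finset.union_comm]
    simp only [h3] at h2
    linarith
  have hb0n : ∫ z, b0 z ^ 2 ∂(gI ι) ≤ ∫ z, (F0 z - PA A F0 z) ^ 2 ∂(gI ι) := by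
    have h2 := PA.sq_le (h0.sub eQ0) B
    refine le_trans (le_of_eq ?_) h2
    congr 1
    funext z
    rw [PA.sub h0 eQ0, PA.comp h0, Finset.union_comm]
  have hb1n : ∫ z, b1 z ^ 2 ∂(gI ι) ≤ ∫ z, (F1 z - PA B F1 z) ^ 2 ∂(gI ι) := by
    have h2 := PA.sq_le (h1.sub eQ1) A
    refine le_trans (le_of_eq ?_) h2
    congr 1
    funext z
    rw [PA.sub h1 eQ1, PA.comp h1, ← hU]
  have hc0 : ∫ z, (PA A F0 z - m z) ^ 2 ∂(gI ι) ≤ ∫ z, a0 z ^ 2 ∂(gI ι) := by
    have h2 := PA.sq_le ea0 A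
    refine le_trans (le_of_eq ?_) h2
    congr 1
    funext z
    rw [ha0, PA.sub h0 eP0, PA.comp h0]
  have y1 := young ea0 ea1 one_pos
  have y2 := young ea0 eb1 ht
  have y3 : |∫ z, b0 z * a1 z ∂(gI ι)| ≤
      1 / (2 * t) * ∫ z, a1 z ^ 2 ∂(gI ι) + t / 2 * ∫ z, b0 z ^ 2 ∂(gI ι) := by
    have := young ea1 eb0 ht
    simpa only [mul_comm] using this
  have n0 : 0 ≤ ∫ z, (PA A F0 z - m z) ^ 2 ∂(gI ι) := integral_nonneg fun z => sq_nonneg _
  rw [hprod, hnorm]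
  have e : ∫ z, m z ^ 2 ∂(gI ι) + ∫ z, a0 z * a1 z ∂(gI ι) + ∫ z, a0 z * b1 z ∂(gI ι) +
      ∫ z, b0 z * a1 z ∂(gI ι) - (∫ z, m z ^ 2 ∂(gI ι) + ∫ z, (PA A F0 z - m z) ^ 2 ∂(gI ι)) =
      ∫ z, a0 z * a1 z ∂(gI ι) + ∫ z, a0 z * b1 z ∂(gI ι) + ∫ z, b0 z * a1 z ∂(gI ι) -
        ∫ z, (PA A F0 z - m z) ^ 2 ∂(gI ι) := by ring
  rw [e]
  have t1 := mul_le_mul_of_nonneg_left hb1n (by positivity : 0 ≤ t / 2)
  have t2 := mul_le_mul_of_nonneg_left hb0n (by positivity : 0 ≤ t / 2)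
  obtain ⟨p1, p2⟩ := abs_le.1 y1
  obtain ⟨q1, q2⟩ := abs_le.1 y2
  obtain ⟨r1, r2⟩ := abs_le.1 y3
  rw [abs_le]
  constructor <;> linarith

/-- **Partial Poincaré inequality.** -/
theorem PA.poincare (A : Finset ι) {F' : ι → (ι → ℝ) → ℝ} (hF : EG F)
    (hd : ∀ e ∈ A, PD e F (F' e)) (hF' : ∀ e ∈ A, EG (F' e)) :
    ∫ z, (F z - PA A F z) ^ 2 ∂(gI ι) ≤ ∑ e ∈ A, ∫ z, F' e z ^ 2 ∂(gI ι) := by
  have hP := PA.eg hF A
  refine zero_poincare A (F := fun z => F z - PA A F z) (F' := F') (hF.sub hP) ?_ hF' ?_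
  · intro e he
    have h1 : PD e (PA A F) (fun _ => 0) := (PA.dep A F).pd (by simp [lvA, he])
    exact ((hd e he).sub h1).congr fun z => by ring
  · intro z
    have h1 := PA.sub (A := A) hF hP z
    rw [PA.fix (PA.dep A F), sub_self] at h1
    exact h1

/-- subtraction of a small function -/
theorem sub_main {v w : (ι → ℝ) → ℝ} (hv : EG v) (hw : EG w) {t : ℝ} (ht : 0 < t) :
    |∫ z, PA A (fun z => v z - w z) z ^ 2 ∂(gI ι) -
      (∫ z, PA A v z ^ 2 ∂(gI ι) - 2 * ∫ z, v z * w z ∂(gI ι))| ≤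
      t * ∫ z, (v z - PA A v z) ^ 2 ∂(gI ι) + (1 + 1 / t) * ∫ z, w z ^ 2 ∂(gI ι) := by
  have ev := PA.eg hv A
  have ew := PA.eg hw A
  have h1 : ∀ z, PA A (fun z => v z - w z) z ^ 2 =
      PA A v z ^ 2 - 2 * (PA A v z * PA A w z) + PA A w z ^ 2 := fun z => by
    rw [PA.sub hv hw]; ring
  have h2 : ∫ z, PA A v z * PA A w z ∂(gI ι) = ∫ z, PA A v z * w z ∂(gI ι) :=
    PA.ip (PA.dep A v) ev hw
  have h3 : ∫ z, v z * w z ∂(gI ι) = ∫ z, PA A v z * w z ∂(gI ι) +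
      ∫ z, (v z - PA A v z) * w z ∂(gI ι) := by
    rw [← integral_add (ev.mul hw).integrable ((hv.sub ev).mul hw).integrable]
    congr 1
    funext z
    ring
  simp only [h1]
  rw [integral_add ((ev.pow 2).sub ((ev.mul ew).const_mul 2)).integrable (ew.pow 2).integrable,
    integral_sub (ev.pow 2).integrable ((ev.mul ew).const_mul 2).integrable, integral_const_mul, h2,
    h3]
  have y := young (hv.sub ev) hw ht
  have p := PA.sq_le hw A
  have p0 : 0 ≤ ∫ z, PA A w z ^ 2 ∂(gI ι) := integral_nonneg fun z => sq_nonneg _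
  have p1 : 0 ≤ ∫ z, w z ^ 2 ∂(gI ι) := integral_nonneg fun z => sq_nonneg _
  obtain ⟨q1, q2⟩ := abs_le.1 y
  have e : 2 * (1 / (2 * t) * ∫ z, (v z - PA A v z) ^ 2 ∂(gI ι) + t / 2 * ∫ z, w z ^ 2 ∂(gI ι)) =
      1 / t * ∫ z, (v z - PA A v z) ^ 2 ∂(gI ι) + t * ∫ z, w z ^ 2 ∂(gI ι) := by
    field_simp
  have y' := young (hv.sub ev) hw (t := 1 / t) (by positivity)
  obtain ⟨q3, q4⟩ := abs_le.1 y'
  have e' : 2 * (1 / (2 * (1 / t)) * ∫ z, (v z - PA A v z) ^ 2 ∂(gI ι) +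
      1 / t / 2 * ∫ z, w z ^ 2 ∂(gI ι)) =
      t * ∫ z, (v z - PA A v z) ^ 2 ∂(gI ι) + 1 / t * ∫ z, w z ^ 2 ∂(gI ι) := by
    field_simp
  rw [abs_le]
  constructor <;> linarith

end Vale.Agent.P146.H379.Row
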