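import Vale.Agent.P146.H379.RowA
import Vale.Agent.P146.H985.SymSK

/-!
# P146, two-sided first chaos: the calculus of a row (helper379)

`S : Sy ι (Fin n → ℤˣ)`; `dd l i = T_l x_i`, `Mm l i = 1 - ∑_(j > l) p_j x_i T_j x_i`,
`Vf l i f = T_l (f Mm_i)`. For the SK system the derivative of `e^(VL/2) T_l x_i` in the coordinate
`e` of level at most `l` is `α_e e^(VL/2) (Vf l i (x_i st_e) - dd l i * Qe e)`.
-/

open MeasureTheory ProbabilityTheory

namespace Vale.Agent.P146.H379.Row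

open Vale.Agent.P157 Vale.Agent.P157.Lv Vale.Agent.P157.Lv.Sy
open Vale.Agent.P146.H425 Vale.Agent.P146.H946 Vale.Agent.P146.H985
open Vale.Agent.P146.H93 Vale.Agent.P146.H325

set_option linter.unusedSectionVars false

/-! ### General systems -/

section gen

variable {ι X : Type} [Fintype ι] [DecidableEq ι] [Fintype X] [Nonempty X] {S : Sy ι X}
  {D : ι → (ι → ℝ) → X → ℝ}

lemma T_mulT (hS : S.Reg) {l j : ℕ} (hlj : l ≤ j) (hj : j ≤ S.K) {f g : (ι → ℝ) → X → ℝ}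
    (hf : Nh f) (hg : Nh g) (z : ι → ℝ) :
    S.T l (fun z x => f z x * S.T j g z) z = S.T l (fun z _ => S.T j f z * S.T j g z) z := by
  have hN : Nh fun z x => f z x * S.T j g z := fun x => (hf x).mul (hS.eg_T hj hg)
  rw [← hS.T_T hlj hj hN]
  congr 1
  funext z _
  have h1 := T_mul_left S (dep_T S j g) f z
  have e : (fun z x => f z x * S.T j g z) = fun z x => S.T j g z * f z x := by
    funext z x; ring
  rw [e, h1, mul_comm]

/-- the averages are self-adjoint -/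
lemma T_swap (hS : S.Reg) {l j : ℕ} (hlj : l ≤ j) (hj : j ≤ S.K) {f g : (ι → ℝ) → X → ℝ}
    (hf : Nh f) (hg : Nh g) (z : ι → ℝ) :
    S.T l (fun z x => f z x * S.T j g z) z = S.T l (fun z x => g z x * S.T j f z) z := by
  rw [T_mulT hS hlj hj hf hg, T_mulT hS hlj hj hg hf]
  congr 1
  funext z _
  ring

lemma eg_expV (hS : S.Reg) {l : ℕ} (hl : l ≤ S.K) : EG fun z => Real.exp (VL S l z / 2) := by
  have h1 := (VL_lip hS hl).exp_eg (1 / 2)
  have e2 : (fun z => Real.exp (VL S l z / 2)) = fun z => Real.exp (1 / 2 * VL S l z) := by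
    funext z; ring_nf
  rw [e2]; exact h1

lemma expV_sq (S : Sy ι X) (l : ℕ) (z : ι → ℝ) :
    Real.exp (VL S l z / 2) * Real.exp (VL S l z / 2) = Real.exp (VL S l z) := by
  rw [← Real.exp_add]; congr 1; ring

lemma dep_expV (hS : S.Reg) {l : ℕ} (hl : l ≤ S.K) :
    Dep S.lev l fun z => Real.exp (VL S l z / 2) := fun z w => by
  simp only [VL_dep hS hl z w]

/-- the half density times a function -/
lemma pd_expV (hS : S.RegD D) {l : ℕ} (hl : l ≤ S.K) {e : ι} (he : S.lev e ≤ l)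
    {f f' : (ι → ℝ) → ℝ} (hf : PD e f f') :
    PD e (fun z => Real.exp (VL S l z / 2) * f z)
      (fun z => Real.exp (VL S l z / 2) * (f' z + 1 / 2 * VLD S D l e z * f z)) := by
  have h2 : PD e (fun z => Real.exp (VL S l z / 2))
      (fun z => Real.exp (VL S l z / 2) * (1 / 2 * VLD S D l e z)) := by
    intro y t
    have h3 := ((VL_pd hS hl he y t).const_mul (1 / 2 : ℝ)).exp
    convert h3 using 1
    · funext s
      ring_nf
    · ring_nf
  refine (h2.mul hf).congr fun z => ?_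
  ring

/-- products under the half densities -/
lemma int_expV (hS : S.Reg) {l : ℕ} (hl : l ≤ S.K) {f g : (ι → ℝ) → ℝ} (hf : EG f) (hg : EG g)
    (df : Dep S.lev l f) (dg : Dep S.lev l g) :
    ∫ z, (Real.exp (VL S l z / 2) * f z) * (Real.exp (VL S l z / 2) * g z) ∂(gI ι) =
      S.Ex (fun z _ => f z * g z) := by
  rw [Ex_eq_VL hS hl (hf.mul hg) (lc_dep_mul df dg)]
  congr 1
  funext z
  rw [← expV_sq]
  ring

lemma int_expV_sq (hS : S.Reg) {l : ℕ} (hl : l ≤ S.K) {f : (ι → ℝ) → ℝ} (hf : EG f)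
    (df : Dep S.lev l f) :
    ∫ z, (Real.exp (VL S l z / 2) * f z) ^ 2 ∂(gI ι) = S.Ex (fun z _ => f z ^ 2) := by
  have h1 := int_expV hS hl hf hf df df
  simp only [← sq] at h1
  exact h1

lemma Ex_nn (hS : S.Reg) {f : (ι → ℝ) → X → ℝ} (hf : Nh f) (h : ∀ z x, 0 ≤ f z x) :
    0 ≤ S.Ex f := by
  have h1 := hS.Ex_mono (f := fun _ _ => 0) (fun _ => EG.const _) hf h
  rwa [hS.Ex_const] at h1

lemma Ex_le_const (hS : S.Reg) {f : (ι → ℝ) → X → ℝ} (hf : Nh f) {C : ℝ}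
    (h : ∀ z x, f z x ≤ C) : S.Ex f ≤ C := by
  have h1 := hS.Ex_mono hf (g := fun _ _ => C) (fun _ => EG.const _) h
  rwa [hS.Ex_const] at h1

lemma abs_Ex_le_const (hS : S.Reg) {f : (ι → ℝ) → X → ℝ} (hf : Nh f) {C : ℝ}
    (h : ∀ z x, |f z x| ≤ C) : |S.Ex f| ≤ C :=
  (hS.abs_Ex_le hf).trans (Ex_le_const hS (Nh.abs hf) h)

/-- Young's inequality for `Ex` -/
lemma Ex_young (hS : S.Reg) {f g : (ι → ℝ) → X → ℝ} (hf : Nh f) (hg : Nh g) {t : ℝ}
    (ht : 0 < t) :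
    |S.Ex (fun z x => f z x * g z x)| ≤
      t / 2 * S.Ex (fun z x => f z x ^ 2) + 1 / (2 * t) * S.Ex (fun z x => g z x ^ 2) := by
  refine (hS.abs_Ex_le (Nh.mul hf hg)).trans ?_
  rw [← Ex_const_mul, ← Ex_const_mul,
    ← hS.Ex_add (Nh.const_mul _ (Nh.pow hf 2)) (Nh.const_mul _ (Nh.pow hg 2))]
  refine hS.Ex_mono (Nh.abs (Nh.mul hf hg))
    (Nh.add (Nh.const_mul _ (Nh.pow hf 2)) (Nh.const_mul _ (Nh.pow hg 2))) fun z x => ?_
  have h1 : 0 ≤ (t * |f z x| - |g z x|) ^ 2 := sq_nonneg _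
  have h2 : (t * |f z x| - |g z x|) ^ 2 =
      t ^ 2 * f z x ^ 2 - 2 * t * (|f z x| * |g z x|) + g z x ^ 2 := by
    rw [← sq_abs (f z x), ← sq_abs (g z x)]; ring
  rw [h2] at h1
  rw [abs_mul]
  have h3 : t / 2 * f z x ^ 2 + 1 / (2 * t) * g z x ^ 2 - |f z x| * |g z x| =
      1 / (2 * t) * (t ^ 2 * f z x ^ 2 - 2 * t * (|f z x| * |g z x|) + g z x ^ 2) := by
    field_simp
    ring
  have h4 : 0 ≤ 1 / (2 * t) *
      (t ^ 2 * f z x ^ 2 - 2 * t * (|f z x| * |g z x|) + g z x ^ 2) := by positivity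
  linarith

end gen

/-! ### Systems of spins -/

section spin

variable {ι : Type} [Fintype ι] [DecidableEq ι] {n : ℕ} {S : Sy ι (Fin n → ℤˣ)}

/-- the conditional magnetization -/
noncomputable def dd (S : Sy ι (Fin n → ℤˣ)) (l : ℕ) (i : Fin n) : (ι → ℝ) → ℝ :=
  S.T l (fun _ x => sp x i)

/-- `1 - ∑_(j > l) p_j x_i T_j x_i` -/
noncomputable def Mm (S : Sy ι (Fin n → ℤˣ)) (l : ℕ) (i : Fin n) (z : ι → ℝ)
    (x : Fin n → ℤˣ) : ℝ :=
  1 - ∑ j ∈ Finset.Ico (l + 1) (S.K + 1), S.p j * (sp x i * dd S j i z)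

/-- `T_l (f Mm_i)` -/
noncomputable def Vf (S : Sy ι (Fin n → ℤˣ)) (l : ℕ) (i : Fin n) (f : (Fin n → ℤˣ) → ℝ) :
    (ι → ℝ) → ℝ :=
  S.T l (fun z x => f x * Mm S l i z x)

/-- `m_l T_l f - ∑_(lv ≤ j < l) p_j T_j f` -/
noncomputable def Rm (S : Sy ι (Fin n → ℤˣ)) (l lv : ℕ) (f : (Fin n → ℤˣ) → ℝ) (z : ι → ℝ) : ℝ :=
  S.m l * S.T l (fun _ x => f x) z -
    ∑ j ∈ Finset.Ico 0 l, S.p j * (if lv ≤ j then S.T j (fun _ x => f x) z else 0)

/-- `m_(l+1) T_l f - Rm / 2` -/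
noncomputable def Qe (S : Sy ι (Fin n → ℤˣ)) (l lv : ℕ) (f : (Fin n → ℤˣ) → ℝ) (z : ι → ℝ) : ℝ :=
  S.m (l + 1) * S.T l (fun _ x => f x) z - 1 / 2 * Rm S l lv f z

lemma nh_sp (i : Fin n) : Nh (ι := ι) fun _ (x : Fin n → ℤˣ) => sp x i := Nh.snd _

lemma eg_dd (hS : S.Reg) {l : ℕ} (hl : l ≤ S.K) (i : Fin n) : EG (dd S l i) :=
  hS.eg_T hl (nh_sp i)

lemma dep_dd (S : Sy ι (Fin n → ℤˣ)) (l : ℕ) (i : Fin n) : Dep S.lev l (dd S l i) := dep_T S l _

lemma abs_dd_le (hS : S.Reg) {l : ℕ} (hl : l ≤ S.K) (i : Fin n) (z : ι → ℝ) :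
    |dd S l i z| ≤ 1 := hS.abs_T_le hl (nh_sp i) (fun _ x => (abs_sp x i).le) z

lemma nh_Mm (hS : S.Reg) (l : ℕ) (i : Fin n) : Nh (Mm S l i) := fun x =>
  (EG.const 1).sub (EG.sum _ fun j hj => by
    rw [Finset.mem_Ico] at hj
    exact ((eg_dd hS (by omega) i).const_mul _).const_mul _)

lemma p_nonneg (hS : S.Reg) {j : ℕ} (hj : j ≤ S.K) : 0 ≤ S.p j := sub_nonneg.2 (hS.mono j hj)

lemma sum_p_top (hS : S.Reg) {l : ℕ} (hl : l ≤ S.K) :
    ∑ j ∈ Finset.Ico (l + 1) (S.K + 1), S.p j = 1 - S.m (l + 1) := by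
  have h1 := Finset.sum_Ico_sub S.m (show l + 1 ≤ S.K + 1 by omega)
  rw [hS.mK] at h1
  exact h1

lemma sum_p_bot (hS : S.Reg) (l : ℕ) : ∑ j ∈ Finset.Ico 0 l, S.p j = S.m l := by
  have h1 := Finset.sum_Ico_sub S.m (Nat.zero_le l)
  rw [hS.m0, sub_zero] at h1
  exact h1

lemma m_nonneg (hS : S.Reg) {l : ℕ} (hl : l ≤ S.K + 1) : 0 ≤ S.m l := by
  rcases Nat.eq_zero_or_pos l with h | h
  · rw [h, hS.m0]
  · exact (hS.m_pos h hl).le

lemma abs_Mm_le (hS : S.Reg) {l : ℕ} (hl : l ≤ S.K) (i : Fin n) (z : ι → ℝ)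
    (x : Fin n → ℤˣ) : |Mm S l i z x| ≤ 2 := by
  have h1 : |∑ j ∈ Finset.Ico (l + 1) (S.K + 1), S.p j * (sp x i * dd S j i z)| ≤
      ∑ j ∈ Finset.Ico (l + 1) (S.K + 1), S.p j := by
    refine (Finset.abs_sum_le_sum_abs _ _).trans (Finset.sum_le_sum fun j hj => ?_)
    rw [Finset.mem_Ico] at hj
    have hp := p_nonneg hS (j := j) (by omega)
    rw [abs_mul, abs_mul, abs_sp, one_mul, abs_of_nonneg hp]
    calc S.p j * |dd S j i z| ≤ S.p j * 1 :=
          mul_le_mul_of_nonneg_left (abs_dd_le hS (by omega) i z) hp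
      _ = S.p j := mul_one _
  rw [sum_p_top hS hl] at h1
  have h2 := m_nonneg hS (l := l + 1) (by omega)
  have h3 := abs_sub (1 : ℝ) (∑ j ∈ Finset.Ico (l + 1) (S.K + 1), S.p j * (sp x i * dd S j i z))
  unfold Mm
  rw [abs_one] at h3
  linarith

lemma nh_fM (hS : S.Reg) (l : ℕ) (i : Fin n) (f : (Fin n → ℤˣ) → ℝ) :
    Nh fun z x => f x * Mm S l i z x := fun x => (nh_Mm hS l i x).const_mul _

lemma eg_Vf (hS : S.Reg) {l : ℕ} (hl : l ≤ S.K) (i : Fin n) (f : (Fin n → ℤˣ) → ℝ) :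
    EG (Vf S l i f) := hS.eg_T hl (nh_fM hS l i f)

lemma dep_Vf (S : Sy ι (Fin n → ℤˣ)) (l : ℕ) (i : Fin n) (f : (Fin n → ℤˣ) → ℝ) :
    Dep S.lev l (Vf S l i f) := dep_T S l _

lemma abs_Vf_le (hS : S.Reg) {l : ℕ} (hl : l ≤ S.K) (i : Fin n) {f : (Fin n → ℤˣ) → ℝ}
    (hf : ∀ x, |f x| ≤ 1) (z : ι → ℝ) : |Vf S l i f z| ≤ 2 := by
  refine hS.abs_T_le hl (nh_fM hS l i f) (fun z x => ?_) z
  rw [abs_mul]
  calc |f x| * |Mm S l i z x| ≤ 1 * 2 :=
        mul_le_mul (hf x) (abs_Mm_le hS hl i z x) (abs_nonneg _) zero_le_one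
    _ = 2 := one_mul _

lemma eg_Rm (hS : S.Reg) {l : ℕ} (hl : l ≤ S.K) (lv : ℕ) (f : (Fin n → ℤˣ) → ℝ) :
    EG (Rm S l lv f) := by
  refine ((hS.eg_T hl (Nh.snd f)).const_mul _).sub (EG.sum _ fun j hj => ?_)
  rw [Finset.mem_Ico] at hj
  split_ifs
  · exact (hS.eg_T (by omega) (Nh.snd f)).const_mul _
  · simpa using EG.const 0

lemma dep_Rm (S : Sy ι (Fin n → ℤˣ)) (l lv : ℕ) (f : (Fin n → ℤˣ) → ℝ) :
    Dep S.lev l (Rm S l lv f) := by
  intro z w
  unfold Rm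
  rw [dep_T S l _ z w]
  congr 1
  refine Finset.sum_congr rfl fun j hj => ?_
  rw [Finset.mem_Ico] at hj
  rw [(dep_T S j _).mono (show j ≤ l by omega) z w]

lemma abs_Tf_le (hS : S.Reg) {l : ℕ} (hl : l ≤ S.K) {f : (Fin n → ℤˣ) → ℝ}
    (hf : ∀ x, |f x| ≤ 1) (z : ι → ℝ) : |S.T l (fun _ x => f x) z| ≤ 1 :=
  hS.abs_T_le hl (Nh.snd f) (fun _ x => hf x) z

lemma abs_Rm_le (hS : S.Reg) {l : ℕ} (hl : l ≤ S.K) (lv : ℕ) {f : (Fin n → ℤˣ) → ℝ}
    (hf : ∀ x, |f x| ≤ 1) (z : ι → ℝ) : |Rm S l lv f z| ≤ 2 * S.m l := by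
  have hm := m_nonneg hS (l := l) (by omega)
  have h1 : |∑ j ∈ Finset.Ico 0 l, S.p j *
      (if lv ≤ j then S.T j (fun _ x => f x) z else 0)| ≤ ∑ j ∈ Finset.Ico 0 l, S.p j := by
    refine (Finset.abs_sum_le_sum_abs _ _).trans (Finset.sum_le_sum fun j hj => ?_)
    rw [Finset.mem_Ico] at hj
    have hp := p_nonneg hS (j := j) (by omega)
    rw [abs_mul, abs_of_nonneg hp]
    have h2 : |if lv ≤ j then S.T j (fun _ x => f x) z else 0| ≤ 1 := by
      split_ifs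
      · exact abs_Tf_le hS (by omega) hf z
      · simp
    calc _ ≤ S.p j * 1 := mul_le_mul_of_nonneg_left h2 hp
      _ = S.p j := mul_one _
  rw [sum_p_bot hS] at h1
  have h2 : |S.m l * S.T l (fun _ x => f x) z| ≤ S.m l := by
    rw [abs_mul, abs_of_nonneg hm]
    calc _ ≤ S.m l * 1 := mul_le_mul_of_nonneg_left (abs_Tf_le hS hl hf z) hm
      _ = S.m l := mul_one _
  unfold Rm
  refine (abs_sub _ _).trans ?_
  linarith

lemma eg_Qe (hS : S.Reg) {l : ℕ} (hl : l ≤ S.K) (lv : ℕ) (f : (Fin n → ℤˣ) → ℝ) :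
    EG (Qe S l lv f) :=
  ((hS.eg_T hl (Nh.snd f)).const_mul _).sub ((eg_Rm hS hl lv f).const_mul _)

lemma dep_Qe (S : Sy ι (Fin n → ℤˣ)) (l lv : ℕ) (f : (Fin n → ℤˣ) → ℝ) :
    Dep S.lev l (Qe S l lv f) := by
  intro z w
  unfold Qe
  rw [dep_T S l _ z w, dep_Rm S l lv f z w]

lemma abs_Qe_le (hS : S.Reg) {l : ℕ} (hl : l ≤ S.K) (lv : ℕ) {f : (Fin n → ℤˣ) → ℝ}
    (hf : ∀ x, |f x| ≤ 1) (z : ι → ℝ) : |Qe S l lv f z| ≤ 2 * S.m (l + 1) := by
  have hm := m_nonneg hS (l := l + 1) (by omega)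
  have hmm := hS.mono l hl
  have h1 := abs_Rm_le hS hl lv hf z
  have h2 : |S.m (l + 1) * S.T l (fun _ x => f x) z| ≤ S.m (l + 1) := by
    rw [abs_mul, abs_of_nonneg hm]
    calc _ ≤ S.m (l + 1) * 1 := mul_le_mul_of_nonneg_left (abs_Tf_le hS hl hf z) hm
      _ = S.m (l + 1) := mul_one _
  unfold Qe
  refine (abs_sub _ _).trans ?_
  rw [abs_mul (1 / 2 : ℝ), abs_of_pos (by norm_num : (0 : ℝ) < 1 / 2)]
  linarith

lemma sp_sq (x : Fin n → ℤˣ) (i : Fin n) : sp x i * sp x i = 1 := by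
  have h := abs_sp x i
  have h2 := abs_mul_abs_self (sp x i)
  rw [h, one_mul] at h2
  exact h2.symm

end spin

/-! ### The SK system -/

section sk

variable {n K : ℕ} {m : ℕ → ℝ}

lemma skS_p (m b w : ℕ → ℝ) (j : ℕ) : (skS n K m b w).p j = m (j + 1) - m j := rfl

lemma T_aSK (m b w : ℕ → ℝ) (j : ℕ) (e : Cd n K) (z : Cd n K → ℝ) :
    (skS n K m b w).T j (fun _ x => aSK n K b w x e) z =
      am b w e.1 (e.2 + 1) * (skS n K m b w).T j (fun _ x => st e.1 x) z :=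
  T_const_mul _ j _ (fun _ x => st e.1 x) z

/-- the derivative of the conditional magnetization -/
theorem pd_dd (hm : Em K m) (b w : ℕ → ℝ) {l : ℕ} (hl : l ≤ K) (i : Fin n) {e : Cd n K}
    (he : (e.2 : ℕ) + 1 ≤ l) :
    PD e (dd (skS n K m b w) l i) (fun z => am b w e.1 (e.2 + 1) *
      (Vf (skS n K m b w) l i (fun x => sp x i * st e.1 x) z -
        m (l + 1) * (dd (skS n K m b w) l i z *
          (skS n K m b w).T l (fun _ x => st e.1 x) z))) := by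
  set S := skS n K m b w with hSdef
  have hS : S.Reg := (linS_sk hm b w).reg
  have hK : S.K = K := rfl
  set α := am b w e.1 (e.2 + 1) with hα
  have h1 := (regD_sk (n := n) hm b w).pd_T (l := l) hl (e := e) he
    (h := fun _ x => sp x i) (h' := fun _ _ => 0) (fun x => PD.const _) (nh_sp i)
    (Nh.snd fun _ => 0)
  refine h1.congr fun z => ?_
  have hst : Nh (ι := Cd n K) fun _ (x : Fin n → ℤˣ) => st e.1 x := Nh.snd _
  -- the three pieces
  have e0 : (fun (z : Cd n K → ℝ) (x : Fin n → ℤˣ) => (0 : ℝ) + sp x i *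
      (aSK n K b w x e - ∑ j ∈ Finset.Ico (l + 1) (S.K + 1), S.p j *
        S.T j ((fun e _ x => aSK n K b w x e) e) z -
        S.m (l + 1) * S.T l ((fun e _ x => aSK n K b w x e) e) z)) =
      fun z x => (α * (sp x i * st e.1 x) -
        ∑ j ∈ Finset.Ico (l + 1) (S.K + 1), (S.p j * α) *
          (sp x i * S.T j (fun _ x => st e.1 x) z)) -
        (m (l + 1) * α * S.T l (fun _ x => st e.1 x) z) * sp x i := by
    funext z x
    have h2 : ∀ j, S.T j ((fun (e : Cd n K) (_ : Cd n K → ℝ) x => aSK n K b w x e) e) z =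
        α * S.T j (fun _ x => st e.1 x) z := fun j => T_aSK m b w j e z
    simp only [h2]
    have h3 : aSK n K b w x e = α * st e.1 x := rfl
    have h4 : S.m (l + 1) = m (l + 1) := rfl
    rw [h3, h4]
    have h5 : sp x i * ∑ j ∈ Finset.Ico (l + 1) (S.K + 1), S.p j *
        (α * S.T j (fun _ x => st e.1 x) z) =
        ∑ j ∈ Finset.Ico (l + 1) (S.K + 1), (S.p j * α) *
          (sp x i * S.T j (fun _ x => st e.1 x) z) := by
      rw [Finset.mul_sum]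
      exact Finset.sum_congr rfl fun j _ => by ring
    rw [← h5]
    ring
  have hN1 : Nh fun (_ : Cd n K → ℝ) (x : Fin n → ℤˣ) => α * (sp x i * st e.1 x) :=
    Nh.snd _
  have hNj : ∀ j ∈ Finset.Ico (l + 1) (S.K + 1), Nh fun (z : Cd n K → ℝ) (x : Fin n → ℤˣ) =>
      (S.p j * α) * (sp x i * S.T j (fun _ x => st e.1 x) z) := fun j hj => by
    rw [Finset.mem_Ico] at hj
    exact fun x => ((hS.eg_T (by omega) hst).const_mul _).const_mul _
  have hN2 : Nh fun (z : Cd n K → ℝ) (x : Fin n → ℤˣ) =>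
      ∑ j ∈ Finset.Ico (l + 1) (S.K + 1), (S.p j * α) *
        (sp x i * S.T j (fun _ x => st e.1 x) z) := Nh.sum _ hNj
  have hd : Dep S.lev l fun z => m (l + 1) * α * S.T l (fun _ x => st e.1 x) z := fun z w => by
    simp only [dep_T S l (fun _ x => st e.1 x) z w]
  have hN3 : Nh fun (z : Cd n K → ℝ) (x : Fin n → ℤˣ) =>
      (m (l + 1) * α * S.T l (fun _ x => st e.1 x) z) * sp x i := fun x =>
    ((hS.eg_T hl hst).const_mul _).mul (EG.const _)
  show S.T l (fun (z : Cd n K → ℝ) (x : Fin n → ℤˣ) => (0 : ℝ) + sp x i *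
      (aSK n K b w x e - ∑ j ∈ Finset.Ico (l + 1) (S.K + 1), S.p j *
        S.T j ((fun e _ x => aSK n K b w x e) e) z -
        S.m (l + 1) * S.T l ((fun e _ x => aSK n K b w x e) e) z)) z = _
  rw [e0, hS.T_sub hl (Nh.sub hN1 hN2) hN3, hS.T_sub hl hN1 hN2, hS.T_sum hl _ hNj,
    T_mul_left S hd]
  -- the left side of `Vf`
  have hV : Vf S l i (fun x => sp x i * st e.1 x) z =
      S.T l (fun _ x => sp x i * st e.1 x) z - ∑ j ∈ Finset.Ico (l + 1) (S.K + 1),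
        S.p j * S.T l (fun z x => sp x i * S.T j (fun _ x => st e.1 x) z) z := by
    have e1 : (fun (z : Cd n K → ℝ) (x : Fin n → ℤˣ) => sp x i * st e.1 x * Mm S l i z x) =
        fun z x => sp x i * st e.1 x - ∑ j ∈ Finset.Ico (l + 1) (S.K + 1),
          S.p j * (st e.1 x * dd S j i z) := by
      funext z x
      unfold Mm
      rw [mul_sub, mul_one, Finset.mul_sum]
      congr 1
      refine Finset.sum_congr rfl fun j _ => ?_
      calc sp x i * st e.1 x * (S.p j * (sp x i * dd S j i z)) =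
            (sp x i * sp x i) * (S.p j * (st e.1 x * dd S j i z)) := by ring
        _ = _ := by rw [sp_sq, one_mul]
    have hNj' : ∀ j ∈ Finset.Ico (l + 1) (S.K + 1), Nh fun (z : Cd n K → ℝ)
        (x : Fin n → ℤˣ) => S.p j * (st e.1 x * dd S j i z) := fun j hj => by
      rw [Finset.mem_Ico] at hj
      exact fun x => ((eg_dd hS (by omega) i).const_mul _).const_mul _
    unfold Vf
    rw [e1, hS.T_sub hl (Nh.snd _) (Nh.sum _ hNj'), hS.T_sum hl _ hNj']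
    congr 1
    refine Finset.sum_congr rfl fun j hj => ?_
    rw [Finset.mem_Ico] at hj
    rw [T_const_mul]
    congr 1
    exact T_swap hS (show l ≤ j by omega) (show j ≤ S.K by omega) hst (nh_sp i) z
  rw [hV]
  have h6 : S.T l (fun (_ : Cd n K → ℝ) x => α * (sp x i * st e.1 x)) z =
      α * S.T l (fun _ x => sp x i * st e.1 x) z :=
    T_const_mul S l α (fun _ x => sp x i * st e.1 x) z
  have h7 : ∑ j ∈ Finset.Ico (l + 1) (S.K + 1), S.T l (fun (z : Cd n K → ℝ)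
      (x : Fin n → ℤˣ) => (S.p j * α) * (sp x i * S.T j (fun _ x => st e.1 x) z)) z =
      α * ∑ j ∈ Finset.Ico (l + 1) (S.K + 1),
        S.p j * S.T l (fun z x => sp x i * S.T j (fun _ x => st e.1 x) z) z := by
    rw [Finset.mul_sum]
    refine Finset.sum_congr rfl fun j _ => ?_
    rw [T_const_mul]
    ring
  rw [h6, h7]
  show _ = α * (_ - m (l + 1) * (S.T l (fun _ x => sp x i) z * _))
  ring

lemma VLD_eq (m b w : ℕ → ℝ) (l : ℕ) (e : Cd n K) (z : Cd n K → ℝ) :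
    VLD (skS n K m b w) (fun e _ x => aSK n K b w x e) l e z =
      am b w e.1 (e.2 + 1) * Rm (skS n K m b w) l (e.2 + 1) (st e.1) z := by
  unfold VLD Rm
  have h2 : ∀ j, (skS n K m b w).T j
      ((fun (e : Cd n K) (_ : Cd n K → ℝ) x => aSK n K b w x e) e) z =
      am b w e.1 (e.2 + 1) * (skS n K m b w).T j (fun _ x => st e.1 x) z :=
    fun j => T_aSK m b w j e z
  simp only [h2, skS_lev]
  rw [mul_sub, Finset.mul_sum]
  congr 1
  · ring
  · refine Finset.sum_congr rfl fun j _ => ?_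
    split_ifs <;> ring

/-- `e^(VL/2) T_l x_i` -/
noncomputable def gg (S : Sy (Cd n K) (Fin n → ℤˣ)) (l : ℕ) (i : Fin n) (z : Cd n K → ℝ) : ℝ :=
  Real.exp (VL S l z / 2) * dd S l i z

/-- its partial derivative -/
noncomputable def gD (m b w : ℕ → ℝ) (l : ℕ) (i : Fin n) (e : Cd n K) (z : Cd n K → ℝ) : ℝ :=
  am b w e.1 (e.2 + 1) * (Real.exp (VL (skS n K m b w) l z / 2) *
      Vf (skS n K m b w) l i (fun x => sp x i * st e.1 x) z -
    Real.exp (VL (skS n K m b w) l z / 2) * (dd (skS n K m b w) l i z *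
      Qe (skS n K m b w) l (e.2 + 1) (st e.1) z))

theorem pd_gg (hm : Em K m) (b w : ℕ → ℝ) {l : ℕ} (hl : l ≤ K) (i : Fin n) {e : Cd n K}
    (he : (e.2 : ℕ) + 1 ≤ l) : PD e (gg (skS n K m b w) l i) (gD m b w l i e) := by
  have h1 := pd_expV (regD_sk (n := n) hm b w) (l := l) hl (e := e) he (pd_dd hm b w hl i he)
  refine h1.congr fun z => ?_
  rw [VLD_eq]
  unfold gD Qe
  rw [skS_m]
  ring

end sk

end Vale.Agent.P146.H379.Row
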