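import Vale.Agent.P146.H379.RowB

/-!
# P146, two-sided first chaos: the exchange of two rows (helper379)

`FF l i k = e^(VL/2) T_l (x_k Mm_i)`. The exchange of the sites `i` and `j` maps `FF l i k` to
`FF l j k`, so both have the same average over the rows of `i` and `j`. Hence
`1/n² ∑_ik ∫ (PA_i FF_ik)²` is `V2 = 1/n ∑_k Ex (T_l (x_k X))²` up to the influences.
-/

open MeasureTheory ProbabilityTheory

namespace Vale.Agent.P146.H379.Row

open Vale.Agent.P157 Vale.Agent.P157.Lv Vale.Agent.P157.Lv.Sy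
open Vale.Agent.P146.H425 Vale.Agent.P146.H946 Vale.Agent.P146.H985
open Vale.Agent.P146.H93 Vale.Agent.P146.H325

set_option linter.unusedSectionVars false

section spin

variable {ι : Type} [Fintype ι] [DecidableEq ι] {n : ℕ} {S : Sy ι (Fin n → ℤˣ)}

/-- `e^(VL/2) T_l (x_k Mm_i)` -/
noncomputable def FF (S : Sy ι (Fin n → ℤˣ)) (l : ℕ) (i k : Fin n) (z : ι → ℝ) : ℝ :=
  Real.exp (VL S l z / 2) * Vf S l i (fun x => sp x k) z

lemma eg_FF (hS : S.Reg) {l : ℕ} (hl : l ≤ S.K) (i k : Fin n) : EG (FF S l i k) :=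
  (eg_expV hS hl).mul (eg_Vf hS hl i _)

lemma dep_FF (hS : S.Reg) {l : ℕ} (hl : l ≤ S.K) (i k : Fin n) : Dep S.lev l (FF S l i k) :=
  lc_dep_mul (dep_expV hS hl) (dep_Vf S l i _)

lemma int_FF_mul (hS : S.Reg) {l : ℕ} (hl : l ≤ S.K) (i j k : Fin n) :
    ∫ z, FF S l i k z * FF S l j k z ∂(gI ι) =
      S.Ex (fun z _ => Vf S l i (fun x => sp x k) z * Vf S l j (fun x => sp x k) z) :=
  int_expV hS hl (eg_Vf hS hl i _) (eg_Vf hS hl j _) (dep_Vf S l i _) (dep_Vf S l j _)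

lemma int_FF_sq (hS : S.Reg) {l : ℕ} (hl : l ≤ S.K) (i k : Fin n) :
    ∫ z, FF S l i k z ^ 2 ∂(gI ι) = S.Ex (fun z _ => Vf S l i (fun x => sp x k) z ^ 2) :=
  int_expV_sq hS hl (eg_Vf hS hl i _) (dep_Vf S l i _)

lemma abs_V_le (hS : S.Reg) {l : ℕ} (hl : l ≤ S.K) (i k : Fin n) (z : ι → ℝ) :
    |Vf S l i (fun x => sp x k) z| ≤ 2 := abs_Vf_le hS hl i (fun x => (abs_sp x k).le) z

lemma sq_le_of_abs {a c : ℝ} (h : |a| ≤ c) : a ^ 2 ≤ c ^ 2 := by
  rw [← sq_abs]
  exact pow_le_pow_left₀ (abs_nonneg _) h 2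

lemma int_FF_sq_le (hS : S.Reg) {l : ℕ} (hl : l ≤ S.K) (i k : Fin n) :
    ∫ z, FF S l i k z ^ 2 ∂(gI ι) ≤ 4 := by
  rw [int_FF_sq hS hl]
  refine Ex_le_const hS (Nh.pow (Nh.fst (eg_Vf hS hl i _)) 2) fun z x => ?_
  have := sq_le_of_abs (abs_V_le hS hl i k z)
  linarith

lemma abs_int_FF_mul_le (hS : S.Reg) {l : ℕ} (hl : l ≤ S.K) (i j k : Fin n) :
    |∫ z, FF S l i k z * FF S l j k z ∂(gI ι)| ≤ 4 := by
  rw [int_FF_mul hS hl]
  refine abs_Ex_le_const hS (Nh.mul (Nh.fst (eg_Vf hS hl i _)) (Nh.fst (eg_Vf hS hl j _)))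
    fun z x => ?_
  rw [abs_mul]
  calc _ ≤ (2 : ℝ) * 2 := mul_le_mul (abs_V_le hS hl i k z) (abs_V_le hS hl j k z)
        (abs_nonneg _) zero_le_two
    _ = 4 := by norm_num

/-- `1 - ∑_(j > l) p_j u_j` -/
noncomputable def Xl (S : Sy ι (Fin n → ℤˣ)) (l : ℕ) (z : ι → ℝ) (x : Fin n → ℤˣ) : ℝ :=
  1 - ∑ j ∈ Finset.Ico (l + 1) (S.K + 1), S.p j * Fld.uu S sp j z x

/-- `T_l (x_k X_l)` -/
noncomputable def Vb (S : Sy ι (Fin n → ℤˣ)) (l : ℕ) (k : Fin n) : (ι → ℝ) → ℝ :=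
  S.T l (fun z x => sp x k * Xl S l z x)

/-- `1/n ∑_k Ex (T_l (x_k X_l))²` -/
noncomputable def V2 (S : Sy ι (Fin n → ℤˣ)) (l : ℕ) : ℝ :=
  1 / n * ∑ k, S.Ex (fun z _ => Vb S l k z ^ 2)

lemma nh_Xl (hS : S.Reg) (l : ℕ) : Nh (Xl S l) := fun x =>
  (EG.const 1).sub (EG.sum _ fun j hj => by
    rw [Finset.mem_Ico] at hj
    exact (Fld.nh_uu hS (by omega) x).const_mul _)

lemma nh_xX (hS : S.Reg) (l : ℕ) (k : Fin n) : Nh fun z x => sp x k * Xl S l z x := fun x =>
  (nh_Xl hS l x).const_mul _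

lemma eg_Vb (hS : S.Reg) {l : ℕ} (hl : l ≤ S.K) (k : Fin n) : EG (Vb S l k) :=
  hS.eg_T hl (nh_xX hS l k)

lemma sum_Mm (hn : 0 < n) (l : ℕ) (z : ι → ℝ) (x : Fin n → ℤˣ) :
    ∑ i, Mm S l i z x = n * Xl S l z x := by
  have hn' : (n : ℝ) ≠ 0 := by exact_mod_cast hn.ne'
  unfold Mm Xl Fld.uu
  rw [Finset.sum_sub_distrib, mul_sub, mul_one, Finset.sum_const, Finset.card_univ,
    Fintype.card_fin, nsmul_eq_mul, mul_one, Finset.sum_comm, Finset.mul_sum]
  congr 1
  refine Finset.sum_congr rfl fun j _ => ?_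
  rw [← Finset.mul_sum]
  have e1 : ∑ i, sp x i * dd S j i z = ∑ a, S.mg sp j a z * sp x a :=
    Finset.sum_congr rfl fun a _ => mul_comm _ _
  rw [e1]
  field_simp

/-- the sum over the sites -/
lemma sum_Vf (hS : S.Reg) (hn : 0 < n) {l : ℕ} (hl : l ≤ S.K) (k : Fin n) (z : ι → ℝ) :
    ∑ i, Vf S l i (fun x => sp x k) z = n * Vb S l k z := by
  unfold Vf Vb
  rw [← hS.T_sum hl Finset.univ fun i _ => nh_fM hS l i _, ← T_const_mul]
  congr 1
  funext z x
  rw [← Finset.mul_sum, sum_Mm hn]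
  ring

/-- the sum of the products -/
lemma sum_VV (hS : S.Reg) (hn : 0 < n) {l : ℕ} (hl : l ≤ S.K) :
    ∑ i, ∑ j, ∑ k, ∫ z, FF S l i k z * FF S l j k z ∂(gI ι) = n ^ 3 * V2 S l := by
  have hn' : (n : ℝ) ≠ 0 := by exact_mod_cast hn.ne'
  have h1 : ∀ k, ∑ i, ∑ j, ∫ z, FF S l i k z * FF S l j k z ∂(gI ι) =
      n ^ 2 * S.Ex (fun z _ => Vb S l k z ^ 2) := by
    intro k
    have hN : ∀ i j, Nh (X := Fin n → ℤˣ) fun z _ => Vf S l i (fun x => sp x k) z *
        Vf S l j (fun x => sp x k) z := fun i j =>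
      Nh.mul (Nh.fst (eg_Vf hS hl i _)) (Nh.fst (eg_Vf hS hl j _))
    simp only [int_FF_mul hS hl]
    have h2 : ∀ i, ∑ j, S.Ex (fun z _ => Vf S l i (fun x => sp x k) z *
        Vf S l j (fun x => sp x k) z) = S.Ex (fun z _ => ∑ j,
          Vf S l i (fun x => sp x k) z * Vf S l j (fun x => sp x k) z) := fun i =>
      (hS.Ex_sum Finset.univ (f := fun j z _ => Vf S l i (fun x => sp x k) z *
        Vf S l j (fun x => sp x k) z) fun j _ => hN i j).symm
    simp only [h2]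
    rw [← hS.Ex_sum Finset.univ (f := fun i z _ => ∑ j, Vf S l i (fun x => sp x k) z *
        Vf S l j (fun x => sp x k) z) fun i _ => Nh.sum Finset.univ fun j _ => hN i j,
      ← Ex_const_mul]
    congr 1
    funext z _
    simp only [← Finset.mul_sum]
    rw [← Finset.sum_mul, sum_Vf hS hn hl]
    ring
  rw [Finset.sum_congr rfl fun i _ => Finset.sum_comm, Finset.sum_comm]
  simp only [h1]
  unfold V2
  rw [← Finset.mul_sum]
  field_simp

end spin

/-! ### The exchange of two sites -/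

section swap

variable {n K : ℕ} {m : ℕ → ℝ}

lemma dd_swap (hm : Em K m) (b w : ℕ → ℝ) (l : ℕ) (i j : Fin n) (z : Cd n K → ℝ) :
    dd (skS n K m b w) l i (gz (pC K (Equiv.swap i j)) (fun _ => 1) z) =
      dd (skS n K m b w) l j z := by
  have h := sys_perm (n := n) hm b w (Equiv.swap i j)
  unfold dd
  rw [h.T_snd l (fun x => sp x i)]
  simp only [sp_pX_symm, Equiv.symm_swap, Equiv.swap_apply_left]

lemma Vf_swap (hm : Em K m) (b w : ℕ → ℝ) (l : ℕ) {i j k : Fin n} (hki : k ≠ i) (hkj : k ≠ j)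
    (z : Cd n K → ℝ) :
    Vf (skS n K m b w) l i (fun x => sp x k) (gz (pC K (Equiv.swap i j)) (fun _ => 1) z) =
      Vf (skS n K m b w) l j (fun x => sp x k) z := by
  have h := sys_perm (n := n) hm b w (Equiv.swap i j)
  unfold Vf
  rw [h.T]
  congr 1
  funext z x
  unfold Mm
  simp only [dd_swap hm, sp_pX_symm, Equiv.symm_swap, Equiv.swap_apply_left,
    Equiv.swap_apply_of_ne_of_ne hki hkj]

lemma FF_swap (hm : Em K m) (b w : ℕ → ℝ) (l : ℕ) {i j k : Fin n} (hki : k ≠ i) (hkj : k ≠ j)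
    (z : Cd n K → ℝ) :
    FF (skS n K m b w) l i k (gz (pC K (Equiv.swap i j)) (fun _ => 1) z) =
      FF (skS n K m b w) l j k z := by
  have h := sys_perm (n := n) hm b w (Equiv.swap i j)
  unfold FF
  rw [h.VL, Vf_swap hm b w l hki hkj]

/-- **Both functions have the same average over the two rows.** -/
theorem PA_FF (hm : Em K m) (b w : ℕ → ℝ) {l : ℕ} (hl : l ≤ K) {i j k : Fin n} (hij : i ≠ j)
    (hki : k ≠ i) (hkj : k ≠ j) (z : Cd n K → ℝ) :
    PA (rwl K i l ∪ rwl K j l) (FF (skS n K m b w) l i k) z =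
      PA (rwl K i l ∪ rwl K j l) (FF (skS n K m b w) l j k) z := by
  have hS : (skS n K m b w).Reg := (linS_sk hm b w).reg
  have e1 : EG (FF (skS n K m b w) l i k) := eg_FF hS hl i k
  have e2 : EG (FF (skS n K m b w) l j k) := eg_FF hS hl j k
  have d1 := dep_FF hS (l := l) hl i k
  have d2 := dep_FF hS (l := l) hl j k
  set F : (Cd n K → ℝ) → ℝ := fun z => FF (skS n K m b w) l i k z - FF (skS n K m b w) l j k z
    with hF
  have eF : EG F := e1.sub e2
  have hd : Dep (skS n K m b w).lev l F := fun z w' => by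
    simp only [hF, d1 z w', d2 z w']
  have ho : ∀ z, F (gz (pC K (Equiv.swap i j)) (fun _ => 1) z) = -F z := fun z => by
    have h1 := FF_swap hm b w l hki hkj z
    have h2 := FF_swap hm b w l hkj hki z
    rw [Equiv.swap_comm j i] at h2
    simp only [hF]
    rw [h1, h2]
    ring
  have h0 : ∀ z, PA (rw2 K i j l) F z = 0 := fun z =>
    (mv_swap (K := K) m b w hij l).J_zero hd ho z
  have hsub : rw2 K i j l ⊆ rwl K i l ∪ rwl K j l := by
    intro e he
    rw [mem_rw2] at he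
    rw [Finset.mem_union, mem_rwl, mem_rwl]
    tauto
  have h3 := PA.comp eF (rwl K i l ∪ rwl K j l) (rw2 K i j l) z
  rw [Finset.union_eq_left.2 hsub] at h3
  have h4 : PA (rwl K i l ∪ rwl K j l) (PA (rw2 K i j l) F) z = 0 := by
    have h5 : PA (rw2 K i j l) F = fun _ => 0 := funext h0
    rw [h5]
    exact J_const 0 z
  rw [h4] at h3
  have h6 := PA.sub (A := rwl K i l ∪ rwl K j l) e1 e2 z
  rw [← h3] at h6
  linarith

/-! ### The influences -/

/-- `∫ (PA_i FF_ik)²` -/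
noncomputable def Gk (S : Sy (Cd n K) (Fin n → ℤˣ)) (l : ℕ) (i k : Fin n) : ℝ :=
  ∫ z, PA (rwl K i l) (FF S l i k) z ^ 2 ∂(gI (Cd n K))

/-- the influence of the row of `i` on `FF_ik` -/
noncomputable def Ow (S : Sy (Cd n K) (Fin n → ℤˣ)) (l : ℕ) (i k : Fin n) : ℝ :=
  ∫ z, (FF S l i k z - PA (rwl K i l) (FF S l i k) z) ^ 2 ∂(gI (Cd n K))

/-- the influence of the row of `j` on `FF_ik` -/
noncomputable def Cr (S : Sy (Cd n K) (Fin n → ℤˣ)) (l : ℕ) (i j k : Fin n) : ℝ :=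
  ∫ z, (FF S l i k z - PA (rwl K j l) (FF S l i k) z) ^ 2 ∂(gI (Cd n K))

/-- the own influence, averaged over the sites -/
noncomputable def OwS (S : Sy (Cd n K) (Fin n → ℤˣ)) (l : ℕ) : ℝ :=
  1 / n ^ 2 * ∑ i, ∑ k, if k ≠ i then Ow S l i k else 0

/-- the cross influence, averaged over the sites -/
noncomputable def CrS (S : Sy (Cd n K) (Fin n → ℤˣ)) (l : ℕ) : ℝ :=
  1 / n ^ 3 * ∑ i, ∑ j, ∑ k, if i ≠ j ∧ k ≠ i ∧ k ≠ j then Cr S l i j k else 0

variable {S : Sy (Cd n K) (Fin n → ℤˣ)} {l : ℕ}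

lemma Ow_nonneg (i k : Fin n) : 0 ≤ Ow S l i k := integral_nonneg fun _ => sq_nonneg _
lemma Cr_nonneg (i j k : Fin n) : 0 ≤ Cr S l i j k := integral_nonneg fun _ => sq_nonneg _
lemma Gk_nonneg (i k : Fin n) : 0 ≤ Gk S l i k := integral_nonneg fun _ => sq_nonneg _

lemma Gk_add_Ow (hS : S.Reg) (hl : l ≤ S.K) (i k : Fin n) :
    Gk S l i k + Ow S l i k = S.Ex (fun z _ => Vf S l i (fun x => sp x k) z ^ 2) := by
  have h1 := PA.pyth (eg_FF hS hl i k) (rwl K i l)
  rw [int_FF_sq hS hl] at h1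
  unfold Gk Ow
  rw [h1]
  ring

lemma Ex_V_sq_le (hS : S.Reg) (hl : l ≤ S.K) (i k : Fin n) :
    S.Ex (fun z _ => Vf S l i (fun x => sp x k) z ^ 2) ≤ 4 := by
  rw [← int_FF_sq hS hl]
  exact int_FF_sq_le hS hl i k

lemma Gk_le (hS : S.Reg) (hl : l ≤ S.K) (i k : Fin n) : Gk S l i k ≤ 4 := by
  have h1 := Gk_add_Ow hS hl i k
  have h2 := Ex_V_sq_le hS hl i k
  have h3 := Ow_nonneg (S := S) (l := l) i k
  linarith

lemma Ow_le (hS : S.Reg) (hl : l ≤ S.K) (i k : Fin n) : Ow S l i k ≤ 4 := by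
  have h1 := Gk_add_Ow hS hl i k
  have h2 := Ex_V_sq_le hS hl i k
  have h3 := Gk_nonneg (S := S) (l := l) i k
  linarith

/-! ### The average over the sites -/

lemma sum_eq1 (c : ℝ) : ∑ i : Fin n, ∑ j : Fin n, ∑ _k : Fin n, (if i = j then c else 0) =
    n ^ 2 * c := by
  simp only [Finset.sum_const, Finset.card_univ, Fintype.card_fin, nsmul_eq_mul,
    ← Finset.mul_sum, Finset.sum_ite_eq, Finset.mem_univ, if_true]
  ring

lemma sum_eq2 (c : ℝ) : ∑ i : Fin n, ∑ _j : Fin n, ∑ k : Fin n, (if k = i then c else 0) =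
    n ^ 2 * c := by
  simp only [Finset.sum_ite_eq', Finset.mem_univ, if_true, Finset.sum_const, Finset.card_univ,
    Fintype.card_fin, nsmul_eq_mul]
  ring

lemma sum_eq3 (c : ℝ) : ∑ _i : Fin n, ∑ j : Fin n, ∑ k : Fin n, (if k = j then c else 0) =
    n ^ 2 * c := by
  simp only [Finset.sum_ite_eq', Finset.mem_univ, if_true, Finset.sum_const, Finset.card_univ,
    Fintype.card_fin, nsmul_eq_mul]
  ring

/-- one triple of sites -/
lemma triple (hm : Em K m) (b w : ℕ → ℝ) {l : ℕ} (hl : l ≤ K) {t : ℝ} (ht : 0 < t)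
    (i j k : Fin n) :
    |∫ z, FF (skS n K m b w) l i k z * FF (skS n K m b w) l j k z ∂(gI (Cd n K)) -
      Gk (skS n K m b w) l i k| ≤
      ((3 / 2 + 1 / (2 * t)) *
          (if i ≠ j ∧ k ≠ i ∧ k ≠ j then Cr (skS n K m b w) l i j k else 0) +
        (1 / 2 + 1 / (2 * t)) *
          (if i ≠ j ∧ k ≠ i ∧ k ≠ j then Cr (skS n K m b w) l j i k else 0) +
        t / 2 * (if k ≠ i then Ow (skS n K m b w) l i k else 0) +
        t / 2 * (if k ≠ j then Ow (skS n K m b w) l j k else 0)) +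
      ((if i = j then 8 else 0) + (if k = i then 8 else 0) + (if k = j then 8 else 0)) := by
  have hS : (skS n K m b w).Reg := (linS_sk hm b w).reg
  by_cases hij : i = j
  · have h1 := abs_int_FF_mul_le hS (l := l) hl i j k
    have h2 := Gk_le hS (l := l) hl i k
    have h3 := Gk_nonneg (S := skS n K m b w) (l := l) i k
    have h4 : |∫ z, FF (skS n K m b w) l i k z * FF (skS n K m b w) l j k z ∂(gI (Cd n K)) -
      Gk (skS n K m b w) l i k| ≤ 8 := by
      rw [abs_le] at h1 ⊢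
      constructor <;> linarith
    have h5 : ¬(i ≠ j ∧ k ≠ i ∧ k ≠ j) := fun h => h.1 hij
    have h6 : (0 : ℝ) ≤ if k ≠ i then Ow (skS n K m b w) l i k else 0 := by
      split_ifs
      · exact Ow_nonneg _ _
      · exact le_refl _
    have h7 : (0 : ℝ) ≤ if k ≠ j then Ow (skS n K m b w) l j k else 0 := by
      split_ifs
      · exact Ow_nonneg _ _
      · exact le_refl _
    have h8 : (0 : ℝ) ≤ if k = i then 8 else 0 := by split_ifs <;> norm_num
    have h9 : (0 : ℝ) ≤ if k = j then 8 else 0 := by split_ifs <;> norm_num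
    rw [if_neg h5, if_neg h5, if_pos hij, mul_zero, mul_zero]
    have h10 := mul_nonneg (by positivity : 0 ≤ t / 2) h6
    have h11 := mul_nonneg (by positivity : 0 ≤ t / 2) h7
    linarith
  · by_cases hk : k = i ∨ k = j
    · have h1 := abs_int_FF_mul_le hS (l := l) hl i j k
      have h2 := Gk_le hS (l := l) hl i k
      have h3 := Gk_nonneg (S := skS n K m b w) (l := l) i k
      have h4 : |∫ z, FF (skS n K m b w) l i k z * FF (skS n K m b w) l j k z ∂(gI (Cd n K)) -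
        Gk (skS n K m b w) l i k| ≤ 8 := by
        rw [abs_le] at h1 ⊢
        constructor <;> linarith
      have h5 : ¬(i ≠ j ∧ k ≠ i ∧ k ≠ j) := fun h => by tauto
      have h6 : (0 : ℝ) ≤ if k ≠ i then Ow (skS n K m b w) l i k else 0 := by
        split_ifs
        · exact Ow_nonneg _ _
        · exact le_refl _
      have h7 : (0 : ℝ) ≤ if k ≠ j then Ow (skS n K m b w) l j k else 0 := by
        split_ifs
        · exact Ow_nonneg _ _
        · exact le_refl _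
      have h8 : (8 : ℝ) ≤ (if k = i then 8 else 0) + (if k = j then 8 else 0) := by
        rcases hk with hk | hk
        · rw [if_pos hk]
          split_ifs <;> norm_num
        · rw [if_pos hk]
          split_ifs <;> norm_num
      rw [if_neg h5, if_neg h5, if_neg hij, mul_zero, mul_zero]
      have h10 := mul_nonneg (by positivity : 0 ≤ t / 2) h6
      have h11 := mul_nonneg (by positivity : 0 ≤ t / 2) h7
      linarith
    · rw [not_or] at hk
      obtain ⟨hki, hkj⟩ := hk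
      have h1 := swap_main (A := rwl K i l) (B := rwl K j l) (eg_FF hS (l := l) hl i k)
        (eg_FF hS (l := l) hl j k) (PA_FF hm b w hl hij hki hkj) ht
      have h5 : i ≠ j ∧ k ≠ i ∧ k ≠ j := ⟨hij, hki, hkj⟩
      rw [if_pos h5, if_pos h5, if_pos hki, if_pos hkj, if_neg hij, if_neg hki, if_neg hkj]
      unfold Gk Cr Ow
      linarith

/-- **The squared averages over the rows are `V2` up to the influences.** -/
theorem sum_Gk (hm : Em K m) (b w : ℕ → ℝ) (hn : 0 < n) {l : ℕ} (hl : l ≤ K) {t : ℝ}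
    (ht : 0 < t) :
    |V2 (skS n K m b w) l - 1 / n ^ 2 * ∑ i, ∑ k, Gk (skS n K m b w) l i k| ≤
      (2 + 1 / t) * CrS (skS n K m b w) l + t * OwS (skS n K m b w) l + 24 / n := by
  have hS : (skS n K m b w).Reg := (linS_sk hm b w).reg
  set S := skS n K m b w with hSd
  have hn' : (0 : ℝ) < n := by exact_mod_cast hn
  set P : ℝ := ∑ i, ∑ j, ∑ k, ∫ z, FF S l i k z * FF S l j k z ∂(gI (Cd n K)) with hP
  set G : ℝ := ∑ i, ∑ k, Gk S l i k with hG
  set C : ℝ := ∑ i, ∑ j, ∑ k, if i ≠ j ∧ k ≠ i ∧ k ≠ j then Cr S l i j k else 0 with hC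
  set O : ℝ := ∑ i, ∑ k, if k ≠ i then Ow S l i k else 0 with hO
  have hP' : P = n ^ 3 * V2 S l := sum_VV hS hn hl
  have hG3 : ∑ i : Fin n, ∑ _j : Fin n, ∑ k, Gk S l i k = n * G := by
    rw [hG, Finset.mul_sum]
    refine Finset.sum_congr rfl fun i _ => ?_
    rw [Finset.sum_const, Finset.card_univ, Fintype.card_fin, nsmul_eq_mul]
  -- the sum of the errors
  have hC2 : ∑ i, ∑ j, ∑ k, (if i ≠ j ∧ k ≠ i ∧ k ≠ j then Cr S l j i k else 0) = C := by
    rw [Finset.sum_comm, hC]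
    refine Finset.sum_congr rfl fun i _ => Finset.sum_congr rfl fun j _ =>
      Finset.sum_congr rfl fun k _ => ?_
    have e : (j ≠ i ∧ k ≠ j ∧ k ≠ i) ↔ (i ≠ j ∧ k ≠ i ∧ k ≠ j) := by
      constructor <;> (rintro ⟨h1, h2, h3⟩; exact ⟨h1.symm, h3, h2⟩)
    simp only [e]
  have hO1 : ∑ i, ∑ _j : Fin n, ∑ k, (if k ≠ i then Ow S l i k else 0) = n * O := by
    rw [hO, Finset.mul_sum]
    refine Finset.sum_congr rfl fun i _ => ?_
    rw [Finset.sum_const, Finset.card_univ, Fintype.card_fin, nsmul_eq_mul]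
  have hO2 : ∑ _i : Fin n, ∑ j, ∑ k, (if k ≠ j then Ow S l j k else 0) = n * O := by
    rw [Finset.sum_const, Finset.card_univ, Fintype.card_fin, nsmul_eq_mul]
  have key : |P - n * G| ≤ (2 + 1 / t) * C + t * (n * O) + 24 * n ^ 2 := by
    rw [← hG3, hP, ← Finset.sum_sub_distrib]
    refine (Finset.abs_sum_le_sum_abs _ _).trans ?_
    have h1 : ∀ i ∈ (Finset.univ : Finset (Fin n)),
        |∑ j, ∑ k, ∫ z, FF S l i k z * FF S l j k z ∂(gI (Cd n K)) -
          ∑ _j : Fin n, ∑ k, Gk S l i k| ≤ ∑ j, ∑ k,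
        (((3 / 2 + 1 / (2 * t)) *
          (if i ≠ j ∧ k ≠ i ∧ k ≠ j then Cr (skS n K m b w) l i j k else 0) +
        (1 / 2 + 1 / (2 * t)) *
          (if i ≠ j ∧ k ≠ i ∧ k ≠ j then Cr (skS n K m b w) l j i k else 0) +
        t / 2 * (if k ≠ i then Ow (skS n K m b w) l i k else 0) +
        t / 2 * (if k ≠ j then Ow (skS n K m b w) l j k else 0)) +
      ((if i = j then 8 else 0) + (if k = i then 8 else 0) + (if k = j then 8 else 0))) := by
      intro i _
      rw [← Finset.sum_sub_distrib]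
      refine (Finset.abs_sum_le_sum_abs _ _).trans (Finset.sum_le_sum fun j _ => ?_)
      rw [← Finset.sum_sub_distrib]
      exact (Finset.abs_sum_le_sum_abs _ _).trans
        (Finset.sum_le_sum fun k _ => triple hm b w hl ht i j k)
    refine (Finset.sum_le_sum h1).trans (le_of_eq ?_)
    simp only [Finset.sum_add_distrib, ← Finset.mul_sum]
    rw [hC2, hO1, hO2, sum_eq1, sum_eq2, sum_eq3]
    have h2 : 1 / t = 2 * (1 / (2 * t)) := by field_simp
    rw [h2]
    ring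
  have e1 : V2 S l - 1 / n ^ 2 * G = 1 / n ^ 3 * (P - n * G) := by
    rw [hP']
    field_simp
  have e2 : (2 + 1 / t) * CrS S l + t * OwS S l + 24 / n =
      1 / n ^ 3 * ((2 + 1 / t) * C + t * (n * O) + 24 * n ^ 2) := by
    unfold CrS OwS
    rw [← hC, ← hO]
    field_simp
  rw [e1, e2, abs_mul, abs_of_pos (by positivity : (0 : ℝ) < 1 / n ^ 3)]
  exact mul_le_mul_of_nonneg_left key (by positivity)

end swap

end Vale.Agent.P146.H379.Row
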