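import Vale.Agent.P146.H379.RowC

/-!
# P146, two-sided first chaos: the assembly (helper379)

`c1 l i = ∑_(e in the row of i, levels ≤ l) ∫ (PA_i ∂_e (e^(VL/2) T_l x_i))²`, the first chaos of
the row of `i`. Its average over the sites is
`β² V2 - β² (2 m_(l+1) - m_l) χ t_l` up to the influences, the fields and the deviations of `X_l`.
-/

open MeasureTheory ProbabilityTheory

namespace Vale.Agent.P146.H379.Row

open Vale.Agent.P157 Vale.Agent.P157.Lv Vale.Agent.P157.Lv.Sy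
open Vale.Agent.P146.H425 Vale.Agent.P146.H946 Vale.Agent.P146.H985
open Vale.Agent.P146.H93 Vale.Agent.P146.H325

set_option linter.unusedSectionVars false

/-- the product of two spins -/
def ss {n : ℕ} (i k : Fin n) (x : Fin n → ℤˣ) : ℝ := sp x i * sp x k

lemma abs_ss {n : ℕ} (i k : Fin n) (x : Fin n → ℤˣ) : |ss i k x| ≤ 1 := by
  unfold ss
  rw [abs_mul, abs_sp, abs_sp, one_mul]

/-! ### Second moments of the conditional averages -/

section mom

variable {ι : Type} [Fintype ι] [DecidableEq ι] {n : ℕ} {S : Sy ι (Fin n → ℤˣ)}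

/-- `1/n² ∑_ik Ex (T_l (x_i x_k))²` -/
noncomputable def Tt (S : Sy ι (Fin n → ℤˣ)) (l : ℕ) : ℝ :=
  1 / n ^ 2 * ∑ i, ∑ k, S.Ex (fun z _ => S.T l (fun _ x => ss i k x) z ^ 2)

/-- `1/n² ∑_ik Ex (D_i D_k T_j (x_i x_k))`, `D = T_l x` -/
noncomputable def tj (S : Sy ι (Fin n → ℤˣ)) (l j : ℕ) : ℝ :=
  1 / n ^ 2 * ∑ i, ∑ k, S.Ex (fun z _ => dd S l i z * dd S l k z * S.T j (fun _ x => ss i k x) z)

lemma Ex_T_sq_mono (hS : S.Reg) {j l : ℕ} (hjl : j ≤ l) (hl : l ≤ S.K)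
    {f : (ι → ℝ) → (Fin n → ℤˣ) → ℝ} (hf : Nh f) :
    S.Ex (fun z _ => S.T j f z ^ 2) ≤ S.Ex (fun z _ => S.T l f z ^ 2) := by
  have hj := hjl.trans hl
  have hT : Nh (X := Fin n → ℤˣ) fun z _ => S.T l f z := Nh.fst (hS.eg_T hl hf)
  rw [← hS.Ex_T hj (f := fun z _ => S.T l f z ^ 2) (Nh.pow hT 2)]
  refine hS.Ex_mono (Nh.pow (Nh.fst (hS.eg_T hj hf)) 2) (Nh.fst (hS.eg_T hj (Nh.pow hT 2)))
    fun z x => ?_
  have h1 := hS.sq_T_le hj hT z
  rw [hS.T_T hjl hl hf] at h1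
  exact h1

lemma wsq {κ : Type} (s : Finset κ) (p a : κ → ℝ) (hp : ∀ j ∈ s, 0 ≤ p j) :
    (∑ j ∈ s, p j * a j) ^ 2 ≤ (∑ j ∈ s, p j) * ∑ j ∈ s, p j * a j ^ 2 := by
  have h1 := Finset.sum_mul_sq_le_sq_mul_sq s (fun j => Real.sqrt (p j))
    (fun j => Real.sqrt (p j) * a j)
  have e1 : ∑ j ∈ s, Real.sqrt (p j) * (Real.sqrt (p j) * a j) = ∑ j ∈ s, p j * a j :=
    Finset.sum_congr rfl fun j hj => by
      rw [← mul_assoc, Real.mul_self_sqrt (hp j hj)]
  have e2 : ∑ j ∈ s, Real.sqrt (p j) ^ 2 = ∑ j ∈ s, p j :=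
    Finset.sum_congr rfl fun j hj => Real.sq_sqrt (hp j hj)
  have e3 : ∑ j ∈ s, (Real.sqrt (p j) * a j) ^ 2 = ∑ j ∈ s, p j * a j ^ 2 :=
    Finset.sum_congr rfl fun j hj => by rw [mul_pow, Real.sq_sqrt (hp j hj)]
  rw [e1, e2, e3] at h1
  exact h1

lemma Ex_Rm_sq (hS : S.Reg) {l : ℕ} (hl : l ≤ S.K) (q : ℕ) (f : (Fin n → ℤˣ) → ℝ) :
    S.Ex (fun z _ => Rm S l q f z ^ 2) ≤
      4 * S.m l ^ 2 * S.Ex (fun z _ => S.T l (fun _ x => f x) z ^ 2) := by
  have hm := m_nonneg hS (l := l) (by omega)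
  have hN : Nh (ι := ι) fun _ (x : Fin n → ℤˣ) => f x := Nh.snd f
  set E := S.Ex (fun z _ => S.T l (fun _ x => f x) z ^ 2) with hE
  set a : ℕ → (ι → ℝ) → ℝ := fun j z => if q ≤ j then S.T j (fun _ x => f x) z else 0 with ha
  have eg_a : ∀ j ∈ Finset.Ico 0 l, EG (a j) := fun j hj => by
    rw [Finset.mem_Ico] at hj
    by_cases hq : q ≤ j
    · simp only [ha, hq, if_true]
      exact hS.eg_T (by omega) hN
    · simp only [ha, hq, if_false]
      exact EG.const 0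
  have hE0 : 0 ≤ E := Ex_nn hS (Nh.pow (Nh.fst (hS.eg_T hl hN)) 2) fun z x => sq_nonneg _
  have ha2 : ∀ j ∈ Finset.Ico 0 l, S.Ex (fun z _ => a j z ^ 2) ≤ E := fun j hj => by
    rw [Finset.mem_Ico] at hj
    by_cases hq : q ≤ j
    · simp only [ha, hq, if_true]
      exact Ex_T_sq_mono hS (by omega) hl hN
    · simp only [ha, hq, if_false]
      have : S.Ex (fun (_ : ι → ℝ) (_ : Fin n → ℤˣ) => (0 : ℝ) ^ 2) = 0 := by
        rw [hS.Ex_const]; norm_num
      rw [this]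
      exact hE0
  have hp : ∀ j ∈ Finset.Ico 0 l, 0 ≤ S.p j := fun j hj => by
    rw [Finset.mem_Ico] at hj
    exact p_nonneg hS (by omega)
  have hpt : ∀ z, Rm S l q f z ^ 2 ≤ 2 * S.m l ^ 2 * S.T l (fun _ x => f x) z ^ 2 +
      2 * S.m l * ∑ j ∈ Finset.Ico 0 l, S.p j * a j z ^ 2 := by
    intro z
    have h1 := wsq (Finset.Ico 0 l) S.p (fun j => a j z) hp
    rw [sum_p_bot hS] at h1
    have h2 : Rm S l q f z = S.m l * S.T l (fun _ x => f x) z -
        ∑ j ∈ Finset.Ico 0 l, S.p j * a j z := rfl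
    rw [h2]
    have h3 := sq_nonneg (S.m l * S.T l (fun _ x => f x) z +
      ∑ j ∈ Finset.Ico 0 l, S.p j * a j z)
    nlinarith
  have hNp : ∀ j ∈ Finset.Ico 0 l, Nh (X := Fin n → ℤˣ) fun z _ => S.p j * a j z ^ 2 :=
    fun j hj => Nh.const_mul _ (Nh.pow (Nh.fst (eg_a j hj)) 2)
  have h4 := hS.Ex_mono (f := fun z _ => Rm S l q f z ^ 2)
    (g := fun z _ => 2 * S.m l ^ 2 * S.T l (fun _ x => f x) z ^ 2 +
      2 * S.m l * ∑ j ∈ Finset.Ico 0 l, S.p j * a j z ^ 2)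
    (Nh.pow (Nh.fst (eg_Rm hS hl q f)) 2)
    (Nh.add (Nh.const_mul _ (Nh.pow (Nh.fst (hS.eg_T hl hN)) 2))
      (Nh.const_mul _ (Nh.sum _ hNp))) fun z _ => hpt z
  rw [hS.Ex_add (Nh.const_mul _ (Nh.pow (Nh.fst (hS.eg_T hl hN)) 2))
      (Nh.const_mul _ (Nh.sum _ hNp)), Ex_const_mul, Ex_const_mul, hS.Ex_sum _ hNp] at h4
  have h5 : ∑ j ∈ Finset.Ico 0 l, S.Ex (fun z _ => S.p j * a j z ^ 2) ≤ S.m l * E := by
    rw [← sum_p_bot hS l, Finset.sum_mul]
    refine Finset.sum_le_sum fun j hj => ?_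
    rw [Ex_const_mul]
    exact mul_le_mul_of_nonneg_left (ha2 j hj) (hp j hj)
  have h6 := mul_le_mul_of_nonneg_left h5 (by positivity : 0 ≤ 2 * S.m l)
  refine h4.trans ?_
  rw [← hE]
  nlinarith

lemma Ex_Qe_sq (hS : S.Reg) {l : ℕ} (hl : l ≤ S.K) (q : ℕ) (f : (Fin n → ℤˣ) → ℝ) :
    S.Ex (fun z _ => Qe S l q f z ^ 2) ≤
      4 * S.m (l + 1) ^ 2 * S.Ex (fun z _ => S.T l (fun _ x => f x) z ^ 2) := by
  have hm := m_nonneg hS (l := l) (by omega)
  have hmm := hS.mono l hl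
  have hN : Nh (ι := ι) fun _ (x : Fin n → ℤˣ) => f x := Nh.snd f
  have hE0 : 0 ≤ S.Ex (fun z _ => S.T l (fun _ x => f x) z ^ 2) :=
    Ex_nn hS (Nh.pow (Nh.fst (hS.eg_T hl hN)) 2) fun z x => sq_nonneg _
  have h1 := Ex_Rm_sq hS hl q f
  have h4 := hS.Ex_mono (f := fun z _ => Qe S l q f z ^ 2)
    (g := fun z _ => 2 * S.m (l + 1) ^ 2 * S.T l (fun _ x => f x) z ^ 2 +
      1 / 2 * Rm S l q f z ^ 2)
    (Nh.pow (Nh.fst (eg_Qe hS hl q f)) 2)
    (Nh.add (Nh.const_mul _ (Nh.pow (Nh.fst (hS.eg_T hl hN)) 2))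
      (Nh.const_mul _ (Nh.pow (Nh.fst (eg_Rm hS hl q f)) 2))) fun z _ => by
        have h3 := sq_nonneg (S.m (l + 1) * S.T l (fun _ x => f x) z + 1 / 2 * Rm S l q f z)
        show (S.m (l + 1) * S.T l (fun _ x => f x) z - 1 / 2 * Rm S l q f z) ^ 2 ≤ _
        nlinarith
  rw [hS.Ex_add (Nh.const_mul _ (Nh.pow (Nh.fst (hS.eg_T hl hN)) 2))
      (Nh.const_mul _ (Nh.pow (Nh.fst (eg_Rm hS hl q f)) 2)), Ex_const_mul, Ex_const_mul] at h4
  have h5 : S.m l ^ 2 ≤ S.m (l + 1) ^ 2 := pow_le_pow_left₀ hm hmm 2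
  have h6 := mul_le_mul_of_nonneg_right h5 hE0
  linarith

lemma Tt_nonneg (hS : S.Reg) {l : ℕ} (hl : l ≤ S.K) : 0 ≤ Tt S l := by
  unfold Tt
  refine mul_nonneg (by positivity) (Finset.sum_nonneg fun i _ => Finset.sum_nonneg fun k _ => ?_)
  exact Ex_nn hS (Nh.pow (Nh.fst (hS.eg_T hl (Nh.snd _))) 2) fun z x => sq_nonneg _

/-- `|tj l j| ≤ Tt l` for `j ≤ l` -/
lemma abs_tj_le (hS : S.Reg) (hn : 0 < n) {l j : ℕ} (hjl : j ≤ l) (hl : l ≤ S.K) :
    |tj S l j| ≤ Tt S l := by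
  have hn' : (0 : ℝ) < n := by exact_mod_cast hn
  have hDD : ∀ i k, Nh (X := Fin n → ℤˣ) fun z _ => dd S l i z * dd S l k z := fun i k =>
    Nh.mul (Nh.fst (eg_dd hS hl i)) (Nh.fst (eg_dd hS hl k))
  have hC : ∀ i k, Nh (X := Fin n → ℤˣ) fun z _ => S.T j (fun _ x => ss i k x) z := fun i k =>
    Nh.fst (hS.eg_T (hjl.trans hl) (Nh.snd _))
  -- Jensen for the double sum of the squares of the magnetizations
  have hJ : ∑ i, ∑ k, S.Ex (fun z _ => (dd S l i z * dd S l k z) ^ 2) ≤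
      ∑ i, ∑ k, S.Ex (fun z _ => S.T l (fun _ x => ss i k x) z ^ 2) := by
    -- both sides as averages over the configuration
    have hN1 : ∀ i k, Nh (X := Fin n → ℤˣ) fun z _ => (dd S l i z * dd S l k z) ^ 2 :=
      fun i k => Nh.pow (hDD i k) 2
    have hN2 : ∀ i k, Nh (X := Fin n → ℤˣ) fun z _ => S.T l (fun _ x => ss i k x) z ^ 2 :=
      fun i k => Nh.pow (Nh.fst (hS.eg_T hl (Nh.snd _))) 2
    have e1 : ∑ i, ∑ k, S.Ex (fun z _ => (dd S l i z * dd S l k z) ^ 2) =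
        S.Ex (fun z _ => ∑ i, ∑ k, (dd S l i z * dd S l k z) ^ 2) := by
      rw [hS.Ex_sum Finset.univ (f := fun i z _ => ∑ k, (dd S l i z * dd S l k z) ^ 2)
        fun i _ => Nh.sum _ fun k _ => hN1 i k]
      refine Finset.sum_congr rfl fun i _ => ?_
      rw [hS.Ex_sum Finset.univ (f := fun k z _ => (dd S l i z * dd S l k z) ^ 2)
        fun k _ => hN1 i k]
    have e2 : ∑ i, ∑ k, S.Ex (fun z _ => S.T l (fun _ x => ss i k x) z ^ 2) =
        S.Ex (fun z _ => ∑ i, ∑ k, S.T l (fun _ x => ss i k x) z ^ 2) := by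
      rw [hS.Ex_sum Finset.univ (f := fun i z _ => ∑ k, S.T l (fun _ x => ss i k x) z ^ 2)
        fun i _ => Nh.sum _ fun k _ => hN2 i k]
      refine Finset.sum_congr rfl fun i _ => ?_
      rw [hS.Ex_sum Finset.univ (f := fun k z _ => S.T l (fun _ x => ss i k x) z ^ 2)
        fun k _ => hN2 i k]
    rw [e1, e2]
    refine hS.Ex_mono (Nh.sum _ fun i _ => Nh.sum _ fun k _ => hN1 i k)
      (Nh.sum _ fun i _ => Nh.sum _ fun k _ => hN2 i k) fun z _ => ?_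
    -- `∑ D_i² = T_l (∑ D_i x_i)`, and the quadratic form of `C` dominates
    set s : ℝ := ∑ i, dd S l i z ^ 2 with hs
    have h1 : ∑ i, ∑ k, (dd S l i z * dd S l k z) ^ 2 = s ^ 2 := by
      rw [hs, sq, Finset.sum_mul_sum]
      exact Finset.sum_congr rfl fun i _ => Finset.sum_congr rfl fun k _ => by ring
    have h2 : s ^ 2 ≤ ∑ i, ∑ k, dd S l i z * dd S l k z * S.T l (fun _ x => ss i k x) z := by
      -- Jensen
      have hNx : Nh fun z x => ∑ i, dd S l i z * sp x i := Nh.sum _ fun i _ =>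
        Nh.mul (Nh.fst (eg_dd hS hl i)) (Nh.snd fun x => sp x i)
      have h3 := hS.sq_T_le hl hNx z
      have h4 : S.T l (fun z x => ∑ i, dd S l i z * sp x i) z = s := by
        rw [hS.T_sum hl Finset.univ (f := fun i z x => dd S l i z * sp x i) fun i _ =>
          Nh.mul (Nh.fst (eg_dd hS hl i)) (Nh.snd fun x => sp x i), hs]
        refine Finset.sum_congr rfl fun i _ => ?_
        rw [T_mul_left S (dep_dd S l i), sq]
        rfl
      have h5 : S.T l (fun z x => (∑ i, dd S l i z * sp x i) ^ 2) z =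
          ∑ i, ∑ k, dd S l i z * dd S l k z * S.T l (fun _ x => ss i k x) z := by
        have e3 : (fun (z : ι → ℝ) (x : Fin n → ℤˣ) => (∑ i, dd S l i z * sp x i) ^ 2) =
            fun z x => ∑ i, ∑ k, (dd S l i z * dd S l k z) * ss i k x := by
          funext z x
          rw [sq, Finset.sum_mul_sum]
          exact Finset.sum_congr rfl fun i _ => Finset.sum_congr rfl fun k _ => by
            unfold ss; ring
        have hN3 : ∀ i k, Nh fun (z : ι → ℝ) (x : Fin n → ℤˣ) =>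
            (dd S l i z * dd S l k z) * ss i k x := fun i k =>
          Nh.mul (hDD i k) (Nh.snd fun x => ss i k x)
        rw [e3, hS.T_sum hl Finset.univ (f := fun i z x => ∑ k,
          (dd S l i z * dd S l k z) * ss i k x) fun i _ => Nh.sum _ fun k _ => hN3 i k]
        refine Finset.sum_congr rfl fun i _ => ?_
        rw [hS.T_sum hl Finset.univ (f := fun k z x => (dd S l i z * dd S l k z) * ss i k x)
          fun k _ => hN3 i k]
        refine Finset.sum_congr rfl fun k _ => ?_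
        rw [T_mul_left S (lc_dep_mul (dep_dd S l i) (dep_dd S l k))]
      rw [h4, h5] at h3
      exact h3
    -- Cauchy-Schwarz
    have h6 : (∑ i, ∑ k, dd S l i z * dd S l k z * S.T l (fun _ x => ss i k x) z) ^ 2 ≤
        s ^ 2 * ∑ i, ∑ k, S.T l (fun _ x => ss i k x) z ^ 2 := by
      have h7 := Finset.sum_mul_sq_le_sq_mul_sq (Finset.univ ×ˢ Finset.univ)
        (fun p : Fin n × Fin n => dd S l p.1 z * dd S l p.2 z)
        (fun p : Fin n × Fin n => S.T l (fun _ x => ss p.1 p.2 x) z)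
      rw [Finset.sum_product, Finset.sum_product, Finset.sum_product] at h7
      simp only at h7
      rw [h1] at h7
      exact h7
    rw [h1]
    have hs0 : 0 ≤ s := Finset.sum_nonneg fun i _ => sq_nonneg _
    set A := ∑ i, ∑ k, dd S l i z * dd S l k z * S.T l (fun _ x => ss i k x) z with hA
    set B := ∑ i, ∑ k, S.T l (fun _ x => ss i k x) z ^ 2 with hB
    have hB0 : 0 ≤ B := Finset.sum_nonneg fun i _ => Finset.sum_nonneg fun k _ => sq_nonneg _
    by_contra hcon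
    rw [not_le] at hcon
    have h8 : (s ^ 2) ^ 2 ≤ A ^ 2 := pow_le_pow_left₀ (sq_nonneg _) h2 2
    have h9 : 0 < s ^ 2 := lt_of_le_of_lt hB0 hcon
    nlinarith
  have hy : ∀ i k, |S.Ex (fun z _ => dd S l i z * dd S l k z *
      S.T j (fun _ x => ss i k x) z)| ≤
      1 / 2 * S.Ex (fun z _ => (dd S l i z * dd S l k z) ^ 2) +
      1 / 2 * S.Ex (fun z _ => S.T j (fun _ x => ss i k x) z ^ 2) := fun i k => by
    have h1 := Ex_young hS (hDD i k) (hC i k) one_pos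
    simpa using h1
  have hj2 : ∀ i k, S.Ex (fun z _ => S.T j (fun _ x => ss i k x) z ^ 2) ≤
      S.Ex (fun z _ => S.T l (fun _ x => ss i k x) z ^ 2) := fun i k =>
    Ex_T_sq_mono hS hjl hl (Nh.snd _)
  unfold tj Tt
  rw [abs_mul, abs_of_pos (by positivity : (0 : ℝ) < 1 / n ^ 2)]
  refine mul_le_mul_of_nonneg_left ?_ (by positivity)
  have h1 : |∑ i, ∑ k, S.Ex (fun z _ => dd S l i z * dd S l k z *
      S.T j (fun _ x => ss i k x) z)| ≤ ∑ i, ∑ k,
      (1 / 2 * S.Ex (fun z _ => (dd S l i z * dd S l k z) ^ 2) +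
      1 / 2 * S.Ex (fun z _ => S.T l (fun _ x => ss i k x) z ^ 2)) := by
    refine (Finset.abs_sum_le_sum_abs _ _).trans (Finset.sum_le_sum fun i _ => ?_)
    refine (Finset.abs_sum_le_sum_abs _ _).trans (Finset.sum_le_sum fun k _ => ?_)
    have h2 := hy i k
    have h3 := hj2 i k
    linarith
  refine h1.trans ?_
  simp only [Finset.sum_add_distrib, ← Finset.mul_sum]
  linarith

end mom

end Vale.Agent.P146.H379.Row
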