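import Vale.Agent.P146.H379.RowD
import Vale.Agent.P146.H985.Exch

/-!
# P146, two-sided first chaos: the assembly (helper379)

`c1 l i = ∑_(e in the row of i, levels ≤ l) ∫ (PA_i ∂_e (e^(VL/2) T_l x_i))²`, the first chaos of
the row of `i`. Its average over the sites is
`β² V2 - β² (2 m_(l+1) - m_l) χ t_l` up to the influences, the fields and the deviations of `X_l`.
-/

open MeasureTheory ProbabilityTheory

namespace Vale.Agent.P146.H379.Row

open Vale.Agent.P157 Vale.Agent.P157.Lv Vale.Agent.P157.Lv.Sy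
open Vale.Agent.P146.H425 Vale.Agent.P146.H946 Vale.Agent.P146.H985
open Vale.Agent.P146.H93 Vale.Agent.P146.H325

set_option linter.unusedSectionVars false

section asm

variable {n K : ℕ} {m : ℕ → ℝ}

/-- `e^(VL/2) D_i Q_ik` -/
noncomputable def WW (S : Sy (Cd n K) (Fin n → ℤˣ)) (l q : ℕ) (i k : Fin n)
    (z : Cd n K → ℝ) : ℝ :=
  Real.exp (VL S l z / 2) * (dd S l i z * Qe S l q (ss i k) z)

/-- a bond of the row -/
noncomputable def Bk (S : Sy (Cd n K) (Fin n → ℤˣ)) (l q : ℕ) (i k : Fin n) : ℝ :=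
  ∫ z, PA (rwl K i l) (fun z => FF S l i k z - WW S l q i k z) z ^ 2 ∂(gI (Cd n K))

/-- the field of the row -/
noncomputable def Fk (S : Sy (Cd n K) (Fin n → ℤˣ)) (l q : ℕ) (i : Fin n) : ℝ :=
  ∫ z, PA (rwl K i l) (fun z => Real.exp (VL S l z / 2) * (Vf S l i (fun _ => 1) z -
    dd S l i z * Qe S l q (fun x => sp x i) z)) z ^ 2 ∂(gI (Cd n K))

/-- **the first chaos of the row of `i` of `e^(VL/2) T_l x_i`** -/
noncomputable def c1 (K : ℕ) (m b w : ℕ → ℝ) (l : ℕ) (i : Fin n) : ℝ :=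
  ∑ e ∈ rwl K i l, ∫ z, PA (rwl K i l) (gD m b w l i e) z ^ 2 ∂(gI (Cd n K))

/-- a sum over the other sites -/
lemma sum_ne (i : Fin n) (F : Fin n → ℝ) :
    ∑ j : {j : Fin n // j ≠ i}, F j.1 = ∑ k, if k ≠ i then F k else 0 := by
  rw [← Finset.sum_filter]
  exact (Finset.sum_subtype (Finset.univ.filter fun k => k ≠ i) (fun x => by simp) F).symm

lemma int_PA_const (A : Finset (Cd n K)) (c : ℝ) (F : (Cd n K → ℝ) → ℝ) :
    ∫ z, PA A (fun z => c * F z) z ^ 2 ∂(gI (Cd n K)) =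
      c ^ 2 * ∫ z, PA A F z ^ 2 ∂(gI (Cd n K)) := by
  rw [← integral_const_mul]
  congr 1
  funext z
  have h1 : PA A (fun z => c * F z) z = c * PA A F z := J_const_mul c F z
  rw [h1, mul_pow]

theorem c1_eq (b w : ℕ → ℝ) {l : ℕ} (hl : l ≤ K) (i : Fin n) :
    c1 K m b w l i = ∑ q : Fin l, (b (q + 1) ^ 2 *
      (∑ k, if k ≠ i then Bk (skS n K m b w) l (q + 1) i k else 0) +
        w (q + 1) ^ 2 * Fk (skS n K m b w) l (q + 1) i) := by
  unfold c1
  rw [sum_rwl i hl]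
  refine Finset.sum_congr rfl fun q _ => ?_
  have hq : ((Fin.castLE hl q : Fin K) : ℕ) = q := rfl
  rw [← sum_ne, Finset.mul_sum]
  congr 1
  · refine Finset.sum_congr rfl fun j _ => ?_
    have e1 : gD m b w l i ((Sum.inl (bnd i j.1 j.2.symm), Fin.castLE hl q) : Cd n K) =
        fun z => b (q + 1) * (FF (skS n K m b w) l i j.1 z -
          WW (skS n K m b w) l (q + 1) i j.1 z) := by
      funext z
      have h1 : (fun x : Fin n → ℤˣ => sp x i * st (Sum.inl (bnd i j.1 j.2.symm)) x) =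
          fun x => sp x j.1 := by
        funext x
        show sp x i * SkS (bnd i j.1 j.2.symm) x = _
        rw [SkS_bnd, ← mul_assoc, sp_mul_self, one_mul]
      have h2 : st (Sum.inl (bnd i j.1 j.2.symm) : Pair n ⊕ Fin n) = ss i j.1 := by
        funext x
        exact SkS_bnd _ _ _ _
      unfold gD FF WW
      rw [h1, h2, hq]
      rfl
    rw [e1, int_PA_const]
    rfl
  · have e1 : gD m b w l i ((Sum.inr i, Fin.castLE hl q) : Cd n K) =
        fun z => w (q + 1) * (Real.exp (VL (skS n K m b w) l z / 2) *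
          (Vf (skS n K m b w) l i (fun _ => 1) z -
            dd (skS n K m b w) l i z * Qe (skS n K m b w) l (q + 1) (fun x => sp x i) z)) := by
      funext z
      have h1 : (fun x : Fin n → ℤˣ => sp x i * st (Sum.inr i : Pair n ⊕ Fin n) x) =
          fun _ => 1 := by
        funext x
        show sp x i * sp x i = _
        rw [sp_mul_self]
      have h2 : st (Sum.inr i : Pair n ⊕ Fin n) = fun x => sp x i := rfl
      unfold gD
      rw [h1, h2, hq, ← mul_sub]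
      rfl
    rw [e1, int_PA_const]
    rfl

variable {S : Sy (Cd n K) (Fin n → ℤˣ)} {l : ℕ}

lemma eg_WW (hS : S.Reg) (hl : l ≤ S.K) (q : ℕ) (i k : Fin n) : EG (WW S l q i k) :=
  (eg_expV hS hl).mul ((eg_dd hS hl i).mul (eg_Qe hS hl q _))

lemma eg_dQ (hS : S.Reg) (hl : l ≤ S.K) (q : ℕ) (i k : Fin n) :
    EG fun z => dd S l i z * Qe S l q (ss i k) z := (eg_dd hS hl i).mul (eg_Qe hS hl q _)

lemma dep_dQ (S : Sy (Cd n K) (Fin n → ℤˣ)) (l q : ℕ) (i k : Fin n) :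
    Dep S.lev l fun z => dd S l i z * Qe S l q (ss i k) z :=
  lc_dep_mul (dep_dd S l i) (dep_Qe S l q _)

lemma int_WW_sq (hS : S.Reg) (hl : l ≤ S.K) (q : ℕ) (i k : Fin n) :
    ∫ z, WW S l q i k z ^ 2 ∂(gI (Cd n K)) =
      S.Ex (fun z _ => (dd S l i z * Qe S l q (ss i k) z) ^ 2) :=
  int_expV_sq hS hl (eg_dQ hS hl q i k) (dep_dQ S l q i k)

lemma int_FW (hS : S.Reg) (hl : l ≤ S.K) (q : ℕ) (i k : Fin n) :
    ∫ z, FF S l i k z * WW S l q i k z ∂(gI (Cd n K)) =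
      S.Ex (fun z _ => Vf S l i (fun x => sp x k) z * (dd S l i z * Qe S l q (ss i k) z)) :=
  int_expV hS hl (eg_Vf hS hl i _) (eg_dQ hS hl q i k) (dep_Vf S l i _) (dep_dQ S l q i k)

lemma abs_dQ_le (hS : S.Reg) (hl : l ≤ S.K) (q : ℕ) (i : Fin n) {f : (Fin n → ℤˣ) → ℝ}
    (hf : ∀ x, |f x| ≤ 1) (z : Cd n K → ℝ) : |dd S l i z * Qe S l q f z| ≤ 2 := by
  have h1 := abs_dd_le hS hl i z
  have h2 := abs_Qe_le hS hl q hf z
  have h3 := hS.m_le_one (l := l + 1) (by omega)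
  rw [abs_mul]
  calc _ ≤ 1 * (2 : ℝ) := mul_le_mul h1 (by linarith) (abs_nonneg _) zero_le_one
    _ = 2 := one_mul _

lemma sq_le16 {a c : ℝ} (h1 : |a| ≤ 2) (h2 : |c| ≤ 2) : (a - c) ^ 2 ≤ 16 := by
  obtain ⟨h3, h4⟩ := abs_le.1 h1
  obtain ⟨h5, h6⟩ := abs_le.1 h2
  nlinarith

lemma Bk_nonneg (q : ℕ) (i k : Fin n) : 0 ≤ Bk S l q i k := integral_nonneg fun _ => sq_nonneg _
lemma Fk_nonneg (q : ℕ) (i : Fin n) : 0 ≤ Fk S l q i := integral_nonneg fun _ => sq_nonneg _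

lemma Bk_le (hS : S.Reg) (hl : l ≤ S.K) (q : ℕ) (i k : Fin n) : Bk S l q i k ≤ 16 := by
  have h1 := PA.sq_le ((eg_FF hS hl i k).sub (eg_WW hS hl q i k)) (rwl K i l)
  refine h1.trans ?_
  have e1 : ∀ z, FF S l i k z - WW S l q i k z = Real.exp (VL S l z / 2) *
      (Vf S l i (fun x => sp x k) z - dd S l i z * Qe S l q (ss i k) z) := fun z => by
    unfold FF WW
    ring
  simp only [e1]
  rw [int_expV_sq hS hl ((eg_Vf hS hl i _).sub (eg_dQ hS hl q i k)) (fun z w' => by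
    simp only [dep_Vf S l i _ z w', dep_dd S l i z w', dep_Qe S l q _ z w'])]
  refine Ex_le_const hS (Nh.pow (Nh.fst ((eg_Vf hS hl i _).sub (eg_dQ hS hl q i k))) 2)
    fun z _ => ?_
  exact sq_le16 (abs_V_le hS hl i k z) (abs_dQ_le hS hl q i (fun x => abs_ss i k x) z)

lemma Fk_le (hS : S.Reg) (hl : l ≤ S.K) (q : ℕ) (i : Fin n) : Fk S l q i ≤ 16 := by
  have eQ : EG fun z => dd S l i z * Qe S l q (fun x => sp x i) z :=
    (eg_dd hS hl i).mul (eg_Qe hS hl q _)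
  have h1 := PA.sq_le ((eg_expV hS hl).mul ((eg_Vf hS hl i (fun _ => 1)).sub eQ)) (rwl K i l)
  refine h1.trans ?_
  rw [int_expV_sq hS hl ((eg_Vf hS hl i _).sub eQ) (fun z w' => by
    simp only [dep_Vf S l i _ z w', dep_dd S l i z w', dep_Qe S l q _ z w'])]
  refine Ex_le_const hS (Nh.pow (Nh.fst ((eg_Vf hS hl i _).sub eQ)) 2) fun z _ => ?_
  exact sq_le16 (abs_Vf_le hS hl i (fun x => by rw [abs_one]) z)
    (abs_dQ_le hS hl q i (fun x => (abs_sp x i).le) z)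

/-- one bond -/
lemma bond (hS : S.Reg) (hl : l ≤ S.K) (q : ℕ) {t : ℝ} (ht : 0 < t) (i k : Fin n) :
    |Bk S l q i k - (Gk S l i k - 2 * S.Ex (fun z _ => Vf S l i (fun x => sp x k) z *
      (dd S l i z * Qe S l q (ss i k) z)))| ≤
      t * (if k ≠ i then Ow S l i k else 0) +
        (1 + 1 / t) * S.Ex (fun z _ => (dd S l i z * Qe S l q (ss i k) z) ^ 2) +
        (if k = i then 28 else 0) := by
  have hN : Nh (X := Fin n → ℤˣ) fun z _ => dd S l i z * Qe S l q (ss i k) z :=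
    Nh.fst (eg_dQ hS hl q i k)
  have h0 : 0 ≤ S.Ex (fun z _ => (dd S l i z * Qe S l q (ss i k) z) ^ 2) :=
    Ex_nn hS (Nh.pow hN 2) fun z x => sq_nonneg _
  by_cases hk : k = i
  · rw [if_pos hk, if_neg (not_not.2 hk), mul_zero, zero_add]
    have h1 := Bk_le hS hl q i k
    have h2 := Bk_nonneg (S := S) (l := l) q i k
    have h3 := Gk_le hS hl i k
    have h4 := Gk_nonneg (S := S) (l := l) i k
    have h5 : |S.Ex (fun z _ => Vf S l i (fun x => sp x k) z *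
        (dd S l i z * Qe S l q (ss i k) z))| ≤ 4 := by
      refine abs_Ex_le_const hS (Nh.mul (Nh.fst (eg_Vf hS hl i _)) hN) fun z x => ?_
      rw [abs_mul]
      calc _ ≤ (2 : ℝ) * 2 := mul_le_mul (abs_V_le hS hl i k z)
            (abs_dQ_le hS hl q i (fun x => abs_ss i k x) z) (abs_nonneg _) zero_le_two
        _ = 4 := by norm_num
    have h6 : 0 ≤ (1 + 1 / t) *
        S.Ex (fun z _ => (dd S l i z * Qe S l q (ss i k) z) ^ 2) := by positivity
    obtain ⟨h7, h8⟩ := abs_le.1 h5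
    rw [abs_le]
    constructor <;> linarith
  · have h1 := sub_main (A := rwl K i l) (eg_FF hS hl i k) (eg_WW hS hl q i k) ht
    rw [int_FW hS hl, int_WW_sq hS hl] at h1
    rw [if_neg hk, if_pos hk, add_zero]
    exact h1

/-- `1/n² ∑_ik Ex (D_i Q_ik)²` -/
noncomputable def Wq (S : Sy (Cd n K) (Fin n → ℤˣ)) (l q : ℕ) : ℝ :=
  1 / n ^ 2 * ∑ i, ∑ k, S.Ex (fun z _ => (dd S l i z * Qe S l q (ss i k) z) ^ 2)

/-- `1/n² ∑_ik Ex (V_ik D_i Q_ik)` -/
noncomputable def Cq (S : Sy (Cd n K) (Fin n → ℤˣ)) (l q : ℕ) : ℝ :=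
  1 / n ^ 2 * ∑ i, ∑ k, S.Ex (fun z _ => Vf S l i (fun x => sp x k) z *
    (dd S l i z * Qe S l q (ss i k) z))

/-- `1/n² ∑_ik Ex (D_k D_i Q_ik)` -/
noncomputable def Yq (S : Sy (Cd n K) (Fin n → ℤˣ)) (l q : ℕ) : ℝ :=
  1 / n ^ 2 * ∑ i, ∑ k, S.Ex (fun z _ => dd S l k z * (dd S l i z * Qe S l q (ss i k) z))

/-- `1/n² ∑_ik Ex (V_ik - χ D_k)²` -/
noncomputable def Xi (S : Sy (Cd n K) (Fin n → ℤˣ)) (l : ℕ) (χ : ℝ) : ℝ :=
  1 / n ^ 2 * ∑ i, ∑ k, S.Ex (fun z _ => (Vf S l i (fun x => sp x k) z - χ * dd S l k z) ^ 2)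

lemma Wq_nonneg (hS : S.Reg) (hl : l ≤ S.K) (q : ℕ) : 0 ≤ Wq S l q := by
  unfold Wq
  refine mul_nonneg (by positivity) (Finset.sum_nonneg fun i _ => Finset.sum_nonneg fun k _ => ?_)
  exact Ex_nn hS (Nh.pow (Nh.fst (eg_dQ hS hl q i k)) 2) fun z x => sq_nonneg _

lemma Wq_le (hS : S.Reg) (hl : l ≤ S.K) (q : ℕ) :
    Wq S l q ≤ 4 * S.m (l + 1) ^ 2 * Tt S l := by
  unfold Wq Tt
  have h1 : ∀ i k, S.Ex (fun z _ => (dd S l i z * Qe S l q (ss i k) z) ^ 2) ≤
      4 * S.m (l + 1) ^ 2 * S.Ex (fun z _ => S.T l (fun _ x => ss i k x) z ^ 2) := fun i k => by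
    refine le_trans ?_ (Ex_Qe_sq hS hl q (ss i k))
    refine hS.Ex_mono (Nh.pow (Nh.fst (eg_dQ hS hl q i k)) 2)
      (Nh.pow (Nh.fst (eg_Qe hS hl q _)) 2) fun z _ => ?_
    rw [mul_pow]
    have h2 := sq_le_of_abs (abs_dd_le hS hl i z)
    rw [one_pow] at h2
    calc dd S l i z ^ 2 * Qe S l q (ss i k) z ^ 2 ≤ 1 * Qe S l q (ss i k) z ^ 2 :=
          mul_le_mul_of_nonneg_right h2 (sq_nonneg _)
      _ = _ := one_mul _
  have h2 : ∑ i, ∑ k, S.Ex (fun z _ => (dd S l i z * Qe S l q (ss i k) z) ^ 2) ≤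
      ∑ i, ∑ k, 4 * S.m (l + 1) ^ 2 * S.Ex (fun z _ => S.T l (fun _ x => ss i k x) z ^ 2) :=
    Finset.sum_le_sum fun i _ => Finset.sum_le_sum fun k _ => h1 i k
  simp only [← Finset.mul_sum] at h2
  calc _ ≤ 1 / (n : ℝ) ^ 2 * (4 * S.m (l + 1) ^ 2 *
        ∑ i, ∑ k, S.Ex (fun z _ => S.T l (fun _ x => ss i k x) z ^ 2)) :=
        mul_le_mul_of_nonneg_left h2 (by positivity)
    _ = _ := by ring

lemma sum_diag (c : ℝ) : ∑ i : Fin n, ∑ k : Fin n, (if k = i then c else 0) = n * c := by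
  simp only [Finset.sum_ite_eq', Finset.mem_univ, if_true, Finset.sum_const, Finset.card_univ,
    Fintype.card_fin, nsmul_eq_mul]

/-- all bonds of one level -/
lemma bonds (hS : S.Reg) (hn : 0 < n) (hl : l ≤ S.K) (q : ℕ) {t : ℝ} (ht : 0 < t) :
    |1 / n ^ 2 * ∑ i, ∑ k, Bk S l q i k -
      (1 / n ^ 2 * ∑ i, ∑ k, Gk S l i k - 2 * Cq S l q)| ≤
      t * OwS S l + (1 + 1 / t) * Wq S l q + 28 / n := by
  have hn' : (0 : ℝ) < n := by exact_mod_cast hn
  set E : Fin n → Fin n → ℝ := fun i k => S.Ex (fun z _ => Vf S l i (fun x => sp x k) z *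
    (dd S l i z * Qe S l q (ss i k) z)) with hE
  have key : |∑ i, ∑ k, Bk S l q i k - (∑ i, ∑ k, Gk S l i k - 2 * ∑ i, ∑ k, E i k)| ≤
      t * (∑ i, ∑ k, if k ≠ i then Ow S l i k else 0) +
        (1 + 1 / t) * (∑ i, ∑ k, S.Ex (fun z _ => (dd S l i z * Qe S l q (ss i k) z) ^ 2)) +
        n * 28 := by
    have e1 : ∑ i, ∑ k, Bk S l q i k - (∑ i, ∑ k, Gk S l i k - 2 * ∑ i, ∑ k, E i k) =
        ∑ i, ∑ k, (Bk S l q i k - (Gk S l i k - 2 * E i k)) := by
      simp only [Finset.sum_sub_distrib, ← Finset.mul_sum]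
    rw [e1]
    refine (Finset.abs_sum_le_sum_abs _ _).trans ?_
    have h1 : ∀ i ∈ (Finset.univ : Finset (Fin n)),
        |∑ k, (Bk S l q i k - (Gk S l i k - 2 * E i k))| ≤ ∑ k,
        (t * (if k ≠ i then Ow S l i k else 0) +
        (1 + 1 / t) * S.Ex (fun z _ => (dd S l i z * Qe S l q (ss i k) z) ^ 2) +
        (if k = i then 28 else 0)) := fun i _ =>
      (Finset.abs_sum_le_sum_abs _ _).trans
        (Finset.sum_le_sum fun k _ => bond hS hl q ht i k)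
    refine (Finset.sum_le_sum h1).trans (le_of_eq ?_)
    simp only [Finset.sum_add_distrib, ← Finset.mul_sum]
    rw [sum_diag]
  have e2 : 1 / n ^ 2 * ∑ i, ∑ k, Bk S l q i k -
      (1 / n ^ 2 * ∑ i, ∑ k, Gk S l i k - 2 * Cq S l q) =
      1 / n ^ 2 * (∑ i, ∑ k, Bk S l q i k - (∑ i, ∑ k, Gk S l i k - 2 * ∑ i, ∑ k, E i k)) := by
    unfold Cq
    rw [hE]
    ring
  have e3 : t * OwS S l + (1 + 1 / t) * Wq S l q + 28 / n = 1 / n ^ 2 *
      (t * (∑ i, ∑ k, if k ≠ i then Ow S l i k else 0) +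
        (1 + 1 / t) * (∑ i, ∑ k, S.Ex (fun z _ => (dd S l i z * Qe S l q (ss i k) z) ^ 2)) +
        n * 28) := by
    unfold OwS Wq
    field_simp
  rw [e2, e3, abs_mul, abs_of_pos (by positivity : (0 : ℝ) < 1 / n ^ 2)]
  exact mul_le_mul_of_nonneg_left key (by positivity)

/-- the cross term -/
lemma cross (hS : S.Reg) (hl : l ≤ S.K) (q : ℕ) (χ : ℝ) {t : ℝ} (ht : 0 < t) :
    |2 * Cq S l q - χ * (2 * Yq S l q)| ≤ t * Xi S l χ + 1 / t * Wq S l q := by
  have h1 : ∀ i k, |S.Ex (fun z _ => Vf S l i (fun x => sp x k) z *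
      (dd S l i z * Qe S l q (ss i k) z)) -
      χ * S.Ex (fun z _ => dd S l k z * (dd S l i z * Qe S l q (ss i k) z))| ≤
      t / 2 * S.Ex (fun z _ => (Vf S l i (fun x => sp x k) z - χ * dd S l k z) ^ 2) +
      1 / (2 * t) * S.Ex (fun z _ => (dd S l i z * Qe S l q (ss i k) z) ^ 2) := by
    intro i k
    have hN : Nh (X := Fin n → ℤˣ) fun z _ => dd S l i z * Qe S l q (ss i k) z :=
      Nh.fst (eg_dQ hS hl q i k)
    have hV : Nh (X := Fin n → ℤˣ) fun z _ => Vf S l i (fun x => sp x k) z :=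
      Nh.fst (eg_Vf hS hl i _)
    have hD : Nh (X := Fin n → ℤˣ) fun z _ => dd S l k z := Nh.fst (eg_dd hS hl k)
    have h2 := Ex_young hS (Nh.sub hV (Nh.const_mul χ hD)) hN ht
    have e1 : S.Ex (fun z _ => (Vf S l i (fun x => sp x k) z - χ * dd S l k z) *
        (dd S l i z * Qe S l q (ss i k) z)) =
        S.Ex (fun z _ => Vf S l i (fun x => sp x k) z *
          (dd S l i z * Qe S l q (ss i k) z)) -
        χ * S.Ex (fun z _ => dd S l k z * (dd S l i z * Qe S l q (ss i k) z)) := by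
      rw [← Ex_const_mul, ← hS.Ex_sub (Nh.mul hV hN) (Nh.const_mul χ (Nh.mul hD hN))]
      congr 1
      funext z _
      ring
    rw [e1] at h2
    exact h2
  have e2 : 2 * Cq S l q - χ * (2 * Yq S l q) = 1 / n ^ 2 * (2 * ∑ i, ∑ k,
      (S.Ex (fun z _ => Vf S l i (fun x => sp x k) z *
      (dd S l i z * Qe S l q (ss i k) z)) -
      χ * S.Ex (fun z _ => dd S l k z * (dd S l i z * Qe S l q (ss i k) z)))) := by
    unfold Cq Yq
    simp only [Finset.sum_sub_distrib, ← Finset.mul_sum]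
    ring
  have e3 : t * Xi S l χ + 1 / t * Wq S l q = 1 / n ^ 2 * (2 * ∑ i, ∑ k,
      (t / 2 * S.Ex (fun z _ => (Vf S l i (fun x => sp x k) z - χ * dd S l k z) ^ 2) +
      1 / (2 * t) * S.Ex (fun z _ => (dd S l i z * Qe S l q (ss i k) z) ^ 2))) := by
    unfold Xi Wq
    simp only [Finset.sum_add_distrib, ← Finset.mul_sum]
    field_simp
  rw [e2, e3, abs_mul, abs_of_nonneg (by positivity : (0 : ℝ) ≤ 1 / n ^ 2), abs_mul,
    abs_of_pos (zero_lt_two)]
  refine mul_le_mul_of_nonneg_left (mul_le_mul_of_nonneg_left ?_ zero_le_two) (by positivity)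
  refine (Finset.abs_sum_le_sum_abs _ _).trans (Finset.sum_le_sum fun i _ => ?_)
  exact (Finset.abs_sum_le_sum_abs _ _).trans (Finset.sum_le_sum fun k _ => h1 i k)

lemma alg_sum (q : ℕ) (s : Finset ℕ) (p : ℕ → ℝ) {c : ℝ} (A B : Fin n → Fin n → ℝ)
    (T : ℕ → Fin n → Fin n → ℝ)
    (h : ∀ i k, 2 * A i k = c * B i k + ∑ j ∈ s, p j * (if q ≤ j then T j i k else 0)) :
    2 * (1 / (n : ℝ) ^ 2 * ∑ i, ∑ k, A i k) = c * (1 / (n : ℝ) ^ 2 * ∑ i, ∑ k, B i k) +
      ∑ j ∈ s, p j * (if q ≤ j then 1 / (n : ℝ) ^ 2 * ∑ i, ∑ k, T j i k else 0) := by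
  have e1 : 2 * (1 / (n : ℝ) ^ 2 * ∑ i, ∑ k, A i k) =
      1 / (n : ℝ) ^ 2 * ∑ i, ∑ k, (2 * A i k) := by
    simp only [← Finset.mul_sum]
    ring
  have e2 : ∀ j, p j * (if q ≤ j then 1 / (n : ℝ) ^ 2 * ∑ i, ∑ k, T j i k else 0) =
      1 / (n : ℝ) ^ 2 * ∑ i, ∑ k, p j * (if q ≤ j then T j i k else 0) := by
    intro j
    by_cases hq : q ≤ j
    · simp only [hq, if_true, ← Finset.mul_sum]
      ring
    · simp only [hq, if_false, mul_zero, Finset.sum_const_zero]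
  have e3 : ∑ j ∈ s, ∑ i, ∑ k, p j * (if q ≤ j then T j i k else 0) =
      ∑ i, ∑ k, ∑ j ∈ s, p j * (if q ≤ j then T j i k else 0) := by
    rw [Finset.sum_comm]
    exact Finset.sum_congr rfl fun i _ => Finset.sum_comm
  rw [e1]
  simp only [h, e2, Finset.sum_add_distrib]
  rw [← Finset.mul_sum s, e3, mul_add]
  congr 1
  simp only [← Finset.mul_sum]
  ring

/-- the main cross term -/
lemma Yq_eq (hS : S.Reg) (hl : l ≤ S.K) (q : ℕ) :
    2 * Yq S l q = (2 * S.m (l + 1) - S.m l) * tj S l l +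
      ∑ j ∈ Finset.Ico 0 l, S.p j * (if q ≤ j then tj S l j else 0) := by
  have h1 : ∀ i k, 2 * S.Ex (fun z _ => dd S l k z * (dd S l i z * Qe S l q (ss i k) z)) =
      (2 * S.m (l + 1) - S.m l) * S.Ex (fun z _ => dd S l i z * dd S l k z *
        S.T l (fun _ x => ss i k x) z) +
      ∑ j ∈ Finset.Ico 0 l, S.p j * (if q ≤ j then S.Ex (fun z _ => dd S l i z * dd S l k z *
        S.T j (fun _ x => ss i k x) z) else 0) := by
    intro i k
    have hDD : Nh (X := Fin n → ℤˣ) fun z _ => dd S l i z * dd S l k z :=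
      Nh.mul (Nh.fst (eg_dd hS hl i)) (Nh.fst (eg_dd hS hl k))
    have hT : ∀ j ≤ l, Nh (X := Fin n → ℤˣ) fun z _ => dd S l i z * dd S l k z *
        S.T j (fun _ x => ss i k x) z := fun j hj =>
      Nh.mul hDD (Nh.fst (hS.eg_T (hj.trans hl) (Nh.snd _)))
    have hTj : ∀ j ∈ Finset.Ico 0 l, Nh (X := Fin n → ℤˣ) fun z _ => S.p j *
        (if q ≤ j then dd S l i z * dd S l k z * S.T j (fun _ x => ss i k x) z else 0) := by
      intro j hj
      rw [Finset.mem_Ico] at hj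
      by_cases hq : q ≤ j
      · simp only [hq, if_true]
        exact Nh.const_mul _ (hT j (by omega))
      · simp only [hq, if_false]
        exact Nh.const_mul _ (fun _ => EG.const 0)
    have e1 : ∀ j, (if q ≤ j then S.Ex (fun z _ => dd S l i z * dd S l k z *
        S.T j (fun _ x => ss i k x) z) else 0) = S.Ex (fun z _ =>
        if q ≤ j then dd S l i z * dd S l k z * S.T j (fun _ x => ss i k x) z else 0) := by
      intro j
      by_cases hq : q ≤ j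
      · simp only [hq, if_true]
      · simp only [hq, if_false]
        rw [hS.Ex_const]
    simp only [e1]
    have e2 : ∑ j ∈ Finset.Ico 0 l, S.p j * S.Ex (fun z _ =>
        if q ≤ j then dd S l i z * dd S l k z * S.T j (fun _ x => ss i k x) z else 0) =
        S.Ex (fun z _ => ∑ j ∈ Finset.Ico 0 l, S.p j *
          (if q ≤ j then dd S l i z * dd S l k z * S.T j (fun _ x => ss i k x) z else 0)) := by
      rw [hS.Ex_sum _ (f := fun j z _ => S.p j *
        (if q ≤ j then dd S l i z * dd S l k z * S.T j (fun _ x => ss i k x) z else 0)) hTj]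
      refine Finset.sum_congr rfl fun j _ => ?_
      rw [Ex_const_mul]
    rw [e2, ← Ex_const_mul, ← Ex_const_mul,
      ← hS.Ex_add (Nh.const_mul _ (hT l le_rfl)) (Nh.sum _ hTj)]
    congr 1
    funext z _
    unfold Qe Rm
    have e3 : ∑ j ∈ Finset.Ico 0 l, S.p j * (if q ≤ j then dd S l i z * dd S l k z *
        S.T j (fun _ x => ss i k x) z else 0) = dd S l i z * dd S l k z *
        ∑ j ∈ Finset.Ico 0 l, S.p j * (if q ≤ j then S.T j (fun _ x => ss i k x) z else 0) := by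
      rw [Finset.mul_sum]
      refine Finset.sum_congr rfl fun j _ => ?_
      split_ifs <;> ring
    rw [e3]
    ring
  exact alg_sum q (Finset.Ico 0 l) S.p (fun i k => S.Ex (fun z _ => dd S l k z *
      (dd S l i z * Qe S l q (ss i k) z)))
    (fun i k => S.Ex (fun z _ => dd S l i z * dd S l k z * S.T l (fun _ x => ss i k x) z))
    (fun j i k => S.Ex (fun z _ => dd S l i z * dd S l k z * S.T j (fun _ x => ss i k x) z)) h1

end asm

end Vale.Agent.P146.H379.Row
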