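import Vale.Agent.P146.H379.RowE

/-!
# P146: the two-sided first chaos of the rows of the SK system (helper379)

`skS n K m b w`, any level `l ≤ K`. The average over the sites of the first chaos of the row is
`β² (χ² ρ_l - χ (2 m_(l+1) - m_l) t_l)` with `β² = ∑_(q ≤ l) n b_q²`, up to the fields (between `0`
and `16 ∑_(q ≤ l) w_q²`) and an explicit error.
-/

open MeasureTheory ProbabilityTheory

namespace Vale.Agent.P146.H379.Row

open Vale.Agent.P157 Vale.Agent.P157.Lv Vale.Agent.P157.Lv.Sy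
open Vale.Agent.P146.H425 Vale.Agent.P146.H946 Vale.Agent.P146.H985
open Vale.Agent.P146.H93 Vale.Agent.P146.H325

set_option linter.unusedSectionVars false

section fin

variable {ι : Type} [Fintype ι] [DecidableEq ι] {n : ℕ} {S : Sy ι (Fin n → ℤˣ)} {l : ℕ}

/-- `1/n ∑_k Ex (T_l (x_k X_l) - χ D_k)²` -/
noncomputable def H2 (S : Sy ι (Fin n → ℤˣ)) (l : ℕ) (χ : ℝ) : ℝ :=
  1 / n * ∑ k, S.Ex (fun z _ => (Vb S l k z - χ * dd S l k z) ^ 2)

/-- `Ex (u_l (X_l - χ))` -/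
noncomputable def He (S : Sy ι (Fin n → ℤˣ)) (l : ℕ) (χ : ℝ) : ℝ :=
  S.Ex (fun z x => Fld.uu S sp l z x * (Xl S l z x - χ))

/-- `1/n ∑_i Ex D_i²` -/
noncomputable def rho (S : Sy ι (Fin n → ℤˣ)) (l : ℕ) : ℝ :=
  1 / n * ∑ i, S.Ex (fun z _ => dd S l i z ^ 2)

lemma rho_eq_Rl (hS : S.Reg) (hl : l ≤ S.K) : rho S l = S.Rl sp l := by
  unfold rho Sy.Rl
  rw [hS.Ex_sum Finset.univ (f := fun i z _ => S.mg sp l i z ^ 2) fun i _ =>
    Nh.pow (Nh.fst (eg_dd hS hl i)) 2]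
  rfl

lemma H2_nonneg (hS : S.Reg) (hl : l ≤ S.K) (χ : ℝ) : 0 ≤ H2 S l χ := by
  unfold H2
  refine mul_nonneg (by positivity) (Finset.sum_nonneg fun k _ => ?_)
  exact Ex_nn hS (Nh.pow (Nh.sub (Nh.fst (eg_Vb hS hl k))
    (Nh.const_mul χ (Nh.fst (eg_dd hS hl k)))) 2) fun z x => sq_nonneg _

/-- the decomposition of `V2` -/
theorem V2_eq (hS : S.Reg) (hl : l ≤ S.K) (χ : ℝ) :
    V2 S l = χ ^ 2 * rho S l + 2 * χ * He S l χ + H2 S l χ := by
  have hV : ∀ k, Nh (X := Fin n → ℤˣ) fun z _ => Vb S l k z := fun k =>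
    Nh.fst (eg_Vb hS hl k)
  have hD : ∀ k, Nh (X := Fin n → ℤˣ) fun z _ => dd S l k z := fun k =>
    Nh.fst (eg_dd hS hl k)
  -- `Ex (D_k Vb_k) = Ex (D_k x_k X)`
  have h1 : ∀ k, S.Ex (fun z _ => dd S l k z * Vb S l k z) =
      S.Ex (fun z x => dd S l k z * (sp x k * Xl S l z x)) := fun k =>
    hS.Ex_mul_T hl (dep_dd S l k) (eg_dd hS hl k) (nh_xX hS l k)
  have h2 : ∀ k, S.Ex (fun z x => dd S l k z * sp x k) = S.Ex (fun z _ => dd S l k z ^ 2) :=
    fun k => by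
      rw [← hS.Ex_mul_T hl (dep_dd S l k) (eg_dd hS hl k) (nh_sp k)]
      congr 1
      funext z _
      rw [sq]
      rfl
  have hNk : ∀ k, Nh fun (z : ι → ℝ) (x : Fin n → ℤˣ) =>
      dd S l k z * (sp x k * Xl S l z x) := fun k => Nh.mul (hD k) (nh_xX hS l k)
  have hNk' : ∀ k, Nh fun (z : ι → ℝ) (x : Fin n → ℤˣ) => dd S l k z * sp x k := fun k =>
    Nh.mul (hD k) (nh_sp k)
  have h3 : He S l χ = 1 / n * ∑ k, (S.Ex (fun z _ => dd S l k z * Vb S l k z) -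
      χ * S.Ex (fun z _ => dd S l k z ^ 2)) := by
    unfold He
    have e1 : (fun (z : ι → ℝ) (x : Fin n → ℤˣ) => Fld.uu S sp l z x * (Xl S l z x - χ)) =
        fun z x => 1 / n * ∑ k, (dd S l k z * (sp x k * Xl S l z x) -
          χ * (dd S l k z * sp x k)) := by
      funext z x
      unfold Fld.uu
      rw [mul_assoc, Finset.sum_mul]
      congr 1
      refine Finset.sum_congr rfl fun k _ => ?_
      show dd S l k z * sp x k * _ = _
      ring
    rw [e1, Ex_const_mul, hS.Ex_sum Finset.univ (f := fun k z x =>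
      dd S l k z * (sp x k * Xl S l z x) - χ * (dd S l k z * sp x k)) fun k _ =>
      Nh.sub (hNk k) (Nh.const_mul χ (hNk' k))]
    congr 1
    refine Finset.sum_congr rfl fun k _ => ?_
    rw [hS.Ex_sub (hNk k) (Nh.const_mul χ (hNk' k)), Ex_const_mul, h1, h2]
  have h4 : ∀ k, S.Ex (fun z _ => Vb S l k z ^ 2) = χ ^ 2 * S.Ex (fun z _ => dd S l k z ^ 2) +
      2 * χ * (S.Ex (fun z _ => dd S l k z * Vb S l k z) -
        χ * S.Ex (fun z _ => dd S l k z ^ 2)) +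
      S.Ex (fun z _ => (Vb S l k z - χ * dd S l k z) ^ 2) := by
    intro k
    have e1 : (fun (z : ι → ℝ) (_ : Fin n → ℤˣ) => (Vb S l k z - χ * dd S l k z) ^ 2) =
        fun z _ => (Vb S l k z ^ 2 - 2 * χ * (dd S l k z * Vb S l k z)) +
          χ ^ 2 * dd S l k z ^ 2 := by
      funext z _
      ring
    rw [e1, hS.Ex_add (Nh.sub (Nh.pow (hV k) 2) (Nh.const_mul _ (Nh.mul (hD k) (hV k))))
      (Nh.const_mul _ (Nh.pow (hD k) 2)),
      hS.Ex_sub (Nh.pow (hV k) 2) (Nh.const_mul _ (Nh.mul (hD k) (hV k))), Ex_const_mul,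
      Ex_const_mul]
    ring
  rw [h3]
  unfold V2 rho H2
  simp only [h4, Finset.sum_add_distrib, ← Finset.mul_sum]
  ring

/-- `t_l = Ex u_l²` -/
theorem tj_self (hS : S.Reg) (hl : l ≤ S.K) :
    tj S l l = S.Ex (fun z x => Fld.uu S sp l z x ^ 2) := by
  have hDD : ∀ i k, Nh (X := Fin n → ℤˣ) fun z _ => dd S l i z * dd S l k z := fun i k =>
    Nh.mul (Nh.fst (eg_dd hS hl i)) (Nh.fst (eg_dd hS hl k))
  have hN : ∀ i k, Nh fun (z : ι → ℝ) (x : Fin n → ℤˣ) =>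
      dd S l i z * dd S l k z * ss i k x := fun i k => Nh.mul (hDD i k) (Nh.snd _)
  have e1 : (fun (z : ι → ℝ) (x : Fin n → ℤˣ) => Fld.uu S sp l z x ^ 2) =
      fun z x => 1 / n ^ 2 * ∑ i, ∑ k, dd S l i z * dd S l k z * ss i k x := by
    funext z x
    unfold Fld.uu
    rw [mul_pow, sq (∑ a, _), Finset.sum_mul_sum]
    congr 1
    · rw [div_pow, one_pow]
    · refine Finset.sum_congr rfl fun i _ => Finset.sum_congr rfl fun k _ => ?_
      show dd S l i z * sp x i * (dd S l k z * sp x k) = _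
      unfold ss
      ring
  rw [e1, Ex_const_mul, hS.Ex_sum Finset.univ (f := fun i z x => ∑ k,
    dd S l i z * dd S l k z * ss i k x) fun i _ => Nh.sum _ fun k _ => hN i k]
  unfold tj
  congr 1
  refine Finset.sum_congr rfl fun i _ => ?_
  rw [hS.Ex_sum Finset.univ (f := fun k z x => dd S l i z * dd S l k z * ss i k x)
    fun k _ => hN i k]
  refine Finset.sum_congr rfl fun k _ => ?_
  exact hS.Ex_mul_T hl (lc_dep_mul (dep_dd S l i) (dep_dd S l k))
    ((eg_dd hS hl i).mul (eg_dd hS hl k)) (Nh.snd fun x => ss i k x)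

end fin

section asm

variable {n K : ℕ} {m : ℕ → ℝ}

/-- `Xi` -/
lemma Xi_eq {S : Sy (Cd n K) (Fin n → ℤˣ)} {l : ℕ} (hS : S.Reg) (hn : 0 < n) (hl : l ≤ S.K)
    (χ : ℝ) : Xi S l χ = 1 / n ^ 2 * ∑ i, ∑ k,
      S.Ex (fun z _ => Vf S l i (fun x => sp x k) z ^ 2) - V2 S l + H2 S l χ := by
  have hn' : (n : ℝ) ≠ 0 := by exact_mod_cast hn.ne'
  have hN : ∀ i k, Nh (X := Fin n → ℤˣ) fun z _ => Vf S l i (fun x => sp x k) z := fun i k =>
    Nh.fst (eg_Vf hS hl i _)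
  have hD : ∀ k, Nh (X := Fin n → ℤˣ) fun z _ => dd S l k z := fun k =>
    Nh.fst (eg_dd hS hl k)
  have hV : ∀ k, Nh (X := Fin n → ℤˣ) fun z _ => Vb S l k z := fun k =>
    Nh.fst (eg_Vb hS hl k)
  have h1 : ∀ k, ∑ i, S.Ex (fun z _ => (Vf S l i (fun x => sp x k) z - χ * dd S l k z) ^ 2) =
      ∑ i, S.Ex (fun z _ => Vf S l i (fun x => sp x k) z ^ 2) -
        n * S.Ex (fun z _ => Vb S l k z ^ 2) +
        n * S.Ex (fun z _ => (Vb S l k z - χ * dd S l k z) ^ 2) := by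
    intro k
    have n1 : ∀ i ∈ (Finset.univ : Finset (Fin n)), Nh (X := Fin n → ℤˣ) fun z _ =>
        (Vf S l i (fun x => sp x k) z - χ * dd S l k z) ^ 2 := fun i _ =>
      Nh.pow (Nh.sub (hN i k) (Nh.const_mul χ (hD k))) 2
    have n2 : ∀ i ∈ (Finset.univ : Finset (Fin n)), Nh (X := Fin n → ℤˣ) fun z _ =>
        Vf S l i (fun x => sp x k) z ^ 2 := fun i _ => Nh.pow (hN i k) 2
    rw [← hS.Ex_sum _ (f := fun i z _ => (Vf S l i (fun x => sp x k) z - χ * dd S l k z) ^ 2) n1,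
      ← hS.Ex_sum _ (f := fun i z _ => Vf S l i (fun x => sp x k) z ^ 2) n2,
      ← Ex_const_mul, ← Ex_const_mul,
      ← hS.Ex_sub (Nh.sum _ n2) (Nh.const_mul _ (Nh.pow (hV k) 2)),
      ← hS.Ex_add (Nh.sub (Nh.sum _ n2) (Nh.const_mul _ (Nh.pow (hV k) 2)))
        (Nh.const_mul _ (Nh.pow (Nh.sub (hV k) (Nh.const_mul χ (hD k))) 2))]
    congr 1
    funext z _
    have h2 := sum_Vf hS hn hl k z
    have e1 : ∀ i, (Vf S l i (fun x => sp x k) z - χ * dd S l k z) ^ 2 =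
        Vf S l i (fun x => sp x k) z ^ 2 - (2 * χ * dd S l k z) * Vf S l i (fun x => sp x k) z +
          (χ * dd S l k z) ^ 2 := fun i => by ring
    simp only [e1, Finset.sum_add_distrib, Finset.sum_sub_distrib]
    rw [← Finset.mul_sum, h2, Finset.sum_const, Finset.card_univ, Fintype.card_fin,
      nsmul_eq_mul]
    ring
  unfold Xi
  rw [Finset.sum_comm]
  simp only [h1]
  rw [Finset.sum_add_distrib, Finset.sum_sub_distrib, ← Finset.mul_sum, ← Finset.mul_sum,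
    Finset.sum_comm]
  unfold V2 H2
  field_simp

/-- the deviation of `V_ik` from `χ D_k` -/
theorem Xi_le (hm : Em K m) (b w : ℕ → ℝ) (hn : 0 < n) {l : ℕ} (hl : l ≤ K) (χ : ℝ) {t : ℝ}
    (ht : 0 < t) :
    Xi (skS n K m b w) l χ ≤ (2 + 1 / t) * CrS (skS n K m b w) l +
      (1 + t) * OwS (skS n K m b w) l + 28 / n + H2 (skS n K m b w) l χ := by
  have hS : (skS n K m b w).Reg := (linS_sk hm b w).reg
  have hn' : (0 : ℝ) < n := by exact_mod_cast hn
  have h1 := sum_Gk hm b w hn hl ht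
  rw [Xi_eq hS hn (l := l) hl χ]
  set S := skS n K m b w with hSd
  have h2 : ∑ i, ∑ k, S.Ex (fun z _ => Vf S l i (fun x => sp x k) z ^ 2) ≤
      ∑ i, ∑ k, Gk S l i k + (∑ i, ∑ k, (if k ≠ i then Ow S l i k else 0) + n * 4) := by
    rw [← sum_diag]
    simp only [← Finset.sum_add_distrib]
    refine Finset.sum_le_sum fun i _ => Finset.sum_le_sum fun k _ => ?_
    rw [← Gk_add_Ow hS (l := l) hl]
    have h3 := Ow_le hS (l := l) hl i k
    have h4 := Ow_nonneg (S := S) (l := l) i k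
    by_cases hk : k = i
    · rw [if_neg (not_not.2 hk), if_pos hk]
      linarith
    · rw [if_pos hk, if_neg hk]
      linarith
  have h5 := mul_le_mul_of_nonneg_left h2 (by positivity : (0 : ℝ) ≤ 1 / n ^ 2)
  have e1 : 1 / (n : ℝ) ^ 2 * (∑ i, ∑ k, Gk S l i k +
      (∑ i, ∑ k, (if k ≠ i then Ow S l i k else 0) + n * 4)) =
      1 / n ^ 2 * ∑ i, ∑ k, Gk S l i k + OwS S l + 4 / n := by
    unfold OwS
    field_simp
    ring
  rw [e1] at h5
  obtain ⟨h6, h7⟩ := abs_le.1 h1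
  have e2 : (28 : ℝ) / n = 24 / n + 4 / n := by ring
  rw [e2]
  linarith

lemma OwS_nonneg {S : Sy (Cd n K) (Fin n → ℤˣ)} {l : ℕ} : 0 ≤ OwS S l := by
  unfold OwS
  refine mul_nonneg (by positivity) (Finset.sum_nonneg fun i _ => Finset.sum_nonneg fun k _ => ?_)
  split_ifs
  · exact Ow_nonneg _ _
  · exact le_rfl

lemma CrS_nonneg {S : Sy (Cd n K) (Fin n → ℤˣ)} {l : ℕ} : 0 ≤ CrS S l := by
  unfold CrS
  refine mul_nonneg (by positivity) (Finset.sum_nonneg fun i _ => Finset.sum_nonneg fun j _ =>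
    Finset.sum_nonneg fun k _ => ?_)
  split_ifs
  · exact Cr_nonneg _ _ _
  · exact le_rfl

/-- the first chaos, averaged over the sites -/
noncomputable def c1A (n K : ℕ) (m b w : ℕ → ℝ) (l : ℕ) : ℝ :=
  1 / n * ∑ i : Fin n, c1 K m b w l i

/-- the part of the fields -/
noncomputable def FdA (n K : ℕ) (m b w : ℕ → ℝ) (l : ℕ) : ℝ :=
  1 / n * ∑ i : Fin n, ∑ q : Fin l, w (q + 1) ^ 2 * Fk (skS n K m b w) l (q + 1) i

/-- `β² = ∑_(q ≤ l) n b_q²` -/
noncomputable def bt2 (n : ℕ) (b : ℕ → ℝ) (l : ℕ) : ℝ := ∑ q : Fin l, n * b (q + 1) ^ 2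

/-- the error -/
noncomputable def Err (n K : ℕ) (m b w : ℕ → ℝ) (l : ℕ) (χ t : ℝ) : ℝ :=
  6 / t * CrS (skS n K m b w) l + 4 * t * OwS (skS n K m b w) l + t * H2 (skS n K m b w) l χ +
    12 / t * (m (l + 1) ^ 2 * Tt (skS n K m b w) l) +
    |χ| * ((m l - m 1) * Tt (skS n K m b w) l) + 96 / n

lemma FdA_nonneg (b w : ℕ → ℝ) (l : ℕ) : 0 ≤ FdA n K m b w l := by
  unfold FdA
  exact mul_nonneg (by positivity) (Finset.sum_nonneg fun i _ => Finset.sum_nonneg fun q _ =>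
    mul_nonneg (sq_nonneg _) (Fk_nonneg _ _))

lemma FdA_le (hm : Em K m) (b w : ℕ → ℝ) (hn : 0 < n) {l : ℕ} (hl : l ≤ K) :
    FdA n K m b w l ≤ 16 * ∑ q : Fin l, w (q + 1) ^ 2 := by
  have hS : (skS n K m b w).Reg := (linS_sk hm b w).reg
  have hn' : (0 : ℝ) < n := by exact_mod_cast hn
  unfold FdA
  have h1 : ∑ i : Fin n, ∑ q : Fin l, w (q + 1) ^ 2 * Fk (skS n K m b w) l (q + 1) i ≤
      ∑ _i : Fin n, ∑ q : Fin l, w (q + 1) ^ 2 * 16 :=
    Finset.sum_le_sum fun i _ => Finset.sum_le_sum fun q _ =>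
      mul_le_mul_of_nonneg_left (Fk_le hS (l := l) hl _ i) (sq_nonneg _)
  rw [Finset.sum_const, Finset.card_univ, Fintype.card_fin, nsmul_eq_mul, ← Finset.sum_mul] at h1
  calc _ ≤ 1 / (n : ℝ) * (n * ((∑ q : Fin l, w (q + 1) ^ 2) * 16)) :=
        mul_le_mul_of_nonneg_left h1 (by positivity)
    _ = _ := by field_simp

lemma sum_p_from (hm : Em K m) (b w : ℕ → ℝ) {l q : ℕ} (hl : l ≤ K) (hq : 1 ≤ q)
    (hql : q ≤ l) {f : ℕ → ℝ} {M : ℝ} (hf : ∀ j ≤ l, |f j| ≤ M) :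
    |∑ j ∈ Finset.Ico 0 l, (skS n K m b w).p j * (if q ≤ j then f j else 0)| ≤
      (m l - m 1) * M := by
  have hM : 0 ≤ M := (abs_nonneg _).trans (hf 0 (Nat.zero_le _))
  have h1 : ∑ j ∈ Finset.Ico 0 l, (skS n K m b w).p j * (if q ≤ j then f j else 0) =
      ∑ j ∈ Finset.Ico 1 l, (skS n K m b w).p j * (if q ≤ j then f j else 0) := by
    rw [Finset.sum_eq_sum_Ico_succ_bot (by omega : 0 < l)]
    have : ¬ q ≤ 0 := by omega
    rw [if_neg this, mul_zero, zero_add]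
  rw [h1]
  refine (Finset.abs_sum_le_sum_abs _ _).trans ?_
  have h2 : ∀ j ∈ Finset.Ico 1 l, |(skS n K m b w).p j * (if q ≤ j then f j else 0)| ≤
      (m (j + 1) - m j) * M := by
    intro j hj
    rw [Finset.mem_Ico] at hj
    have hp : 0 ≤ m (j + 1) - m j := sub_nonneg.2 (hm.mono j (by omega))
    rw [abs_mul, skS_p, abs_of_nonneg hp]
    refine mul_le_mul_of_nonneg_left ?_ hp
    split_ifs
    · exact hf j (by omega)
    · rw [abs_zero]; exact hM
  refine (Finset.sum_le_sum h2).trans (le_of_eq ?_)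
  rw [← Finset.sum_mul, Finset.sum_Ico_sub (fun j => m j) (show 1 ≤ l by omega)]

lemma num_level {t C O W X H a M T : ℝ} (ht : 0 < t) (ht1 : t ≤ 1) (hC : 0 ≤ C) (hO : 0 ≤ O)
    (hW : 0 ≤ W) (ha : 0 ≤ a) (hX : X ≤ (2 + 1 / t) * C + (1 + t) * O + a + H)
    (hWT : W ≤ 4 * M ^ 2 * T) (c1 c2 Z : ℝ) :
    c1 + (t * O + (1 + 1 / t) * W + a) + ((2 + 1 / t) * C + t * O + c2) +
      (t * X + 1 / t * W) + Z ≤
      6 / t * C + 4 * t * O + t * H + 12 / t * (M ^ 2 * T) + Z + (c1 + a + c2 + a) := by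
  have hti : 1 ≤ 1 / t := by rw [le_div_iff₀ ht]; linarith
  have p1 := mul_le_mul_of_nonneg_left hX ht.le
  have p2 : t * ((2 + 1 / t) * C + (1 + t) * O + a + H) =
      2 * (t * C) + C + t * O + t * (t * O) + t * a + t * H := by
    field_simp
    ring
  have q1 : t * C ≤ C := by
    have := mul_le_mul_of_nonneg_right ht1 hC
    linarith
  have q2 : t * (t * O) ≤ t * O := by
    have := mul_le_mul_of_nonneg_right ht1 (mul_nonneg ht.le hO)
    linarith
  have q3 : t * a ≤ a := by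
    have := mul_le_mul_of_nonneg_right ht1 ha
    linarith
  have q4 : W ≤ 1 / t * W := by
    have := mul_le_mul_of_nonneg_right hti hW
    linarith
  have q5 : 1 / t * W ≤ 1 / t * (4 * M ^ 2 * T) :=
    mul_le_mul_of_nonneg_left hWT (by positivity)
  have q6 : C ≤ 1 / t * C := by
    have := mul_le_mul_of_nonneg_right hti hC
    linarith
  have e1 : 6 / t * C = 6 * (1 / t * C) := by ring
  have e2 : 12 / t * (M ^ 2 * T) = 3 * (1 / t * (4 * M ^ 2 * T)) := by ring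
  have e3 : (1 + 1 / t) * W = W + 1 / t * W := by ring
  have e4 : (2 + 1 / t) * C = 2 * C + 1 / t * C := by ring
  rw [e1, e2, e3, e4]
  linarith

/-- one level of bonds -/
lemma level (hm : Em K m) (b w : ℕ → ℝ) (hn : 0 < n) {l : ℕ} (hl : l ≤ K) (χ : ℝ) {t : ℝ}
    (ht : 0 < t) (ht1 : t ≤ 1) {q : ℕ} (hq : 1 ≤ q) (hql : q ≤ l) :
    |1 / n ^ 2 * ∑ i, ∑ k, (if k ≠ i then Bk (skS n K m b w) l q i k else 0) -
      (V2 (skS n K m b w) l - χ * (2 * m (l + 1) - m l) * tj (skS n K m b w) l l)| ≤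
      Err n K m b w l χ t := by
  have hS : (skS n K m b w).Reg := (linS_sk hm b w).reg
  have hn' : (0 : ℝ) < n := by exact_mod_cast hn
  have h1 := bonds hS hn (l := l) hl q ht
  have h2 := sum_Gk hm b w hn hl ht
  have h3 := cross hS (l := l) hl q χ ht
  have h4 := Yq_eq hS (l := l) hl q
  have h5 := Xi_le hm b w hn hl χ ht
  have h6 := Wq_le hS (l := l) hl q
  have h7 := sum_p_from hm b w (n := n) hl hq hql (f := fun j => tj (skS n K m b w) l j)
    (M := Tt (skS n K m b w) l) fun j hj => abs_tj_le hS hn hj hl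
  have hT := Tt_nonneg hS (l := l) hl
  have hO := OwS_nonneg (S := skS n K m b w) (l := l)
  have hC := CrS_nonneg (S := skS n K m b w) (l := l)
  have hW := Wq_nonneg hS (l := l) hl q
  have hm1 : (skS n K m b w).m (l + 1) = m (l + 1) := rfl
  have hm2 : (skS n K m b w).m l = m l := rfl
  rw [hm1, hm2] at h4
  rw [hm1] at h6
  have hH := H2_nonneg hS (l := l) hl χ
  set S := skS n K m b w with hSd
  -- the diagonal
  have h8 : |1 / (n : ℝ) ^ 2 * ∑ i, ∑ k, (if k ≠ i then Bk S l q i k else 0) -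
      1 / (n : ℝ) ^ 2 * ∑ i, ∑ k, Bk S l q i k| ≤ 16 / (n : ℝ) := by
    rw [← mul_sub, ← Finset.sum_sub_distrib]
    have h9 : |∑ i, (∑ k, (if k ≠ i then Bk S l q i k else 0) - ∑ k, Bk S l q i k)| ≤
        ∑ i : Fin n, ∑ k : Fin n, (if k = i then (16 : ℝ) else 0) := by
      refine (Finset.abs_sum_le_sum_abs _ _).trans (Finset.sum_le_sum fun i _ => ?_)
      rw [← Finset.sum_sub_distrib]
      refine (Finset.abs_sum_le_sum_abs _ _).trans (Finset.sum_le_sum fun k _ => ?_)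
      by_cases hk : k = i
      · rw [if_neg (not_not.2 hk), if_pos hk, zero_sub, abs_neg,
          abs_of_nonneg (Bk_nonneg q i k)]
        exact Bk_le hS (l := l) hl q i k
      · rw [if_pos hk, if_neg hk, sub_self, abs_zero]
    rw [sum_diag] at h9
    rw [abs_mul, abs_of_pos (by positivity : (0 : ℝ) < 1 / n ^ 2)]
    calc _ ≤ 1 / (n : ℝ) ^ 2 * (n * 16) := mul_le_mul_of_nonneg_left h9 (by positivity)
      _ = 16 / n := by field_simp
  -- collect
  set A1 := 1 / (n : ℝ) ^ 2 * ∑ i, ∑ k, (if k ≠ i then Bk S l q i k else 0)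
  set A2 := 1 / (n : ℝ) ^ 2 * ∑ i, ∑ k, Bk S l q i k
  set A3 := 1 / (n : ℝ) ^ 2 * ∑ i, ∑ k, Gk S l i k
  set Sg := ∑ j ∈ Finset.Ico 0 l, S.p j * (if q ≤ j then tj S l j else 0)
  have h10 : |χ * Sg| ≤ |χ| * ((m l - m 1) * Tt S l) := by
    rw [abs_mul]
    exact mul_le_mul_of_nonneg_left h7 (abs_nonneg _)
  have e1 : A1 - (V2 S l - χ * (2 * m (l + 1) - m l) * tj S l l) =
      (A1 - A2) + (A2 - (A3 - 2 * Cq S l q)) - (V2 S l - A3) -
        (2 * Cq S l q - χ * (2 * Yq S l q)) - χ * Sg := by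
    rw [h4]
    ring
  have h11 : |A1 - (V2 S l - χ * (2 * m (l + 1) - m l) * tj S l l)| ≤
      16 / n + (t * OwS S l + (1 + 1 / t) * Wq S l q + 28 / n) +
      ((2 + 1 / t) * CrS S l + t * OwS S l + 24 / n) +
      (t * Xi S l χ + 1 / t * Wq S l q) + |χ| * ((m l - m 1) * Tt S l) := by
    rw [e1]
    have a1 := abs_le.1 h8
    have a2 := abs_le.1 h1
    have a3 := abs_le.1 h2
    have a4 := abs_le.1 h3
    have a5 := abs_le.1 h10
    rw [abs_le]
    constructor <;> linarith [a1.1, a1.2, a2.1, a2.2, a3.1, a3.2, a4.1, a4.2, a5.1, a5.2]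
  refine h11.trans ?_
  have h12 := num_level ht ht1 hC hO hW (by positivity : (0 : ℝ) ≤ 28 / n) h5 h6
    (16 / (n : ℝ)) (24 / (n : ℝ)) (|χ| * ((m l - m 1) * Tt S l))
  have e9 : (96 : ℝ) / n = 16 / n + 28 / n + 24 / n + 28 / n := by ring
  have e10 : Err n K m b w l χ t = 6 / t * CrS S l + 4 * t * OwS S l + t * H2 S l χ +
    12 / t * (m (l + 1) ^ 2 * Tt S l) + |χ| * ((m l - m 1) * Tt S l) + 96 / n := rfl
  rw [e10, e9]
  linarith

/-- **The two-sided first chaos.** -/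
theorem first_chaos (hm : Em K m) (b w : ℕ → ℝ) (hn : 0 < n) {l : ℕ} (hl : l ≤ K) (χ : ℝ)
    {t : ℝ} (ht : 0 < t) (ht1 : t ≤ 1) :
    |c1A n K m b w l - FdA n K m b w l -
      bt2 n b l * (V2 (skS n K m b w) l -
        χ * (2 * m (l + 1) - m l) * tj (skS n K m b w) l l)| ≤
      bt2 n b l * Err n K m b w l χ t := by
  have hn' : (0 : ℝ) < n := by exact_mod_cast hn
  set S := skS n K m b w with hSd
  set Z := V2 S l - χ * (2 * m (l + 1) - m l) * tj S l l with hZ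
  have e1 : c1A n K m b w l - FdA n K m b w l = ∑ q : Fin l, n * b (q + 1) ^ 2 *
      (1 / n ^ 2 * ∑ i, ∑ k, (if k ≠ i then Bk S l (q + 1) i k else 0)) := by
    unfold c1A FdA
    simp only [c1_eq b w hl, Finset.sum_add_distrib]
    rw [mul_add, add_sub_cancel_right, Finset.sum_comm, Finset.mul_sum]
    refine Finset.sum_congr rfl fun q _ => ?_
    rw [← Finset.mul_sum]
    field_simp
    rfl
  rw [e1]
  unfold bt2
  rw [Finset.sum_mul, ← Finset.sum_sub_distrib, Finset.sum_mul]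
  refine (Finset.abs_sum_le_sum_abs _ _).trans (Finset.sum_le_sum fun q _ => ?_)
  rw [← mul_sub, abs_mul, abs_of_nonneg (by positivity : (0 : ℝ) ≤ n * b (q + 1) ^ 2)]
  refine mul_le_mul_of_nonneg_left ?_ (by positivity)
  have h1 := level hm b w hn hl χ ht ht1 (q := q + 1) (by omega) (by omega)
  exact h1

/-- **The two-sided first chaos, with the heart.** -/
theorem first_chaos_rho (hm : Em K m) (b w : ℕ → ℝ) (hn : 0 < n) {l : ℕ} (hl : l ≤ K) (χ : ℝ)
    {t : ℝ} (ht : 0 < t) (ht1 : t ≤ 1) :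
    |c1A n K m b w l - FdA n K m b w l -
      bt2 n b l * (χ ^ 2 * (skS n K m b w).Rl sp l - χ * (2 * m (l + 1) - m l) *
        (skS n K m b w).Ex (fun z x => Fld.uu (skS n K m b w) sp l z x ^ 2))| ≤
      bt2 n b l * (2 * |χ| * |He (skS n K m b w) l χ| + H2 (skS n K m b w) l χ +
        Err n K m b w l χ t) := by
  have hS : (skS n K m b w).Reg := (linS_sk hm b w).reg
  have h1 := first_chaos hm b w hn hl χ ht ht1
  rw [V2_eq hS (l := l) hl χ, tj_self hS (l := l) hl, rho_eq_Rl hS (l := l) hl] at h1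
  have hH := H2_nonneg hS (l := l) hl χ
  have hb : 0 ≤ bt2 n b l := Finset.sum_nonneg fun q _ => by positivity
  set B := bt2 n b l
  set R := (skS n K m b w).Rl sp l
  set U := (skS n K m b w).Ex (fun z x => Fld.uu (skS n K m b w) sp l z x ^ 2)
  set hh := H2 (skS n K m b w) l χ
  set he := He (skS n K m b w) l χ
  have e1 : c1A n K m b w l - FdA n K m b w l - B * (χ ^ 2 * R - χ * (2 * m (l + 1) - m l) * U) =
      (c1A n K m b w l - FdA n K m b w l - B * (χ ^ 2 * R + 2 * χ * he + hh -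
        χ * (2 * m (l + 1) - m l) * U)) + B * (2 * χ * he + hh) := by ring
  rw [e1]
  refine (abs_add_le _ _).trans ?_
  have h2 : |B * (2 * χ * he + hh)| ≤ B * (2 * |χ| * |he| + hh) := by
    rw [abs_mul, abs_of_nonneg hb]
    refine mul_le_mul_of_nonneg_left ((abs_add_le _ _).trans ?_) hb
    rw [abs_mul, abs_mul, abs_two, abs_of_nonneg hH]
  calc _ ≤ B * Err n K m b w l χ t + B * (2 * |χ| * |he| + hh) := add_le_add h1 h2
    _ = _ := by ring

end asm

end Vale.Agent.P146.H379.Row
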