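import Vale.Agent.P146.H379.RowF

/-!
# P146: the two-sided first chaos with the exact bracket, one site (helper379)

The exact bracket `(2 m_(l+1) - m_l) β_l² t_l + ∑_(1 ≤ j < l) p_j β_j² t_(l,j)`,
`β_j² = ∑_(q ≤ j) n b_q²`; the first chaos of one site by exchangeability.
-/

open MeasureTheory ProbabilityTheory

namespace Vale.Agent.P146.H379.Row

open Vale.Agent.P157 Vale.Agent.P157.Lv Vale.Agent.P157.Lv.Sy
open Vale.Agent.P146.H425 Vale.Agent.P146.H946 Vale.Agent.P146.H985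
open Vale.Agent.P146.H93 Vale.Agent.P146.H325

set_option linter.unusedSectionVars false

section exact

variable {n K : ℕ} {m : ℕ → ℝ}

/-- the error of the exact form -/
noncomputable def Er0 (n K : ℕ) (m b w : ℕ → ℝ) (l : ℕ) (χ t : ℝ) : ℝ :=
  6 / t * CrS (skS n K m b w) l + 4 * t * OwS (skS n K m b w) l + t * H2 (skS n K m b w) l χ +
    12 / t * (m (l + 1) ^ 2 * Tt (skS n K m b w) l) + 96 / n

/-- the bracket `(2 m_(l+1) - m_l) β_l² t_l + ∑_(1 ≤ j < l) p_j β_j² t_(l,j)` -/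
noncomputable def Br (n K : ℕ) (m b w : ℕ → ℝ) (l : ℕ) : ℝ :=
  (2 * m (l + 1) - m l) * bt2 n b l * tj (skS n K m b w) l l +
    ∑ j ∈ Finset.Ico 1 l, (m (j + 1) - m j) * bt2 n b j * tj (skS n K m b w) l j

/-- one level of bonds, exact form -/
lemma level_x (hm : Em K m) (b w : ℕ → ℝ) (hn : 0 < n) {l : ℕ} (hl : l ≤ K) (χ : ℝ) {t : ℝ}
    (ht : 0 < t) (ht1 : t ≤ 1) (q : ℕ) :
    |1 / n ^ 2 * ∑ i, ∑ k, (if k ≠ i then Bk (skS n K m b w) l q i k else 0) -
      (V2 (skS n K m b w) l - χ * (2 * Yq (skS n K m b w) l q))| ≤ Er0 n K m b w l χ t := by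
  have hS : (skS n K m b w).Reg := (linS_sk hm b w).reg
  have hn' : (0 : ℝ) < n := by exact_mod_cast hn
  have h1 := bonds hS hn (l := l) hl q ht
  have h2 := sum_Gk hm b w hn hl ht
  have h3 := cross hS (l := l) hl q χ ht
  have h5 := Xi_le hm b w hn hl χ ht
  have h6 := Wq_le hS (l := l) hl q
  have hO := OwS_nonneg (S := skS n K m b w) (l := l)
  have hC := CrS_nonneg (S := skS n K m b w) (l := l)
  have hW := Wq_nonneg hS (l := l) hl q
  have hm1 : (skS n K m b w).m (l + 1) = m (l + 1) := rfl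
  rw [hm1] at h6
  set S := skS n K m b w with hSd
  -- the diagonal
  have h8 : |1 / (n : ℝ) ^ 2 * ∑ i, ∑ k, (if k ≠ i then Bk S l q i k else 0) -
      1 / (n : ℝ) ^ 2 * ∑ i, ∑ k, Bk S l q i k| ≤ 16 / (n : ℝ) := by
    rw [← mul_sub, ← Finset.sum_sub_distrib]
    have h9 : |∑ i, (∑ k, (if k ≠ i then Bk S l q i k else 0) - ∑ k, Bk S l q i k)| ≤
        ∑ i : Fin n, ∑ k : Fin n, (if k = i then (16 : ℝ) else 0) := by
      refine (Finset.abs_sum_le_sum_abs _ _).trans (Finset.sum_le_sum fun i _ => ?_)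
      rw [← Finset.sum_sub_distrib]
      refine (Finset.abs_sum_le_sum_abs _ _).trans (Finset.sum_le_sum fun k _ => ?_)
      by_cases hk : k = i
      · rw [if_neg (not_not.2 hk), if_pos hk, zero_sub, abs_neg,
          abs_of_nonneg (Bk_nonneg q i k)]
        exact Bk_le hS (l := l) hl q i k
      · rw [if_pos hk, if_neg hk, sub_self, abs_zero]
    rw [sum_diag] at h9
    rw [abs_mul, abs_of_pos (by positivity : (0 : ℝ) < 1 / n ^ 2)]
    calc _ ≤ 1 / (n : ℝ) ^ 2 * (n * 16) := mul_le_mul_of_nonneg_left h9 (by positivity)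
      _ = 16 / n := by field_simp
  set A1 := 1 / (n : ℝ) ^ 2 * ∑ i, ∑ k, (if k ≠ i then Bk S l q i k else 0)
  set A2 := 1 / (n : ℝ) ^ 2 * ∑ i, ∑ k, Bk S l q i k
  set A3 := 1 / (n : ℝ) ^ 2 * ∑ i, ∑ k, Gk S l i k
  have e1 : A1 - (V2 S l - χ * (2 * Yq S l q)) =
      (A1 - A2) + (A2 - (A3 - 2 * Cq S l q)) - (V2 S l - A3) -
        (2 * Cq S l q - χ * (2 * Yq S l q)) := by
    ring
  have h11 : |A1 - (V2 S l - χ * (2 * Yq S l q))| ≤
      16 / n + (t * OwS S l + (1 + 1 / t) * Wq S l q + 28 / n) +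
      ((2 + 1 / t) * CrS S l + t * OwS S l + 24 / n) +
      (t * Xi S l χ + 1 / t * Wq S l q) + 0 := by
    rw [e1]
    have a1 := abs_le.1 h8
    have a2 := abs_le.1 h1
    have a3 := abs_le.1 h2
    have a4 := abs_le.1 h3
    rw [abs_le]
    constructor <;> linarith [a1.1, a1.2, a2.1, a2.2, a3.1, a3.2, a4.1, a4.2]
  refine h11.trans ?_
  have h12 := num_level ht ht1 hC hO hW (by positivity : (0 : ℝ) ≤ 28 / n) h5 h6
    (16 / (n : ℝ)) (24 / (n : ℝ)) 0
  have e9 : (96 : ℝ) / n = 16 / n + 28 / n + 24 / n + 28 / n := by ring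
  have e10 : Er0 n K m b w l χ t = 6 / t * CrS S l + 4 * t * OwS S l + t * H2 S l χ +
    12 / t * (m (l + 1) ^ 2 * Tt S l) + 96 / n := rfl
  rw [e10, e9]
  linarith

/-- the sum of the brackets of the levels -/
lemma sum_Yq (hm : Em K m) (b w : ℕ → ℝ) {l : ℕ} (hl : l ≤ K) :
    ∑ q : Fin l, n * b (q + 1) ^ 2 * (2 * Yq (skS n K m b w) l (q + 1)) = Br n K m b w l := by
  have hS : (skS n K m b w).Reg := (linS_sk hm b w).reg
  have h1 : ∀ q : ℕ, 2 * Yq (skS n K m b w) l q =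
      (2 * m (l + 1) - m l) * tj (skS n K m b w) l l +
      ∑ j ∈ Finset.Ico 0 l, (m (j + 1) - m j) * (if q ≤ j then tj (skS n K m b w) l j else 0) :=
    fun q => Yq_eq hS (l := l) hl q
  simp only [h1]
  have e1 : ∀ (c : ℝ), ∑ q : Fin l, (n : ℝ) * b (q + 1) ^ 2 * c = bt2 n b l * c := fun c => by
    unfold bt2
    rw [Finset.sum_mul]
  simp only [mul_add, Finset.sum_add_distrib]
  rw [e1]
  unfold Br
  congr 1
  · ring
  -- the lower levels
  have e2 : ∀ q : Fin l, (n : ℝ) * b (q + 1) ^ 2 * ∑ j ∈ Finset.Ico 0 l,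
      (m (j + 1) - m j) * (if (q : ℕ) + 1 ≤ j then tj (skS n K m b w) l j else 0) =
      ∑ j ∈ Finset.Ico 0 l, (if (q : ℕ) + 1 ≤ j then (n : ℝ) * b (q + 1) ^ 2 else 0) *
        ((m (j + 1) - m j) * tj (skS n K m b w) l j) := by
    intro q
    rw [Finset.mul_sum]
    refine Finset.sum_congr rfl fun j _ => ?_
    split_ifs <;> ring
  simp only [e2]
  rw [Finset.sum_comm]
  have e3 : ∀ j ∈ Finset.Ico 0 l, ∑ q : Fin l,
      (if (q : ℕ) + 1 ≤ j then (n : ℝ) * b (q + 1) ^ 2 else 0) *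
        ((m (j + 1) - m j) * tj (skS n K m b w) l j) =
      (m (j + 1) - m j) * bt2 n b j * tj (skS n K m b w) l j := by
    intro j hj
    rw [Finset.mem_Ico] at hj
    rw [← Finset.sum_mul]
    have e4 : ∑ q : Fin l, (if (q : ℕ) + 1 ≤ j then (n : ℝ) * b (q + 1) ^ 2 else 0) =
        bt2 n b j := by
      unfold bt2
      rw [Fin.sum_univ_eq_sum_range (fun q => if q + 1 ≤ j then (n : ℝ) * b (q + 1) ^ 2 else 0) l,
        Fin.sum_univ_eq_sum_range (fun q => (n : ℝ) * b (q + 1) ^ 2) j,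
        ← Finset.sum_filter]
      refine Finset.sum_congr ?_ fun _ _ => rfl
      ext q
      simp only [Finset.mem_filter, Finset.mem_range]
      omega
    rw [e4]
    ring
  rw [Finset.sum_congr rfl e3]
  rcases Nat.eq_zero_or_pos l with h0 | h0
  · subst h0
    simp
  · rw [Finset.sum_eq_sum_Ico_succ_bot h0]
    have e5 : bt2 n b 0 = 0 := by unfold bt2; simp
    rw [e5, mul_zero, zero_mul, zero_add]

/-- **The two-sided first chaos, exact bracket.** -/
theorem first_chaos_x (hm : Em K m) (b w : ℕ → ℝ) (hn : 0 < n) {l : ℕ} (hl : l ≤ K) (χ : ℝ)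
    {t : ℝ} (ht : 0 < t) (ht1 : t ≤ 1) :
    |c1A n K m b w l - FdA n K m b w l -
      (bt2 n b l * V2 (skS n K m b w) l - χ * Br n K m b w l)| ≤
      bt2 n b l * Er0 n K m b w l χ t := by
  have hn' : (0 : ℝ) < n := by exact_mod_cast hn
  have e1 : c1A n K m b w l - FdA n K m b w l = ∑ q : Fin l, n * b (q + 1) ^ 2 *
      (1 / n ^ 2 * ∑ i, ∑ k, (if k ≠ i then Bk (skS n K m b w) l (q + 1) i k else 0)) := by
    unfold c1A FdA
    simp only [c1_eq b w hl, Finset.sum_add_distrib]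
    rw [mul_add, add_sub_cancel_right, Finset.sum_comm, Finset.mul_sum]
    refine Finset.sum_congr rfl fun q _ => ?_
    rw [← Finset.mul_sum]
    field_simp
  have e2 : bt2 n b l * V2 (skS n K m b w) l - χ * Br n K m b w l =
      ∑ q : Fin l, n * b (q + 1) ^ 2 * (V2 (skS n K m b w) l -
        χ * (2 * Yq (skS n K m b w) l (q + 1))) := by
    rw [← sum_Yq hm b w hl]
    unfold bt2
    rw [Finset.sum_mul, Finset.mul_sum, ← Finset.sum_sub_distrib]
    exact Finset.sum_congr rfl fun q _ => by ring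
  rw [e1, e2, ← Finset.sum_sub_distrib]
  have e3 : bt2 n b l * Er0 n K m b w l χ t =
      ∑ q : Fin l, n * b (q + 1) ^ 2 * Er0 n K m b w l χ t := by
    unfold bt2
    rw [Finset.sum_mul]
  rw [e3]
  refine (Finset.abs_sum_le_sum_abs _ _).trans (Finset.sum_le_sum fun q _ => ?_)
  rw [← mul_sub, abs_mul, abs_of_nonneg (by positivity : (0 : ℝ) ≤ n * b (q + 1) ^ 2)]
  exact mul_le_mul_of_nonneg_left (level_x hm b w hn hl χ ht ht1 (q + 1)) (by positivity)

/-- **The two-sided first chaos, exact bracket, with the heart.** -/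
theorem first_chaos_rho_x (hm : Em K m) (b w : ℕ → ℝ) (hn : 0 < n) {l : ℕ} (hl : l ≤ K)
    (χ : ℝ) {t : ℝ} (ht : 0 < t) (ht1 : t ≤ 1) :
    |c1A n K m b w l - FdA n K m b w l -
      (bt2 n b l * (χ ^ 2 * (skS n K m b w).Rl sp l) - χ * Br n K m b w l)| ≤
      bt2 n b l * (2 * |χ| * |He (skS n K m b w) l χ| + H2 (skS n K m b w) l χ +
        Er0 n K m b w l χ t) := by
  have hS : (skS n K m b w).Reg := (linS_sk hm b w).reg
  have h1 := first_chaos_x hm b w hn hl χ ht ht1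
  rw [V2_eq hS (l := l) hl χ, rho_eq_Rl hS (l := l) hl] at h1
  have hH := H2_nonneg hS (l := l) hl χ
  have hb : 0 ≤ bt2 n b l := Finset.sum_nonneg fun q _ => by positivity
  set B := bt2 n b l
  set R := (skS n K m b w).Rl sp l
  set hh := H2 (skS n K m b w) l χ
  set he := He (skS n K m b w) l χ
  have e1 : c1A n K m b w l - FdA n K m b w l - (B * (χ ^ 2 * R) - χ * Br n K m b w l) =
      (c1A n K m b w l - FdA n K m b w l - (B * (χ ^ 2 * R + 2 * χ * he + hh) -
        χ * Br n K m b w l)) + B * (2 * χ * he + hh) := by ring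
  rw [e1]
  refine (abs_add_le _ _).trans ?_
  have h2 : |B * (2 * χ * he + hh)| ≤ B * (2 * |χ| * |he| + hh) := by
    rw [abs_mul, abs_of_nonneg hb]
    refine mul_le_mul_of_nonneg_left ((abs_add_le _ _).trans ?_) hb
    rw [abs_mul, abs_mul, abs_two, abs_of_nonneg hH]
  calc _ ≤ B * Er0 n K m b w l χ t + B * (2 * |χ| * |he| + hh) := add_le_add h1 h2
    _ = _ := by ring

end exact

/-! ### One site -/

section one

variable {n K : ℕ} {m b w : ℕ → ℝ}

lemma st_pC (ρ : Equiv.Perm (Fin n)) (e : Cd n K) (x : Fin n → ℤˣ) :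
    st (pC K ρ e).1 ((pX ρ).symm x) = st e.1 x := by
  have h := st_pX ρ e.1 ((pX ρ).symm x)
  rw [Equiv.apply_symm_apply] at h
  exact h.symm

lemma am_pC (ρ : Equiv.Perm (Fin n)) (e : Cd n K) (q : ℕ) :
    am b w (pC K ρ e).1 q = am b w e.1 q := by
  obtain ⟨e1, e2⟩ := e
  rcases e1 with p | i <;> rfl

lemma gD_pC (hm : Em K m) (l : ℕ) (ρ : Equiv.Perm (Fin n)) (i : Fin n) (e : Cd n K)
    (z : Cd n K → ℝ) :
    gD m b w l (ρ i) (pC K ρ e) (gz (pC K ρ) (fun _ => 1) z) = gD m b w l i e z := by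
  have h := sys_perm (n := n) hm b w ρ
  have hd : ∀ j z, dd (skS n K m b w) j (ρ i) (gz (pC K ρ) (fun _ => 1) z) =
      dd (skS n K m b w) j i z := fun j z => T_sp_pC hm b w ρ j i z
  have hT : ∀ j, (skS n K m b w).T j (fun _ x => st (pC K ρ e).1 x)
      (gz (pC K ρ) (fun _ => 1) z) = (skS n K m b w).T j (fun _ x => st e.1 x) z := fun j =>
    T_pC hm b w ρ j (fun _ x => st_pC ρ e x) z
  have hV : Vf (skS n K m b w) l (ρ i) (fun x => sp x (ρ i) * st (pC K ρ e).1 x)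
      (gz (pC K ρ) (fun _ => 1) z) =
      Vf (skS n K m b w) l i (fun x => sp x i * st e.1 x) z := by
    unfold Vf
    refine T_pC hm b w ρ l (fun z x => ?_) z
    unfold Mm
    simp only [hd, sp_pX_symm, Equiv.symm_apply_apply, st_pC]
  have hQ : Qe (skS n K m b w) l (e.2 + 1) (st (pC K ρ e).1) (gz (pC K ρ) (fun _ => 1) z) =
      Qe (skS n K m b w) l (e.2 + 1) (st e.1) z := by
    unfold Qe Rm
    simp only [hT]
  unfold gD
  rw [h.VL, hV, hd, am_pC, pC_snd, hQ]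

/-- the first chaos is the same for all sites -/
lemma c1_perm (hm : Em K m) (l : ℕ) (ρ : Equiv.Perm (Fin n)) (i : Fin n) :
    c1 K m b w l (ρ i) = c1 K m b w l i := by
  unfold c1
  symm
  refine Finset.sum_bij (fun e _ => pC K ρ e) ?_ ?_ ?_ ?_
  · intro e he
    exact (mem_rwl_pC ρ i l e).2 he
  · intro e _ e' _ h
    exact (pC K ρ).injective h
  · intro e he
    refine ⟨(pC K ρ).symm e, ?_, Equiv.apply_symm_apply _ _⟩
    rw [← mem_rwl_pC ρ i l, Equiv.apply_symm_apply]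
    exact he
  · intro e _
    exact (int_row_sq ρ i l (gD_pC hm l ρ i e)).symm

theorem c1_eq_c1A (hm : Em K m) (l : ℕ) (i : Fin n) : c1 K m b w l i = c1A n K m b w l := by
  have hn : (n : ℝ) ≠ 0 := by
    have := i.2
    exact_mod_cast (by omega : n ≠ 0)
  unfold c1A
  rw [exch1_mean (Ψ := fun i => c1 K m b w l i) (fun ρ i => c1_perm hm l ρ i) i]
  field_simp

theorem Ex_dd_sq (hm : Em K m) {l : ℕ} (hl : l ≤ K) (i : Fin n) :
    (skS n K m b w).Ex (fun z _ => (skS n K m b w).T l (fun _ x => sp x i) z ^ 2) =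
      (skS n K m b w).Rl sp l := by
  have hS : (skS n K m b w).Reg := (linS_sk hm b w).reg
  have hn : (n : ℝ) ≠ 0 := by
    have := i.2
    exact_mod_cast (by omega : n ≠ 0)
  rw [← rho_eq_Rl hS (l := l) hl]
  unfold rho
  have h1 := exch1_mean (Ψ := fun i => (skS n K m b w).Ex (fun z _ => dd (skS n K m b w) l i z ^ 2))
    (Ex_T_sp_sq hm b w l) i
  rw [h1]
  field_simp
  rfl

/-- the chaoses of order at least `2` of the row of `i` -/
noncomputable def NL (K : ℕ) (m b w : ℕ → ℝ) (l : ℕ) (i : Fin n) : ℝ :=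
  (skS n K m b w).Ex (fun z _ => (skS n K m b w).T l (fun _ x => sp x i) z ^ 2) -
    c1 K m b w l i

/-- **THE ROW**: two-sided, any `K`, any level, any site. -/
theorem row (hm : Em K m) {l : ℕ} (hl : l ≤ K) (i : Fin n) (χ : ℝ) {t : ℝ} (ht : 0 < t)
    (ht1 : t ≤ 1) :
    |(skS n K m b w).Rl sp l - NL K m b w l i - FdA n K m b w l -
      (bt2 n b l * (χ ^ 2 * (skS n K m b w).Rl sp l) - χ * Br n K m b w l)| ≤
      bt2 n b l * (2 * |χ| * |He (skS n K m b w) l χ| + H2 (skS n K m b w) l χ +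
        Er0 n K m b w l χ t) := by
  have hn : 0 < n := by
    have := i.2
    omega
  have h1 := first_chaos_rho_x hm b w hn hl χ ht ht1
  have e1 : (skS n K m b w).Rl sp l - NL K m b w l i = c1A n K m b w l := by
    unfold NL
    rw [Ex_dd_sq hm hl, c1_eq_c1A hm]
    ring
  rw [e1]
  exact h1

/-- `Tt` is the mean of the squared overlap -/
theorem Tt_eq (hm : Em K m) (hn : 0 < n) {l : ℕ} (hl : l ≤ K) :
    Tt (skS n K m b w) l = (skS n K m b w).pairEx l (fun x x' => Rov sp x x' ^ 2) := by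
  have hR := (linS_sk (n := n) hm b w).reg
  have hn' : (0 : ℝ) < n := by exact_mod_cast hn
  have e1 : ∀ i, ∑ j, (skS n K m b w).Ex
      (fun z _ => (skS n K m b w).T l (fun _ x => ss i j x) z ^ 2) =
      (skS n K m b w).Ex
      (fun z _ => ∑ j, (skS n K m b w).T l (fun _ x => ss i j x) z ^ 2) := fun i =>
    (hR.Ex_sum Finset.univ fun j _ =>
      Nh.fst ((hR.eg_T hl (Nh.snd fun x => ss i j x)).pow 2)).symm
  unfold Tt
  simp only [e1]
  rw [← hR.Ex_sum Finset.univ fun i _ => Nh.fst (EG.sum _ fun j _ =>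
    (hR.eg_T hl (Nh.snd fun x => ss i j x)).pow 2), ← Ex_const_mul]
  unfold Sy.pairEx
  congr 1
  funext z _
  have e2 : ∀ x x' : Fin n → ℤˣ, Rov sp x x' ^ 2 =
      1 / n ^ 2 * ∑ i, ∑ j, (ss i j x) * (ss i j x') := by
    intro x x'
    have e0 : Rov sp x x' = 1 / n * ∑ i, sp x i * sp x' i := rfl
    rw [e0, mul_pow, sq (∑ i, sp x i * sp x' i), Finset.sum_mul_sum]
    congr 1
    · field_simp
    · refine Finset.sum_congr rfl fun i _ => Finset.sum_congr rfl fun j _ => ?_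
      unfold ss
      ring
  have e3 : ∀ i j : Fin n, (skS n K m b w).T l (fun _ x => ss i j x) z ^ 2 =
      ∑ x, ∑ x', (skS n K m b w).pr l z x * (skS n K m b w).pr l z x' *
        (ss i j x * ss i j x') := fun i j => T_sq_pr hR hl (fun x => ss i j x) z
  simp only [e2, e3]
  have e4 : ∀ F : Fin n → Fin n → (Fin n → ℤˣ) → (Fin n → ℤˣ) → ℝ,
      ∑ i, ∑ j, ∑ x, ∑ x', F i j x x' = ∑ x, ∑ x', ∑ i, ∑ j, F i j x x' := by
    intro F
    calc ∑ i, ∑ j, ∑ x, ∑ x', F i j x x' = ∑ i, ∑ x, ∑ j, ∑ x', F i j x x' :=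
          Finset.sum_congr rfl fun i _ => Finset.sum_comm
      _ = ∑ x, ∑ i, ∑ j, ∑ x', F i j x x' := Finset.sum_comm
      _ = ∑ x, ∑ i, ∑ x', ∑ j, F i j x x' :=
          Finset.sum_congr rfl fun x _ => Finset.sum_congr rfl fun i _ => Finset.sum_comm
      _ = ∑ x, ∑ x', ∑ i, ∑ j, F i j x x' :=
          Finset.sum_congr rfl fun x _ => Finset.sum_comm
  rw [e4, Finset.mul_sum]
  refine Finset.sum_congr rfl fun x _ => ?_
  rw [Finset.mul_sum]
  refine Finset.sum_congr rfl fun x' _ => ?_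
  simp_rw [← Finset.mul_sum]
  ring

end one

end Vale.Agent.P146.H379.Row
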