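import Vale.Agent.P146.H379.RowG
import Vale.Agent.P146.H186.S3
import Vale.Agent.P146.H498.LRowSK

/-!
# P146: the row of the SK system with the heart lemma and step 3 inserted (helper379)

`H2 ≤ 4 √Θ_l / (n w_(l+1)²)` (helper186: conditional integration by parts and the planted fourth
moment), `|He| ≤ (gg_(l+1,l+1) + √(gg_ll gg_(l+1,l+1))) / p_l` (helper295, helper498).
-/

open MeasureTheory ProbabilityTheory

namespace Vale.Agent.P146.H379.Row

open Vale.Agent.P157 Vale.Agent.P157.Lv Vale.Agent.P157.Lv.Sy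
open Vale.Agent.P146.H425 Vale.Agent.P146.H946 Vale.Agent.P146.H985
open Vale.Agent.P146.H93 Vale.Agent.P146.H325
open Vale.Agent.P146.H784 (dbl dbl_Ex z1 z2)

set_option linter.unusedSectionVars false

variable {n K : ℕ} {m b w : ℕ → ℝ} {l : ℕ}

/-- `χ_(l+1) = 1 - ∑_(j > l) p_j ρ_j` -/
noncomputable def ch (n K : ℕ) (m b w : ℕ → ℝ) (l : ℕ) : ℝ :=
  1 - ∑ j ∈ Finset.Ico (l + 1) (K + 1), (m (j + 1) - m j) * (skS n K m b w).Rl H325.sp j

lemma Rm_uu (hn : 0 < n) (S : Sy (Cd n K) (Fin n → ℤˣ)) (j : ℕ) (z : Cd n K → ℝ)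
    (x : Fin n → ℤˣ) :
    H186.Rm S (fun x i => H325.sp x i) j z x = n * Fld.uu S H325.sp j z x := by
  have hn' : (n : ℝ) ≠ 0 := by exact_mod_cast hn.ne'
  unfold H186.Rm Fld.uu
  rw [← mul_assoc, mul_one_div_cancel hn', one_mul]
  refine Finset.sum_congr rfl fun i _ => ?_
  rw [mul_comm]
  rfl

lemma Xp_Xl (hn : 0 < n) (m b w : ℕ → ℝ) (z : Cd n K → ℝ) (x : Fin n → ℤˣ) :
    H186.Xp (skS n K m b w) (fun x i => H325.sp x i) (n : ℝ) (l + 1) z x =
      n * Xl (skS n K m b w) l z x := by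
  unfold H186.Xp Xl
  rw [mul_sub, mul_one, Finset.mul_sum]
  congr 1
  refine Finset.sum_congr rfl fun j _ => ?_
  rw [Rm_uu hn]
  show (m (j + 1) - m j) * _ = n * ((m (j + 1) - m j) * _)
  ring

lemma rl_Rl (hS : (skS n K m b w).Reg) (hn : 0 < n) {j : ℕ} (hj : j ≤ K) :
    H186.rl (skS n K m b w) (fun x i => H325.sp x i) j = n * (skS n K m b w).Rl H325.sp j := by
  have hn' : (n : ℝ) ≠ 0 := by exact_mod_cast hn.ne'
  unfold H186.rl Sy.Rl
  rw [← mul_assoc, mul_one_div_cancel hn', one_mul]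
  rfl

lemma chi_ch (hS : (skS n K m b w).Reg) (hn : 0 < n) :
    H186.chi (skS n K m b w) (fun x i => H325.sp x i) (n : ℝ) (l + 1) = n * ch n K m b w l := by
  unfold H186.chi ch
  rw [mul_sub, mul_one, Finset.mul_sum]
  congr 1
  refine Finset.sum_congr rfl fun j hj => ?_
  have hj' : j ≤ K := by
    have h1 := (Finset.mem_Ico.1 hj).2
    have h2 : (skS n K m b w).K = K := rfl
    omega
  rw [rl_Rl hS hn hj']
  show (m (j + 1) - m j) * _ = _
  ring

/-- the mean of the squared overlap in helper186's normalisation -/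
lemma Th_Tt (hS : (skS n K m b w).Reg) (hn : 0 < n) (hl : l ≤ K) :
    H186.Th (skS n K m b w) (fun x i => H325.sp x i) l = n ^ 2 * Tt (skS n K m b w) l := by
  have hn' : (n : ℝ) ≠ 0 := by exact_mod_cast hn.ne'
  have hd := H784.dbl_reg hS (l := l) hl
  have e1 : (fun (_ : (Cd n K) ⊕ (Cd n K) → ℝ) (y : (Fin n → ℤˣ) × (Fin n → ℤˣ)) =>
      (∑ k, (fun x i => H325.sp x i) y.1 k * (fun x i => H325.sp x i) y.2 k) ^ 2) =
      fun z y => ∑ i, ∑ k, (fun (_ : Cd n K → ℝ) x => ss i k x) (z1 z) y.1 *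
        (fun (_ : Cd n K → ℝ) x => ss i k x) (z2 (skS n K m b w).lev l z) y.2 := by
    funext z y
    rw [sq, Finset.sum_mul_sum]
    refine Finset.sum_congr rfl fun i _ => Finset.sum_congr rfl fun k _ => ?_
    simp only [ss]
    ring
  have nk : ∀ i k, Nh fun (z : (Cd n K) ⊕ (Cd n K) → ℝ)
      (y : (Fin n → ℤˣ) × (Fin n → ℤˣ)) => (fun (_ : Cd n K → ℝ) x => ss i k x) (z1 z) y.1 *
        (fun (_ : Cd n K → ℝ) x => ss i k x) (z2 (skS n K m b w).lev l z) y.2 := fun i k =>
    Nh.snd fun y : (Fin n → ℤˣ) × (Fin n → ℤˣ) => ss i k y.1 * ss i k y.2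
  unfold H186.Th Tt
  rw [e1, hd.Ex_sum Finset.univ (f := fun i (z : (Cd n K) ⊕ (Cd n K) → ℝ)
      (y : (Fin n → ℤˣ) × (Fin n → ℤˣ)) => ∑ k, (fun (_ : Cd n K → ℝ) x => ss i k x) (z1 z) y.1 *
        (fun (_ : Cd n K → ℝ) x => ss i k x) (z2 (skS n K m b w).lev l z) y.2) fun i _ =>
      Nh.sum _ fun k _ => nk i k, ← mul_assoc, mul_one_div_cancel (pow_ne_zero 2 hn'), one_mul]
  refine Finset.sum_congr rfl fun i _ => ?_
  rw [hd.Ex_sum Finset.univ (f := fun k (z : (Cd n K) ⊕ (Cd n K) → ℝ)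
      (y : (Fin n → ℤˣ) × (Fin n → ℤˣ)) => (fun (_ : Cd n K → ℝ) x => ss i k x) (z1 z) y.1 *
        (fun (_ : Cd n K → ℝ) x => ss i k x) (z2 (skS n K m b w).lev l z) y.2) fun k _ => nk i k]
  refine Finset.sum_congr rfl fun k _ => ?_
  rw [dbl_Ex hS hl (Nh.snd fun x => ss i k x) (Nh.snd fun x => ss i k x)]
  congr 1
  funext z _
  rw [sq]

/-- **`H2 ≤ 4 √Θ_l / (n w_(l+1)²)`.** -/
theorem H2_le (hm : Em K m) (hn : 0 < n) (hl : l < K) (hw : 0 < w (l + 1)) :
    H2 (skS n K m b w) l (ch n K m b w l) ≤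
      4 * (√(Tt (skS n K m b w) l) / (n * w (l + 1) ^ 2)) := by
  have hS : (skS n K m b w).Reg := (linS_sk hm b w).reg
  have hn' : (0 : ℝ) < n := by exact_mod_cast hn
  have hp : 1 ≤ l + 1 ∧ l + 1 ≤ K := ⟨by omega, hl⟩
  have hSt := H186.St_SK (n := n) (K := K) (m := m) (b := b) (w := w) hp (w (l + 1))
  rw [Function.update_eq_self] at hSt
  obtain ⟨e, he0, he1, he2⟩ := H186.step3 (H186.WF_SK (n := n) (m := m) (b := b) (w := w) hp)
    (linS_sk hm b (H186.w0 w (l + 1))) hw hn' (Nat.lt_succ_self l)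
  rw [hSt] at he1 he2
  have hT : ∀ j, (fun z => (skS n K m b w).T l (fun z x => (fun x i => H325.sp x i) x j *
      H186.Xp (skS n K m b w) (fun x i => H325.sp x i) (n : ℝ) (l + 1) z x) z) =
      fun z => n * Vb (skS n K m b w) l j z := by
    intro j
    funext z
    unfold Vb
    rw [← T_const_mul]
    congr 1
    funext z x
    rw [Xp_Xl hn]
    ring
  have hL : ∑ j, (skS n K m b w).Ex (fun z _ => (skS n K m b w).T l
      (fun z x => (fun x i => H325.sp x i) x j *
        H186.Xp (skS n K m b w) (fun x i => H325.sp x i) (n : ℝ) (l + 1) z x) z ^ 2) =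
      n ^ 3 * V2 (skS n K m b w) l := by
    have h1 : ∀ j, (skS n K m b w).Ex (fun z _ => (skS n K m b w).T l
        (fun z x => (fun x i => H325.sp x i) x j *
          H186.Xp (skS n K m b w) (fun x i => H325.sp x i) (n : ℝ) (l + 1) z x) z ^ 2) =
        n ^ 2 * (skS n K m b w).Ex (fun z _ => Vb (skS n K m b w) l j z ^ 2) := by
      intro j
      rw [← Ex_const_mul]
      congr 1
      funext z _
      have h2 := congrFun (hT j) z
      rw [h2, mul_pow]
    rw [Finset.sum_congr rfl fun j _ => h1 j, ← Finset.mul_sum]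
    unfold V2
    field_simp
  have hR : (skS n K m b w).Ex (fun z x =>
      H186.Rm (skS n K m b w) (fun x i => H325.sp x i) l z x *
        H186.Xp (skS n K m b w) (fun x i => H325.sp x i) (n : ℝ) (l + 1) z x) =
      n ^ 2 * (skS n K m b w).Ex (fun z x => Fld.uu (skS n K m b w) H325.sp l z x *
        Xl (skS n K m b w) l z x) := by
    rw [← Ex_const_mul]
    congr 1
    funext z x
    rw [Rm_uu hn, Xp_Xl hn]
    ring
  have hHe : He (skS n K m b w) l (ch n K m b w l) =
      (skS n K m b w).Ex (fun z x => Fld.uu (skS n K m b w) H325.sp l z x *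
        Xl (skS n K m b w) l z x) - ch n K m b w l * (skS n K m b w).Rl H325.sp l := by
    have nu := Fld.nh_uu (S := skS n K m b w) (φ := H325.sp) hS (l := l) hl.le
    have nX := nh_Xl hS l
    have h1 : (skS n K m b w).Ex (Fld.uu (skS n K m b w) H325.sp l) = (skS n K m b w).Rl H325.sp l :=
      (H295.fldP_sk hn (by omega) hm b w (P := fun _ => False) (fun _ h => h.elim)).Ex_uu hl.le
    unfold He
    have e1 : (fun (z : Cd n K → ℝ) (x : Fin n → ℤˣ) => Fld.uu (skS n K m b w) H325.sp l z x *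
        (Xl (skS n K m b w) l z x - ch n K m b w l)) = fun z x =>
        Fld.uu (skS n K m b w) H325.sp l z x * Xl (skS n K m b w) l z x -
          ch n K m b w l * Fld.uu (skS n K m b w) H325.sp l z x := by
      funext z x
      ring
    rw [e1, hS.Ex_sub (Nh.mul nu nX) (Nh.const_mul _ nu), Ex_const_mul, h1]
  rw [hL, hR, chi_ch hS hn, rl_Rl hS hn hl.le] at he2
  have hV := V2_eq hS (l := l) hl.le (ch n K m b w l)
  rw [rho_eq_Rl hS (l := l) hl.le, hHe] at hV
  rw [Th_Tt hS hn hl.le, Real.sqrt_mul (by positivity), Real.sqrt_sq hn'.le] at he1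
  have hH : (n : ℝ) ^ 3 * H2 (skS n K m b w) l (ch n K m b w l) = e := by
    rw [hV] at he2
    linarith
  have h5 : (n : ℝ) ^ 3 * H2 (skS n K m b w) l (ch n K m b w l) ≤
      (n : ℝ) ^ 3 * (4 * (√(Tt (skS n K m b w) l) / (n * w (l + 1) ^ 2))) := by
    rw [hH]
    refine he1.trans (le_of_eq ?_)
    field_simp
  exact le_of_mul_le_mul_left h5 (by positivity)

/-- **the heart** -/
theorem He_le (hm : Em K m) (hn : 0 < n) (hl1 : 1 ≤ l) (hl : l < K) (hw0 : 0 < w l)
    (hw1 : 0 < w (l + 1)) (hmm : m l < m (l + 1)) :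
    |He (skS n K m b w) l (ch n K m b w l)| ≤
      (H295.gg (skS n K m b w) (H295.spn n) (H295.zs (by omega)) w (l + 1) (l + 1) +
        √(H295.gg (skS n K m b w) (H295.spn n) (H295.zs (by omega)) w l l *
          H295.gg (skS n K m b w) (H295.spn n) (H295.zs (by omega)) w (l + 1) (l + 1))) /
        (m (l + 1) - m l) := by
  have hS : (skS n K m b w).Reg := (linS_sk hm b w).reg
  have hK : 0 < K := by omega
  set P : ℕ → Prop := fun p => p = l ∨ p = l + 1 with hP
  have hP1 : ∀ p, P p → 1 ≤ p := fun p h => by rcases h with h | h <;> omega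
  have hPw : ∀ p ≤ K, P p → 0 < w p := fun p _ h => by
    rcases h with h | h
    · rw [h]; exact hw0
    · rw [h]; exact hw1
  have F := H295.fldP_sk hn hK hm b w hP1
  have h1 := H498.Row.heart_le F (fun p _ _ => H295.zs_inj hK p) hPw
    (H295.gp_sk hn hK hm b w hP1 hPw) (l := l) hl (Or.inl rfl) (Or.inr rfl)
    (by show 0 < m (l + 1) - m l; linarith)
  refine le_trans (le_of_eq ?_) h1
  have nu : ∀ j ≤ K, Nh (Fld.uu (skS n K m b w) H325.sp j) := fun j hj =>
    Fld.nh_uu (S := skS n K m b w) (φ := H325.sp) hS (l := j) hj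
  have hEu : ∀ j ≤ K, (skS n K m b w).Ex (Fld.uu (skS n K m b w) H325.sp j) =
      (skS n K m b w).Rl H325.sp j := fun j hj => F.Ex_uu hj
  have e1 : He (skS n K m b w) l (ch n K m b w l) =
      -∑ j ∈ Finset.Ico (l + 1) ((skS n K m b w).K + 1), (skS n K m b w).p j *
        H295.Cv (skS n K m b w) (Fld.uu (skS n K m b w) (H295.spn n) l)
          (Fld.uu (skS n K m b w) (H295.spn n) j) := by
    unfold He
    have e2 : (fun (z : Cd n K → ℝ) (x : Fin n → ℤˣ) => Fld.uu (skS n K m b w) H325.sp l z x *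
        (Xl (skS n K m b w) l z x - ch n K m b w l)) = fun z x =>
        -1 * ∑ j ∈ Finset.Ico (l + 1) (K + 1), (m (j + 1) - m j) *
          (Fld.uu (skS n K m b w) H325.sp l z x * Fld.uu (skS n K m b w) H325.sp j z x -
            (skS n K m b w).Rl H325.sp j * Fld.uu (skS n K m b w) H325.sp l z x) := by
      funext z x
      have e3 : Xl (skS n K m b w) l z x - ch n K m b w l =
          -1 * ∑ j ∈ Finset.Ico (l + 1) (K + 1), (m (j + 1) - m j) *
            (Fld.uu (skS n K m b w) H325.sp j z x - (skS n K m b w).Rl H325.sp j) := by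
        unfold Xl ch
        have e4 : ∑ j ∈ Finset.Ico (l + 1) ((skS n K m b w).K + 1), (skS n K m b w).p j *
            Fld.uu (skS n K m b w) H325.sp j z x = ∑ j ∈ Finset.Ico (l + 1) (K + 1),
            (m (j + 1) - m j) * Fld.uu (skS n K m b w) H325.sp j z x := rfl
        rw [e4]
        simp only [mul_sub, Finset.sum_sub_distrib]
        ring
      rw [e3]
      rw [mul_left_comm, Finset.mul_sum]
      congr 1
      refine Finset.sum_congr rfl fun j _ => ?_
      ring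
    have hN : ∀ j ∈ Finset.Ico (l + 1) (K + 1), Nh fun (z : Cd n K → ℝ) (x : Fin n → ℤˣ) =>
        (m (j + 1) - m j) * (Fld.uu (skS n K m b w) H325.sp l z x *
          Fld.uu (skS n K m b w) H325.sp j z x -
            (skS n K m b w).Rl H325.sp j * Fld.uu (skS n K m b w) H325.sp l z x) := fun j hj => by
      rw [Finset.mem_Ico] at hj
      exact Nh.const_mul _ (Nh.sub (Nh.mul (nu l hl.le) (nu j (by omega)))
        (Nh.const_mul _ (nu l hl.le)))
    rw [e2, Ex_const_mul, hS.Ex_sum _ hN, neg_one_mul]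
    congr 1
    refine Finset.sum_congr rfl fun j hj => ?_
    rw [Finset.mem_Ico] at hj
    have hj2 : j < K + 1 := hj.2
    rw [Ex_const_mul, hS.Ex_sub (Nh.mul (nu l hl.le) (nu j (by omega)))
      (Nh.const_mul _ (nu l hl.le)), Ex_const_mul, hEu l hl.le]
    show _ = (m (j + 1) - m j) * ((skS n K m b w).Ex (fun z x =>
      Fld.uu (skS n K m b w) H325.sp l z x * Fld.uu (skS n K m b w) H325.sp j z x) -
      (skS n K m b w).Ex (Fld.uu (skS n K m b w) H325.sp l) *
        (skS n K m b w).Ex (Fld.uu (skS n K m b w) H325.sp j))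
    rw [hEu l hl.le, hEu j (by omega)]
    ring
  rw [e1, abs_neg]

lemma Rl_mem (hm : Em K m) (hn : 0 < n) (hK : 0 < K) {j : ℕ} (hj : j ≤ K) :
    0 ≤ (skS n K m b w).Rl H325.sp j ∧ (skS n K m b w).Rl H325.sp j ≤ 1 := by
  have F := H295.fldP_sk hn hK hm b w (P := fun _ => False) (fun _ h => h.elim)
  exact ⟨F.Rl_nonneg hj, F.Rl_le_one hj⟩

lemma ch_mem (hm : Em K m) (hn : 0 < n) (hl : l < K) :
    0 ≤ ch n K m b w l ∧ ch n K m b w l ≤ 1 := by
  have hS : (skS n K m b w).Reg := (linS_sk hm b w).reg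
  have hp : ∀ j ∈ Finset.Ico (l + 1) (K + 1), 0 ≤ m (j + 1) - m j := fun j hj => by
    rw [Finset.mem_Ico] at hj
    exact sub_nonneg.2 (hm.mono j (by omega))
  have h1 : 0 ≤ ∑ j ∈ Finset.Ico (l + 1) (K + 1), (m (j + 1) - m j) *
      (skS n K m b w).Rl H325.sp j := Finset.sum_nonneg fun j hj => by
    have hj' := Finset.mem_Ico.1 hj
    exact mul_nonneg (hp j hj) (Rl_mem hm hn (by omega) (by omega)).1
  have h2 : ∑ j ∈ Finset.Ico (l + 1) (K + 1), (m (j + 1) - m j) *
      (skS n K m b w).Rl H325.sp j ≤ ∑ j ∈ Finset.Ico (l + 1) (K + 1), (m (j + 1) - m j) :=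
    Finset.sum_le_sum fun j hj => by
      have hj' := Finset.mem_Ico.1 hj
      calc _ ≤ (m (j + 1) - m j) * 1 :=
            mul_le_mul_of_nonneg_left (Rl_mem hm hn (by omega) (by omega)).2 (hp j hj)
        _ = _ := mul_one _
  have h3 : ∑ j ∈ Finset.Ico (l + 1) (K + 1), (m (j + 1) - m j) = 1 - m (l + 1) :=
    sum_p_top hS (l := l) hl.le
  have h4 : 0 ≤ m (l + 1) := m_nonneg hS (l := l + 1) (by show l + 1 ≤ K + 1; omega)
  unfold ch
  constructor <;> linarith

/-- **THE ROW with the heart and step 3 inserted.** -/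
theorem row_sk (hm : Em K m) (hl1 : 1 ≤ l) (hl : l < K) (hw0 : 0 < w l) (hw1 : 0 < w (l + 1))
    (hmm : m l < m (l + 1)) (i : Fin n) {t g0 g1 : ℝ} (ht : 0 < t) (ht1 : t ≤ 1)
    (hg0 : H295.gg (skS n K m b w) (H295.spn n) (H295.zs (by omega)) w l l ≤ g0)
    (hg1 : H295.gg (skS n K m b w) (H295.spn n) (H295.zs (by omega)) w (l + 1) (l + 1) ≤ g1) :
    |(skS n K m b w).Rl H325.sp l - NL K m b w l i - FdA n K m b w l -
      (bt2 n b l * (ch n K m b w l ^ 2 * (skS n K m b w).Rl H325.sp l) -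
        ch n K m b w l * Br n K m b w l)| ≤
      bt2 n b l * (2 * ((g1 + √(g0 * g1)) / (m (l + 1) - m l)) +
        8 * (√(Tt (skS n K m b w) l) / (n * w (l + 1) ^ 2)) +
        (6 / t * CrS (skS n K m b w) l + 4 * t * OwS (skS n K m b w) l +
          12 / t * (m (l + 1) ^ 2 * Tt (skS n K m b w) l) + 96 / n)) := by
  have hn : 0 < n := by
    have := i.2
    omega
  have hS : (skS n K m b w).Reg := (linS_sk hm b w).reg
  have hK : 0 < K := by omega
  have h1 := row hm (l := l) hl.le i (ch n K m b w l) ht ht1 (b := b) (w := w)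
  refine h1.trans ?_
  have hb : 0 ≤ bt2 n b l := Finset.sum_nonneg fun q _ => by positivity
  refine mul_le_mul_of_nonneg_left ?_ hb
  obtain ⟨hc0, hc1⟩ := ch_mem (b := b) (w := w) hm hn hl
  have hH := H2_le (b := b) hm hn hl hw1
  have hH0 := H2_nonneg hS (l := l) hl.le (ch n K m b w l)
  have hHe := He_le (b := b) hm hn hl1 hl hw0 hw1 hmm
  set P : ℕ → Prop := fun p => p = l ∨ p = l + 1 with hP
  have hP1 : ∀ p, P p → 1 ≤ p := fun p h => by rcases h with h | h <;> omega
  have hPw : ∀ p ≤ K, P p → 0 < w p := fun p _ h => by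
    rcases h with h | h
    · rw [h]; exact hw0
    · rw [h]; exact hw1
  have hG := H295.gp_sk hn hK hm b w hP1 hPw
  have q0 := H498.Row.gg_nonneg hG (l := l) hl.le (Or.inl rfl)
  have q1 := H498.Row.gg_nonneg hG (l := l + 1) hl (Or.inr rfl)
  have hmp : 0 < m (l + 1) - m l := by linarith
  have h2 : (H295.gg (skS n K m b w) (H295.spn n) (H295.zs hK) w (l + 1) (l + 1) +
        √(H295.gg (skS n K m b w) (H295.spn n) (H295.zs hK) w l l *
          H295.gg (skS n K m b w) (H295.spn n) (H295.zs hK) w (l + 1) (l + 1))) /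
        (m (l + 1) - m l) ≤ (g1 + √(g0 * g1)) / (m (l + 1) - m l) := by
    refine div_le_div_of_nonneg_right (add_le_add hg1 (Real.sqrt_le_sqrt ?_)) hmp.le
    exact mul_le_mul hg0 hg1 q1 (q0.trans hg0)
  have h3 : |He (skS n K m b w) l (ch n K m b w l)| ≤
      (g1 + √(g0 * g1)) / (m (l + 1) - m l) := hHe.trans h2
  have h4 : 2 * |ch n K m b w l| * |He (skS n K m b w) l (ch n K m b w l)| ≤
      2 * ((g1 + √(g0 * g1)) / (m (l + 1) - m l)) := by
    rw [abs_of_nonneg hc0]
    have h5 : ch n K m b w l * |He (skS n K m b w) l (ch n K m b w l)| ≤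
        1 * |He (skS n K m b w) l (ch n K m b w l)| :=
      mul_le_mul_of_nonneg_right hc1 (abs_nonneg _)
    linarith
  have h6 : t * H2 (skS n K m b w) l (ch n K m b w l) ≤ H2 (skS n K m b w) l (ch n K m b w l) := by
    have := mul_le_mul_of_nonneg_right ht1 hH0
    linarith
  unfold Er0
  linarith

end Vale.Agent.P146.H379.Row
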